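import Crest.Agent.X212.G75.Dat
import Crest.Agent.X212.G75.Tm
import Crest.Agent.X212.Br55.Th

/-!
# Row 212, SB-DAT (helper87): geometric data that agree with a fixed model on the head and the tail
-/

set_option autoImplicit false
set_option linter.unusedSectionVars false
noncomputable section
open Set Function Filter Topology
open scoped ContDiff Manifold
open Crest.Agent.R208.F (Ext)

namespace Crest.Agent.X212.Sb87
open An M G75
open Dr59 (mf)
open Met55 (atx Co VF FAt pfd)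
open Line51 (Ln th)
open Br55 (CN)

local notation "st" => Real.smoothTransition

theorem nest {X : Type} [TopologicalSpace X] [PreconnectedSpace X] {w w' : Wall X} {b b' : Bool}
    (h1 : w'.band ⊆ w.sd b) (h2 : w.band ⊆ w'.sd b') : w.sd (!b) ∪ w.band ⊆ w'.sd b' := by
  obtain ⟨x, hx⟩ := w.ne b
  refine w'.subset_sd (w.conn_ext _) (disjoint_left.2 ?_) (.inr hx.1) (h2 hx.1)
  rintro y (hy | hy) hc
  exacts [w.not_mem_sd (h1 (w'.core_subset hc)) hy, hc _ (h2 hy)]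

section cut
variable {X : Mf 4} (N : Band X) (b : Bool)

/-- the side `b` of a band and the heights down to `-2` -/
def up : Set X.M := {x | -2 < M.pm b * N.s x}

theorem isOpen_up : IsOpen (up N b) :=
  isOpen_lt continuous_const (continuous_const.mul N.contMDiff_s.continuous)

theorem hf_of {x : X.M} (h : -3 < M.pm b * N.s x) : x ∈ N.wall.sd b ∪ N.wall.band := by
  by_cases k : 0 < M.pm b * N.s x
  · exact .inl (N.mem_sd.2 k)
  · refine .inr ((N.exists_of_abs_s_lt ?_).elim fun y h => ⟨_, h⟩)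
    rw [← one_mul |N.s x|, ← abs_pm b, ← abs_mul]
    exact abs_lt.2 ⟨h, by linarith⟩

theorem up_sub : up N b ⊆ N.wall.sd b ∪ N.wall.band := fun _ h =>
  hf_of N b (lt_trans (by norm_num) h)

theorem sd_up : N.wall.sd b ⊆ up N b := fun _ h => lt_trans (by norm_num) (N.mem_sd.1 h)

/-- its cut-off -/
def cu (x : X.M) : ℝ := st (2 * (M.pm b * N.s x) + 5)

theorem cu_sm (x : X.M) : Pj41.FSm X.I (cu N b) x :=
  (Real.smoothTransition.contDiff.comp ((contDiff_const.mul (contDiff_const.mul contDiff_id)).add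
    contDiff_const)).contDiffAt.comp_contMDiffAt (N.contMDiff_s x)

theorem cu_supp : tsupport (cu N b) ⊆ N.wall.sd b ∪ N.wall.band :=
  (closure_minimal (t := {x | -5 / 2 ≤ M.pm b * N.s x}) (fun x (hx : _ ≠ _) => not_lt.1
    fun k : M.pm b * N.s x < -5 / 2 => hx (Real.smoothTransition.zero_of_nonpos (by linarith))) (isClosed_le continuous_const
      (continuous_const.mul N.contMDiff_s.continuous))).trans fun _ hx =>
        hf_of N b (lt_of_lt_of_le (by norm_num) hx)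

variable {N b} in
theorem cu_one {x : X.M} (h : x ∈ up N b) : cu N b x = 1 :=
  Real.smoothTransition.one_of_one_le (by linarith [show -2 < M.pm b * N.s x from h])

end cut

variable {κ lam : Type} [Fintype κ] [Fintype lam] [DecidableEq lam] {Lm : LM κ lam} {S : Scene Lm}

/-- base data can be changed away from the lens walls -/
theorem patch (β : S.Bs) {X : Mf 4} (ψ : PartialDiffeomorph X.I S.X.I X.M S.X.M ∞) {U : Set X.M}
    (hU : U ⊆ ψ.source) {χ : S.X.M → ℝ} (sm : ∀ x, Pj41.FSm S.X.I χ x) (hs : tsupport χ ⊆ ψ '' U)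
    (hl : ∀ l ∈ S.ls, ∀ x ∈ hf S.M l false, χ x = 0)
    (hi : ∀ l : S.ls, MapsTo (S.I l).ψ ((Lm.M.sys.w ()).sd false) (hf S.M l false))
    (B : Bas X univ) {γ : X.M → Ext X.E} (hγ : Dr59.Sm X.I U γ) (hd : Dr59.Dg 1 univ γ) :
    ∃ β' : S.Bs, (∀ u x, χ x = 0 → Co (atx (β.B.r 0) x) (atx (β'.B.r u) x) ∧
      ∀ i, (β'.b i).b u x = (β.b i).b 0 x) ∧ ∀ u, ∀ y ∈ U, χ (ψ y) = 1 →
      Co (fun n => mf X.I S.X.I ψ y (atx (B.r 0) y n)) (atx (β'.B.r u) (ψ y)) ∧
        ∀ i, Dr59.pm X.I S.X.I ψ ((β'.b i).b u) y = γ y := by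
  have := S.M.cpt
  have fa : ∀ x ∈ ψ '' U, FAt (pfd ψ (B.r 0)) x := by
    rintro _ ⟨y, hy, rfl⟩
    exact FAt.pfd (hU hy) ⟨fun k => (B.sm 0 y trivial k).right, B.sp 0 y trivial⟩
  let r : Fin β.B.n ⊕ Fin B.n → VF S.X.I S.X.M :=
    Sum.elim (fun k x => (1 - χ x) • β.B.r 0 k x) fun k x => χ x • pfd ψ (B.r 0) k x
  have hr : ∀ x, FAt r x := fun x => by
    refine ⟨?_, ?_⟩
    · rintro (k | k)
      exacts [.smul (contMDiffAt_const.sub (sm x)) (β.B.sm 0 x trivial k).right,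
        .cutoff (sm x) hs fun h => (fa x h).sm _]
    · by_cases h : χ x = 0
      · have k : 1 - χ x ≠ 0 := by rw [h]; norm_num
        exact (β.B.sp 0 x trivial).of_range fun a => ⟨_, .inl a, (inv_smul_smul₀ k _).symm⟩
      · exact (fa x (hs (subset_tsupport _ h))).sp.of_range fun a =>
          ⟨_, .inr a, (inv_smul_smul₀ h _).symm⟩
  let g : S.L → S.X.M → Ext S.X.E := fun i =>
    (fun x => 1 - χ x) • (β.b i).b 0 + χ • Dr59.pm S.X.I X.I ψ.symm γ
  have g0 : ∀ i x, χ x = 0 → g i x = (β.b i).b 0 x := fun i x h => by simp [g, h]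
  have r0 : ∀ u x, χ x = 0 → Co (atx (β.B.r 0) x) (atx ((cstB r hr).r u) x) := fun u x h =>
    .trans (fun a b => by
      rw [Fintype.sum_sum_type]
      simp only [atx, r, h, Sum.elim_inl, Sum.elim_inr, sub_zero, one_smul, zero_smul]
      exact (add_eq_left.2 (Finset.sum_eq_zero fun _ _ => mul_eq_zero_of_left (map_zero a) _)).symm)
      (cstB_co hr u x)
  refine ⟨⟨cstB r hr, fun i => cstL (g i) (fun x _ => (((β.b i).sm 0 x trivial).fsmul le_rfl
      (contMDiffAt_const.sub (sm x))).add (Line51.smAt_cutoff (sm x) hs fun h => ?_))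
      ((((β.b i).dg 0).fsmul _).add ((hd.pm (mapsTo_univ _ _)).fsmul _)),
      fun l u y hy => (β.met l 0 y hy).trans (r0 u _ (hl l l.2 _ (hi l hy))),
      fun l i u y hy => (Dr59.pm_congr_right (g0 i _ (hl l l.2 _ (hi l hy)))).trans (β.con l i 0 y hy),
      fun l h i u x hx => congrArg (fun c => (1 - χ x) • c + _) (β.agr l h i 0 hx)⟩,
    fun u x h => ⟨r0 u x h, fun i => g0 i x h⟩, fun u y hy h => ⟨.trans (fun a b => ?_)
      (cstB_co hr u _), fun i => ?_⟩⟩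
  · obtain ⟨y, hy, rfl⟩ := h
    exact .pm (Met55.pd_ld' (ψ.map_source (hU hy))).contMDiffAt
      (by rw [show ψ.symm (ψ y) = y from ψ.left_inv (hU hy)]; exact hγ y hy)
  · rw [Fintype.sum_sum_type, Finset.sum_eq_zero (s := Finset.univ (α := Fin β.B.n)), zero_add]
    · refine Finset.sum_congr rfl fun k _ => ?_
      have : atx r (ψ y) (.inr k) = mf X.I S.X.I ψ y (atx (B.r 0) y k) :=
        ((congrArg (· • _) h).trans (one_smul _ _)).trans (Met55.pfd_rel (hU hy) k).symm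
      rw [this]
    · intro k _
      have : atx r (ψ y) (.inl k) = 0 :=
        (congrArg (· • _) (sub_eq_zero.2 h.symm)).trans (zero_smul _ _)
      rw [this, map_zero, zero_mul]
  · have hs := hU hy
    refine (Dr59.pm_congr_right (b := Dr59.pm S.X.I X.I ψ.symm γ) (by simp [cstL, g, h])).trans ?_
    rw [Dr59.pm_comp ((Met55.pd_ld' (ψ.map_source hs)).mdifferentiableAt (by simp))
      (ψ.mdifferentiableAt (by simp) hs)]
    exact Dr59.pm_of_eventually_id (eventually_of_mem (ψ.open_source.mem_nhds hs)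
      fun _ k => ψ.left_inv k) _

/-- a flip does not change the line outside the lens wall -/
theorem lid_fl (ok : S.OK) {X : Mf 4} {A A₀ : Type} [Fintype A] [Fintype A₀] {M : Mark X A κ}
    {N : ML M lam} {I : MId M S.M A₀} {V : Set X.M} {w : X.M → Matrix lam lam ℂ}
    (hV : ∀ l ∈ S.ls, MapsTo I.ψ V (hf S.M l true))
    (hI : ∀ l ∈ S.ls, ∀ a, (S.M.sys.w (I.f' a)).band ⊆ hf S.M l true) {i i' : S.L}
    (k : Relation.ReflTransGen (fun i i' => ∃ l ∈ S.ls, i' = S.fl l i) i i')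
    (h : LId N (S.N i) I V w) : LId N (S.N i') I V w := by
  induction k with
  | refl => exact h
  | @tail j _ _ e ih =>
    obtain ⟨l, hl, rfl⟩ := e
    have o := ok.out l hl j
    have p : ∀ x ∈ hf S.M l true, (S.N (S.fl l j)).p x = (S.N j).p x := fun x hx =>
      (o.uni.iso x hx).tgt.symm.trans ((S.N j).ok.prj x trivial).refl.tgt
    refine ⟨ih.op, ih.sub, ⟨ih.uni.sm, fun x hx => p _ (hV l hl hx) ▸ ih.uni.iso x hx⟩, fun a => ?_,
      fun a q hq hx => ?_⟩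
    · have e : (S.N (S.fl l j)).LY (I.f' a) = (S.N j).LY (I.f' a) :=
        (Line51.Ln.pull_id (I := (S.M.bn (I.f' a)).Y.I) ((S.N (S.fl l j)).LY (I.f' a))).symm.trans
          (o.LY ⟨_, hI l hl a⟩)
      rw [e]; exact ih.LY a
    · have e := o.m ⟨_, hI l hl a⟩ (I.g a q.1, q.2) hq (hI l hl a ⟨_, rfl⟩)
      have e' : (S.N (S.fl l j)).m (I.f' a) (I.g a q.1, q.2) = (S.N j).m (I.f' a) (I.g a q.1, q.2) := by
        refine Eq.trans ?_ e
        exact (((S.N (S.fl l j)).um _).iso (I.g a q.1, q.2) hq).idem.symm.trans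
          (congrArg _ (p _ (hI l hl a ⟨_, rfl⟩)))
      rw [e']; exact ih.m a q hq hx

variable {y : G75.YD κ lam}

variable (y) in
/-- the head, with the necks `a` and `h` -/
def VH : Set y.X.M := up (y.M.bn y.a) true ∩ up (y.M.bn y.h) false

variable (y) in
/-- the tail, with the neck `b` -/
def VT : Set y.X.M := up (y.M.bn y.b) true

/-- the identification of the head, for the walls `a`, `h` -/
def I2 (t : TD y S) : MId y.M S.M (Fin 2) := t.IH.re (Fin.castLEEmb (by norm_num))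

/-- the matched walls of the tail -/
def TB (t : TD y S) : Type := {a : t.B // (S.M.sys.w (t.IT.f' a)).band ⊆ hf S.M t.b true}

instance (t : TD y S) : Fintype (TB t) := have : Finite (TB t) := Subtype.finite; .ofFinite _

/-- the identification of the tail -/
def IT (t : TD y S) : MId y.M S.M (TB t) := t.IT.re (.subtype _)

/-- `D` is a copy of the model `Λ₀` over `V` -/
structure Cp {A₀ : Type} [Fintype A₀] {W₀ : World y.M} (Λ₀ : Lns W₀ y.N) (I : MId y.M S.M A₀)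
    (V : Set y.X.M) (c : Cn S.L S.A) (D : S.Dat) : Prop where
  w : ∀ u u', WId W₀ D.W I V u u'
  l : ∃ w, ∀ i, c i ≠ 0 → LId y.N (S.N i) I V w ∧ ∀ u u', CId Λ₀ (D.Λ i) I V w u u'

variable {t : TD y S} {R d : ℕ} {c : Cn S.L S.A} (hy : y.OK) (ht : t.OK R c)

theorem f2 (ht : t.OK R c) : (I2 t).f 0 = y.a ∧ (I2 t).f 1 = y.h ∧ (I2 t).f' 0 = t.a ∧ (I2 t).f' 1 = t.h :=
  ⟨congrFun ht.hf0.1 0, congrFun ht.hf0.1 1, congrFun ht.hf0.2 0, congrFun ht.hf0.2 1⟩

include hy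

/-- the order of the walls of the model -/
theorem y_hs : hf y.M y.h false ⊆ (y.M.sys.w y.s).sd false :=
  have := y.M.con
  nest hy.hs.2 hy.rev.2.1

theorem VH_sub : hf y.M y.a true ∩ hf y.M y.h false ⊆ hf y.M y.a true ∩ hf y.M y.s false :=
  inter_subset_inter_right _ ((y_hs hy).trans subset_union_left)

include ht

theorem band_IH {i j : Fin 3} {b : Bool}
    (h : (y.M.sys.w (t.IH.f i)).band ⊆ (y.M.sys.w (t.IH.f j)).sd b) :
    (S.M.sys.w (t.IH.f' i)).band ⊆ (S.M.sys.w (t.IH.f' j)).sd b := by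
  rintro _ ⟨q, rfl⟩
  rw [← t.IH.jj']
  exact (t.IH.sd j b _ (t.IH.sub i ⟨_, rfl⟩)).2 (h ⟨_, rfl⟩)

/-- the order of the walls of the scene -/
theorem ord : (S.M.sys.w t.a).band ⊆ (S.M.sys.w t.h).sd false ∧
    (S.M.sys.w t.h).band ⊆ (S.M.sys.w t.a).sd true ∧
    hf S.M t.h false ⊆ (S.M.sys.w t.s).sd false ∧ hf S.M t.b true ⊆ (S.M.sys.w t.s).sd true := by
  have := S.M.con
  have e := ht.hf0
  have k := fun i j b => band_IH hy ht (i := i) (j := j) (b := b)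
  simp only [e.1, e.2] at k
  exact ⟨k 0 1 false hy.rev.1, k 1 0 true hy.ah.2, nest (k 2 1 true hy.hs.2) (k 1 2 false hy.rev.2.1),
    nest ht.ord.2 ht.ord.1⟩

omit ht in
theorem src2 (ht : t.OK R c) : hf y.M y.a true ∩ hf y.M y.h false ⊆ t.IH.ψ.source :=
  (VH_sub hy).trans ht.hl.sub

/-- the image of the head -/
theorem img2 : t.IH.ψ '' (hf y.M y.a true ∩ hf y.M y.h false) =
    hf S.M t.a true ∩ hf S.M t.h false := by
  obtain ⟨a1, a2, a3, a4⟩ := f2 ht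
  have k := fun i b x hx => G75.hf_iff (I := I2 t) i b (x := x) hx
  refine Subset.antisymm ?_ fun z hz => ?_
  · rintro _ ⟨x, hx, rfl⟩
    exact ⟨a3 ▸ (k 0 _ x (src2 hy ht hx)).2 (a1 ▸ hx.1), a4 ▸ (k 1 _ x (src2 hy ht hx)).2 (a2 ▸ hx.2)⟩
  · obtain ⟨x, hx, rfl⟩ := ht.him.ge ⟨hz.1, .inl ((ord hy ht).2.2.1 hz.2)⟩
    exact ⟨x, ⟨hx.1, a2 ▸ (k 1 _ x (ht.hl.sub hx)).1 (a4 ▸ hz.2)⟩, rfl⟩

omit hy in
/-- the head and the tail lie outside the lens walls -/
theorem out_l (ok : S.OK) {l : S.A} (hl : l ∈ S.ls) :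
    hf S.M t.h false ⊆ (S.M.sys.w l).sd true ∧ hf S.M t.b true ⊆ (S.M.sys.w l).sd true :=
  have := S.M.con
  ⟨nest (fun _ h => (ht.ls l hl (.inr h)).1) ((ok.fz _ ht.fz.2.1).2.2 l hl).1,
    nest (fun _ h => (ht.ls l hl (.inr h)).2) ((ok.fz _ ht.fz.2.2.1).2.2 l hl).1⟩

omit hy ht in
theorem s_psi {A₀ : Type} [Fintype A₀] (I : MId y.M S.M A₀) (a : A₀) (b : Bool) {x : y.X.M}
    (hx : x ∈ I.ψ.source) (h : x ∈ up (y.M.bn (I.f a)) b) : I.ψ x ∈ up (S.M.bn (I.f' a)) b := by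
  rcases up_sub _ _ h with k | ⟨q, rfl⟩
  · exact sd_up _ _ ((I.sd a b x hx).2 k)
  · rw [I.jj]
    simpa only [up, mem_ofPred_eq, Band.s_j] using h

/-- **SB-DAT** -/
theorem dat (hd : ∀ S : Scene Lm, S.OK → S.L → Nonempty S.Dat) {W₀ : World y.M} {Λ₀ : Lns W₀ y.N}
    {B : Bas y.X univ} {b : LBas y.X univ} (hW : Std W₀ B) (hΛ : LStd Λ₀ b)
    (hB : ∀ u, B.r u = B.r 0) (hb : ∀ u, b.b u = b.b 0) (cn : CN S d c) (c0 : c ≠ 0) :
    ∃ D : S.Dat, Cp Λ₀ (I2 t) (VH y) c D ∧ Cp Λ₀ (IT t) (VT y) c D := by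
  obtain ⟨i₁, h₁⟩ := Function.ne_iff.1 c0
  obtain ⟨D₀⟩ := hd S cn.ok i₁
  obtain ⟨a1, a2, a3, a4⟩ := f2 ht
  obtain ⟨o1, o2, o3, o4⟩ := ord hy ht
  have ok := cn.ok
  have hi : ∀ l : S.ls, MapsTo (S.I l).ψ ((Lm.M.sys.w ()).sd false) (hf S.M l false) :=
    fun l x hx => .inl (ok.sd_in i₁ l hx)
  have z : ∀ l ∈ S.ls, ∀ {U : Set S.X.M} {χ : S.X.M → ℝ}, tsupport χ ⊆ U →
      U ⊆ (S.M.sys.w l).sd true → U ⊆ hf S.M t.h false ∪ hf S.M t.b true →
      ∀ x ∈ hf S.M l false, χ x = 0 := fun l hl U χ h1 h2 h3 x hx =>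
    image_eq_zero_of_notMem_tsupport fun k => by
      rcases hx with hx | hx
      · exact Wall.not_mem_sd _ hx (h2 (h1 k))
      · rcases h3 (h1 k) with (e | e) | e | e
        · exact Wall.not_mem_sd _ e (ht.ls l hl (.inr hx)).1
        · exact disjoint_left.1 ((ok.fz _ ht.fz.2.1).2.2 l hl).2 e hx
        · exact Wall.not_mem_sd _ (ht.ls l hl (.inr hx)).2 e
        · exact disjoint_left.1 ((ok.fz _ ht.fz.2.2.1).2.2 l hl).2 e hx
  -- the lines
  have lT := ht.tl i₁ h₁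
  have bH : ∀ a, (S.M.sys.w ((I2 t).f' a)).band ⊆ hf S.M t.h false := Fin.forall_fin_two.2
    ⟨a3 ▸ o1.trans subset_union_left, a4 ▸ subset_union_right⟩
  have mH : MapsTo t.IH.ψ (hf y.M y.a true ∩ hf y.M y.h false) (hf S.M t.h false) := fun x hx =>
    ((img2 hy ht).le ⟨x, hx, rfl⟩).2
  have lH : LId y.N (S.N i₁) (I2 t) (hf y.M y.a true ∩ hf y.M y.h false)
      fun x => t.wL i₁ (t.IH.ψ x) * t.wH x := by
    have k := ((ht.hl.re (Fin.castLEEmb (by norm_num : 2 ≤ 3))).mono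
      ((isOpen_hf _ _).inter (isOpen_hf _ _)) (VH_sub hy)).trans ((ht.left i₁).re
        ⟨fun a : Fin 2 => ⟨(I2 t).f' a, bH a⟩, fun _ _ e => (I2 t).f'.injective
          (congrArg Subtype.val e)⟩) (fun _ => rfl) mH
    exact ⟨k.op, src2 hy ht, k.uni, k.LY, k.m⟩
  -- the base data
  have sT : tsupport (cu (S.M.bn t.b) true) ⊆ hf S.M t.b true := cu_supp _ _
  have sH : tsupport (cu (S.M.bn t.a) true * cu (S.M.bn t.h) false) ⊆
      hf S.M t.a true ∩ hf S.M t.h false := subset_inter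
    ((tsupport_mul_subset_left (f := cu _ _) (g := cu _ _)).trans (cu_supp _ _))
    ((tsupport_mul_subset_right (f := cu _ _) (g := cu _ _)).trans (cu_supp _ _))
  obtain ⟨β₁, -, t1⟩ := patch D₀.bs t.IT.ψ lT.sub (cu_sm _ _) (ht.tim.symm ▸ sT)
    (fun l hl => z l hl sT (out_l ht ok hl).2 subset_union_right) hi B
    (γ := b.b 0 - th y.X.I (t.wT i₁)) (((b.sm 0).mono (subset_univ _)).sub lT.uni.sm_th)
    ((b.dg 0).sub (Line51.dg_th _))
  obtain ⟨β₂, t2, t3⟩ := patch β₁ t.IH.ψ (src2 hy ht) (fun x => (cu_sm _ _ x).mul (cu_sm _ _ x))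
    ((img2 hy ht).symm ▸ sH) (fun l hl => z l hl sH (inter_subset_right.trans (out_l ht ok hl).1)
      (inter_subset_right.trans subset_union_left)) hi B
    (γ := b.b 0 - th y.X.I fun x => t.wL i₁ (t.IH.ψ x) * t.wH x)
    (((b.sm 0).mono (subset_univ _)).sub lH.uni.sm_th) ((b.dg 0).sub (Line51.dg_th _))
  obtain ⟨C⟩ := Cyl58.caps _ _ _ S.M
  obtain ⟨D, -, e1, e2⟩ := β₂.exists_dat ok C
  have vH : VH y ⊆ hf y.M y.a true ∩ hf y.M y.h false := inter_subset_inter (up_sub _ _) (up_sub _ _)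
  have vT : VT y ⊆ hf y.M y.b true := up_sub _ _
  have oH : IsOpen (VH y) := (isOpen_up _ _).inter (isOpen_up _ _)
  have cH : ∀ x ∈ VH y, (cu (S.M.bn t.a) true * cu (S.M.bn t.h) false) (t.IH.ψ x) = 1 := fun x hx => by
    have k := fun a b => s_psi (I2 t) a b (src2 hy ht (vH hx))
    rw [Pi.mul_apply, cu_one (a3 ▸ k 0 true (a1 ▸ hx.1)), cu_one (a4 ▸ k 1 false (a2 ▸ hx.2)), one_mul]
  have cT : ∀ x ∈ VT y, cu (S.M.bn t.b) true (t.IT.ψ x) = 1 := fun x hx =>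
    cu_one (ht.tf0.2 ▸ s_psi t.IT t.b₀ true (lT.sub (vT hx)) (ht.tf0.1 ▸ hx))
  have mT : MapsTo t.IT.ψ (hf y.M y.b true) (hf S.M t.b true) := fun x hx => ht.tim.le ⟨x, hx, rfl⟩
  have zT : ∀ x ∈ VT y, (cu (S.M.bn t.a) true * cu (S.M.bn t.h) false) (t.IT.ψ x) = 0 := fun x hx =>
    image_eq_zero_of_notMem_tsupport fun k => Wall.not_mem_sd _ (o3 (sH k).2) (o4 (mT (vT hx)))
  have e : ∀ {w : y.X.M → Matrix lam lam ℂ} {x u} {g : Ext y.X.E},
      g = (b.b 0 - th y.X.I w) x → th y.X.I w x + g = b.b u x := fun {w x u g} k => by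
    rw [k, hb u]; simp
  refine ⟨D, ⟨fun u u' => wId_std hW D.std (vH.trans (src2 hy ht)) fun x hx => ?_,
    fun x => t.wL i₁ (t.IH.ψ x) * t.wH x, fun i hi => ?_⟩,
    ⟨fun u u' => wId_std hW D.std (vT.trans lT.sub) fun x hx => ?_, t.wT i₁, fun i hi => ?_⟩⟩
  · rw [hB, e1]; exact (t3 u' x (vH hx) (cH x hx)).1
  · have k := lid_fl ok (I := I2 t) (fun l hl x hx => .inl ((out_l ht ok hl).1 (mH (vH hx))))
      (fun l hl a => (bH a).trans ((out_l ht ok hl).1.trans subset_union_left))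
      (ht.orb _ _ h₁ hi) (lH.mono oH vH)
    exact ⟨k, fun u u' => cId_std hΛ (D.lstd i) k fun x hx =>
      e (e2 ▸ (t3 u' x (vH hx) (cH x hx)).2 i)⟩
  · rw [hB, e1]; exact (t1 0 x (vT hx) (cT x hx)).1.trans (t2 u' _ (zT x hx)).1
  · have k := lid_fl ok (I := IT t) (fun l hl x hx => .inl ((out_l ht ok hl).2 (mT (vT hx))))
      (fun l hl a => a.2.trans ((out_l ht ok hl).2.trans subset_union_left))
      (ht.orb _ _ h₁ hi) ((lT.re _).mono (isOpen_up _ _) vT)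
    exact ⟨k, fun u u' => cId_std hΛ (D.lstd i) k fun x hx => e (e2 ▸ (Dr59.pm_congr_right
      ((t2 u' _ (zT x hx)).2 i)).trans ((t1 0 x (vT hx) (cT x hx)).2 i))⟩

omit ht in
/-- the model -/
theorem model : ∃ (W₀ : World y.M) (Λ₀ : Lns W₀ y.N), W₀.Nrm ∧ Λ₀.Nrm ∧
    ((∀ S : Scene Lm, S.OK → S.L → Nonempty S.Dat) → ∀ (S : Scene Lm) (t : TD y S) R c d,
      t.OK R c → CN S d c → c ≠ 0 →
        ∃ D : S.Dat, Cp Λ₀ (I2 t) (VH y) c D ∧ Cp Λ₀ (IT t) (VT y) c D) := by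
  have := y.M.cpt
  obtain ⟨n, e, he⟩ := Met55.exists_frame (I := y.X.I) (M := y.X.M)
  obtain ⟨C⟩ := Cyl58.caps _ _ _ y.M
  obtain ⟨W, -, hW⟩ := Met55.exw Ms48.ms1 _ _ _ y.M C (cstB e he) hy.sp
  obtain ⟨Λ, hΛ⟩ := Line51.exl _ _ _ _ y.M W y.N (cstL 0 Dr59.Sm.zero Dr59.Dg.zero) hy.spl
  exact ⟨W.nm, Λ.nm, W.nm_nrm, Λ.nm_nrm, fun hd S t R c d ht => dat hy ht hd (B := cstB e he)
    ⟨hW.off, hW.band⟩ ⟨hΛ.off, hΛ.band⟩ (fun _ => rfl) fun _ => rfl⟩

end Crest.Agent.X212.Sb87
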