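import Crest.Agent.X212.Sw87.SbG
import Crest.Agent.X212.An31.Nk

/-!
# Row 212, SB-GEO (helper87): the plug
-/

set_option autoImplicit false
set_option linter.unusedSectionVars false
noncomputable section
open Set Function Filter Topology MeasureTheory
open scoped ContDiff Manifold

namespace Crest.Agent.X212.Sb87
open An M G75
open Cht98 (hZ hZ_φ)
open Pat85 (Tk)
open Br55 (CN)

variable {κ lam : Type} [Fintype κ] [Fintype lam] [DecidableEq lam] {Lm : LM κ lam} {S : Scene Lm}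
  {y : G75.YD κ lam} {t : TD y S} {R d : ℕ} {c : Cn S.L S.A}

theorem hZ_β {X : Mf 4} {A : Type} [Fintype A] {M : Mark X A κ} (C : Caps M) {e : M.Cl} {a : A}
    (h : a ∈ e.1) (hp : M.pin a) (b : Bool) :
    ∃ x ∈ (M.sys.w a).band, ∀ a', hZ C e a' (C.β e a b 0) = (M.bn a').s x :=
  ⟨_, ⟨_, rfl⟩, fun _ => (Cyl58.capsD C e).lift_cap _ _ ⟨(a, b), h, hp⟩ (0 : V4)⟩

theorem far {X : Mf 4} {N N' : Band X} (b : Bool) (h : Disjoint N.wall.band N'.wall.band)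
    (k : N'.wall.band ⊆ N.wall.sd (!b)) {x : X.M} (hx : x ∈ N'.wall.band) : x ∉ up N b := fun e =>
  (up_sub _ _ e).elim (fun e => Wall.not_mem_sd _ e (k hx)) fun e => disjoint_left.1 h e hx

variable (hy : y.OK) (ht : t.OK R c) (cn : CN S d c) {i : S.L} {σ : Finset S.A} (hc : c i σ ≠ 0)
include hy ht

theorem imH : (I2 t).ψ '' VH y = up (S.M.bn t.a) true ∩ up (S.M.bn t.h) false := by
  obtain ⟨a1, a2, a3, a4⟩ := f2 ht
  have k := fun a x hx => s_ψ (I2 t) a (x := x) hx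
  refine Subset.antisymm ?_ fun z hz => ?_
  · rintro _ ⟨x, hx, rfl⟩
    have := src2 hy ht ⟨up_sub _ _ hx.1, up_sub _ _ hx.2⟩
    exact ⟨a3 ▸ s_psi _ 0 _ this (a1 ▸ hx.1), a4 ▸ s_psi _ 1 _ this (a2 ▸ hx.2)⟩
  · obtain ⟨x, hx, rfl⟩ := (img2 hy ht).ge ⟨up_sub _ _ hz.1, up_sub _ _ hz.2⟩
    have k0 := k 0 x (src2 hy ht hx)
    have k1 := k 1 x (src2 hy ht hx)
    rw [a3, a1] at k0
    rw [a4, a2] at k1
    exact ⟨x, ⟨LT.lt.trans_eq hz.1 (congrArg (_ * ·) k0), LT.lt.trans_eq hz.2 (congrArg (_ * ·) k1)⟩, rfl⟩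

omit hy
include hc

theorem imT : (IT t).ψ '' VT y = up (S.M.bn t.b) true := by
  have l := (ht.tl i (ne_iff.2 ⟨_, hc⟩)).sub
  refine Subset.antisymm ?_ fun z hz => ?_
  · rintro _ ⟨x, hx, rfl⟩
    exact ht.tf0.2 ▸ s_psi t.IT t.b₀ _ (l (up_sub _ _ hx)) (ht.tf0.1 ▸ hx)
  · obtain ⟨x, hx, rfl⟩ := ht.tim.ge (up_sub _ _ hz)
    have k := s_ψ t.IT t.b₀ (l hx)
    rw [ht.tf0.1, ht.tf0.2] at k
    exact ⟨x, LT.lt.trans_eq hz (congrArg (_ * ·) k), rfl⟩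

include cn

theorem cmp {x w : S.A} (hx : x ∈ σ ∪ S.fz) (hw : w ∈ S.fz) (n : x ≠ w) : S.M.sys.Cmp w x :=
  (cn.ok.cell _ _ (cn.cl.mem _ _ hc).1).1 (.inr hw) (by simpa using hx) n.symm

theorem actH {x : S.A} (hx : x ∈ σ ∪ S.fz) (n : x ≠ t.a) (n' : x ≠ t.h) :
    Disjoint (S.M.sys.w x).band (up (S.M.bn t.a) true ∩ up (S.M.bn t.h) false) :=
  disjoint_left.2 fun _ hp k => by
    rcases ht.side _ _ hc x hx with j | j | j | j
    exacts [n j, n' j, far true (cmp ht cn hc hx ht.fz.1 n) j hp k.1,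
      far false (cmp ht cn hc hx ht.fz.2.1 n') j hp k.2]

theorem actT {x : S.A} (hx : x ∈ σ ∪ S.fz) (n : x ≠ t.b) :
    (∃ a, (IT t).f' a = x ∧ range (y.M.bn ((IT t).f a)).j ⊆ VT y) ∨
      Disjoint (S.M.sys.w x).band (up (S.M.bn t.b) true) := by
  obtain ⟨b, k⟩ := Wall.exists_side (cmp ht cn hc hx ht.fz.2.2.1 n)
  cases b
  · exact .inr (disjoint_left.2 fun _ => far true (cmp ht cn hc hx ht.fz.2.2.1 n) k)
  obtain ⟨a, rfl⟩ := ht.tw _ _ hc x hx k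
  refine .inl ⟨⟨a, k.trans subset_union_left⟩, rfl, ?_⟩
  rintro _ ⟨q, rfl⟩
  refine sd_up _ _ (ht.tf0.1 ▸ (t.IT.sd t.b₀ true _ (t.IT.sub a ⟨_, rfl⟩)).1 (ht.tf0.2 ▸ k ?_))
  exact ⟨_, (t.IT.jj a q).symm⟩

omit ht cn hc in
theorem core_sub {X : Mf 4} {A Wi A' h : Type} [Fintype A] {M : Mark X A κ} {W : World M} {N : ML M lam}
    {Λ : Lns W N} [Fintype A'] [DecidableEq A'] [Fintype h] {r n : ℕ} {J : Job Wi Λ A' h r n}
    (hJ : J.OK) {e : M.Cl} {s : A' → ℝ} (k : Fin37.Pm J e s) :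
    Fin37.core J e s 0 ⊆ Tk W J.m e (J.Θ s) := fun z hz a hp ha => not_lt.1 fun l => by
  obtain ⟨-, h2, h3⟩ := Pat85.pm_par hJ k
  rcases ha with ha | ha
  · obtain ⟨b, hb⟩ := Cht98.exists_dom (t := (J.Θ s).2 a) (.inr (Cht98.hZ_ne W.toCaps ha hp z))
    refine hz ⟨(a, some b), hp, h2, h3, ha⟩ ?_
    rw [Nka63.O_zero, Pat85.nk_target hJ]; exact ⟨abs_lt.1 l, hb⟩
  · refine hz ⟨(a, none), hp, h2, h3, ha⟩ ?_
    rw [Nka63.O_zero, Pat85.nk_target hJ]; exact ⟨abs_lt.1 l, .inl (h3 a ha.2.1)⟩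

omit ht cn hc in
/-- **AN-GEO** -/
theorem geoStmt (hd : Ins26.DatStmt Lm) : St29.Sb.GeoStmt Lm := fun y P hP => by
  have hy := hP.y
  obtain ⟨W₀, Λ₀, -, -, hm⟩ := model (Lm := Lm) hy
  obtain ⟨v, a, -, hg⟩ := geo W₀ Λ₀
  refine ⟨max a (max (|v| + |v|) (3 * (3 + Fintype.card y.A) * (1 + An31.vM y))),
    fun S t R c d ht cn c0 => ?_⟩
  obtain ⟨D, ⟨w1, wH, l1⟩, w2, wT, l2⟩ := hm hd S t R c d ht cn c0
  refine ⟨D, fun n m k T Z hZ q x hs => ?_⟩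
  have ci : c Z.i ≠ 0 := ne_iff.2 ⟨_, hZ.c⟩
  have hJ := (hZ.F.J Z.i ci m k).1
  have pm : Fin37.Pm Z.J Z.e x.s := ⟨Z.ce, ⟨Z.τ, none, Z.σ, rfl, nofun, hZ.c, hZ.sub⟩, hs.cell, hs.inf⟩
  obtain ⟨-, br, o⟩ := Pat85.pm_par hJ pm
  have act : ∀ u, (Z.F.Θ x.s).2 u ≠ 0 → u ∈ Z.σ ∪ S.fz := fun u h => (eq_or_ne u t.a).elim
    (fun e => e ▸ Finset.mem_union_right _ ht.fz.1) fun n => An31.mem_of hZ hs.cell n h
  have mem : ∀ u, ¬S.M.pin u → (Z.F.Θ x.s).2 u ≠ 0 → u ∈ Z.F.m.1 := fun u hp h => by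
    refine hZ.F.mem (Finset.mem_union.2 (by_contra fun j => h ?_))
    rw [not_or] at j
    exact (update_of_ne (fun e : u = t.a => j.1 (e ▸ ht.fz.1)) _ _).trans
      ((if_neg j.1).trans (if_neg fun i => i.elim hp fun i => i.elim j.2 (Finset.notMem_empty _)))
  have inf : ∀ u ∈ Z.e.1, u ∈ Z.σ ∪ S.fz := fun u h => act u (ne_of_eq_of_ne (br.2 h) one_ne_zero)
  have ca := An31.a_cyl ht cn hZ
  have fr := An31.fr_wx hy ht cn hZ
  obtain ⟨a1, a2, a3, a4⟩ := f2 ht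
  let O := fun e => {z | 0 < Cht98.hZ D.W.toCaps Z.e t.a z ∧ Loc8.hb D.W.toCaps Z.e (An31.wx t e) e z < 1}
  have oO : ∀ e, IsOpen (O e) := fun e => (isOpen_lt continuous_const
    (Cht98.sm_hZ _ (.inl ca)).continuous).inter (isOpen_lt (continuous_const.mul
      (Cht98.sm_hZ _ (.inr (fr e))).continuous) continuous_const)
  have up' : ∀ {N : Band S.X} {e u}, M.pm e * N.s u < 1 → u ∈ up N (!e) := fun {N e u} h => by
    cases e <;> simp only [up, M.pm, mem_ofPred_eq] at h ⊢ <;> simp at h ⊢ <;> linarith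
  have hφ : ∀ e u, u ∉ S.M.sys.cores Z.e.1 → D.W.φ Z.e u ∈ O e →
      u ∈ up (S.M.bn t.a) true ∩ up (S.M.bn (An31.wx t e)) (!e) := fun e u hu h =>
    ⟨sd_up _ _ ((S.M.bn t.a).mem_sd.2 (by simpa [M.pm, hZ_φ _ (.inl ca) hu] using h.1)),
      up' (hZ_φ D.W.toCaps (.inr (fr e)) hu ▸ h.2)⟩
  have hβ : ∀ e u, u ∈ Z.e.1 → S.M.pin u → ∀ b, D.W.β Z.e u b 0 ∈ O e → ¬Disjoint (S.M.sys.w u).band
      (up (S.M.bn t.a) true ∩ up (S.M.bn (An31.wx t e)) (!e)) := fun e u hu hp b h => by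
    obtain ⟨p, h1, h2⟩ := hZ_β D.W.toCaps hu hp b
    exact not_disjoint_iff.2 ⟨p, h1, sd_up _ _ ((S.M.bn t.a).mem_sd.2
      (by simpa [M.pm, h2] using h.1)), up' (h2 _ ▸ h.2)⟩
  have np : ∀ {u w}, S.M.pin u → w ∈ S.fz → u ≠ w := fun h k e => (cn.ok.fz _ k).1 (e ▸ h)
  have kT := hg (D.Λ Z.i) (w2 _ _) (l2 _ ci).1 ((l2 _ ci).2 _ _) ⟨br, o, fun u h => (eq_or_ne u t.b).elim
    (fun e => .inl ⟨⟨t.b₀, ht.tf0.2.symm ▸ subset_union_right⟩, ht.tf0.2.trans e.symm⟩) fun n =>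
      (actT ht cn hZ.c (act u h) n).imp (·.imp fun _ k => k.1) (imT ht hZ.c ▸ ·), mem⟩ (oO false)
    (fun u hu h => imT ht hZ.c ▸ (hφ false u hu h).2) fun u hu hp b h =>
      (actT ht cn hZ.c (inf u hu) (np hp ht.fz.2.2.1)).resolve_right fun k =>
        hβ false u hu hp b h (k.mono_right inter_subset_right)
  have kH := hg (D.Λ Z.i) (w1 _ _) (l1 _ ci).1 ((l1 _ ci).2 _ _) ⟨br, o, fun u h => or_iff_not_imp_left.2
    fun n => imH hy ht ▸ actH ht cn hZ.c (act u h) (fun e => n ⟨0, a3.trans e.symm⟩)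
      fun e => n ⟨1, a4.trans e.symm⟩, mem⟩ (oO true)
    (fun u hu h => imH hy ht ▸ hφ true u hu h) fun u hu hp b h => (hβ true u hu hp b h
      (actH ht cn hZ.c (inf u hu) (np hp ht.fz.1) (np hp ht.fz.2.1))).elim
  refine ⟨fun z ⟨h, e, k⟩ => le_max_of_le_left ?_, le_max_of_le_right
    (le_max_of_le_left (ENNReal.toReal_le_of_le_ofReal (by positivity) ?_)),
    (An31.nk_le hy ht cn hZ hs.cell).trans (le_max_of_le_right (le_max_right _ _))⟩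
  · cases e
    exacts [kT.1 z ⟨h, k⟩, kH.1 z ⟨h, k⟩]
  refine (measure_mono (t := O true ∩ _ ∪ O false ∩ _) ?_).trans
    ((measure_union_le _ _).trans ((add_le_add kH.2 kT.2).trans ?_))
  · rintro z ⟨⟨h, _ | _, k⟩, l⟩
    exacts [.inr ⟨⟨h, k⟩, core_sub hJ pm l⟩, .inl ⟨⟨h, k⟩, core_sub hJ pm l⟩]
  · rw [ENNReal.ofReal_add (abs_nonneg _) (abs_nonneg _)]
    gcongr <;> exact le_abs_self _

end Crest.Agent.X212.Sb87
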