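import Crest.Agent.X212.Sw87.Arith
import Crest.Agent.X212.Lens8.D
import Crest.Agent.X212.Lens17.Defs

/-!
# Row 212 (helper87): window sums of the lens space correction terms, and the final kill
-/

set_option autoImplicit false

namespace Crest.Agent.X212.Sw87

open Finset

/-- sum over the window `[n, n+q)` -/
def win (q : ℕ) (f : ℤ → ℚ) (n : ℤ) : ℚ := ∑ b ∈ range q, f (n + b)

theorem win_succ (q : ℕ) (f : ℤ → ℚ) (n : ℤ) : win q f (n + 1) = win q f n + (f (n + q) - f n) := by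
  have h1 := sum_range_succ (fun b : ℕ => f (n + b)) q
  have h2 := sum_range_succ' (fun b : ℕ => f (n + b)) q
  have e : ∀ b : ℕ, n + ((b + 1 : ℕ) : ℤ) = n + 1 + b := fun b => by push_cast; ring
  simp only [e, Nat.cast_zero, add_zero] at h2
  unfold win
  linarith

theorem win_quad {p : ℚ} (hp : p ≠ 0) (q : ℕ) (f : ℤ → ℚ)
    (h : ∀ j : ℤ, f (j + q) - f j = (2 * (j : ℚ) + 1 - p) / p) (n : ℤ) :
    win q f n = win q f 0 + ((n : ℚ) ^ 2 - p * n) / p := by
  induction n using Int.induction_on with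
  | zero => simp
  | succ n ih => rw [win_succ, ih, h]; push_cast; field_simp; ring
  | pred n ih =>
    have := win_succ q f (-(n : ℤ) - 1)
    rw [sub_add_cancel, ih, h] at this
    rw [← sub_eq_iff_eq_add] at this
    rw [← this]; push_cast; field_simp; ring

theorem sum_per {p : ℕ} (d : ℤ → ℚ) (hper : ∀ j, d (j + p) = d j) (n : ℤ) :
    win p d n = win p d 0 := by
  induction n using Int.induction_on with
  | zero => rfl
  | succ n ih => rw [win_succ, ih, hper]; ring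
  | pred n ih =>
    have := win_succ p d (-(n : ℤ) - 1)
    rw [sub_add_cancel, ih, hper] at this
    linarith

theorem per_emod {p : ℕ} (d : ℤ → ℚ) (hper : ∀ j, d (j + p) = d j) (j : ℤ) : d (j % p) = d j := by
  have hp : Function.Periodic d (p : ℤ) := hper
  have := hp.int_mul (j / p) (j % p)
  rw [← this]; congr 1
  have := Int.emod_add_ediv_mul j p
  simpa using this.symm ▸ rfl

theorem sum_y (p : ℕ) : ∀ n : ℕ, ∑ y ∈ range n, ((y : ℚ) ^ 2 - p * y) =
    (n : ℚ) * (n - 1) * (2 * n - 1) / 6 - p * (n * (n - 1)) / 2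
  | 0 => by simp
  | n + 1 => by rw [sum_range_succ, sum_y p n]; push_cast; ring

section
variable {p q : ℕ} (hp : 0 < p) (d : ℤ → ℚ) (hper : ∀ j, d (j + p) = d j)
  (hsh : ∀ j : ℤ, d (j + q) - d j = (2 * ((j % p : ℤ) : ℚ) + 1 - p) / p)
include hp hsh

theorem win_nat (y : ℕ) (hy : y ≤ p) : win q d y = win q d 0 + ((y : ℚ) ^ 2 - p * y) / p := by
  have : (p : ℚ) ≠ 0 := by positivity
  induction y with
  | zero => simp
  | succ y ih =>
    push_cast
    rw [win_succ, ih (by omega), hsh, Int.emod_eq_of_lt (by omega) (by omega)]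
    push_cast; field_simp; ring

include hper

theorem win_zero : win q d 0 = q * (∑ j ∈ range p, d j) / p + D0 p / 2 := by
  have hp' : (p : ℚ) ≠ 0 := by positivity
  have h1 : ∑ y ∈ range p, win q d y = q * ∑ j ∈ range p, d j := by
    unfold win
    rw [sum_comm]
    have : ∀ b ∈ range q, ∑ y ∈ range p, d ((y : ℤ) + b) = ∑ j ∈ range p, d j := fun b _ => by
      have := sum_per d hper b
      simp only [win, zero_add] at this
      rw [← this]; exact sum_congr rfl fun y _ => by rw [add_comm]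
    rw [sum_congr rfl this]; simp
  rw [sum_congr rfl fun y hy => win_nat hp d hsh y (mem_range.1 hy).le, sum_add_distrib,
    ← sum_div, sum_y] at h1
  simp only [sum_const, card_range, nsmul_eq_mul] at h1
  rw [← h1, D0]; field_simp; ring

/-- window sum of `d` -/
theorem win_d (n : ℤ) : win q d n = q * (∑ j ∈ range p, d j) / p + D0 p / 2 -
    ((n % p : ℤ) : ℚ) * (p - ((n % p : ℤ) : ℚ)) / p := by
  have h0 : 0 ≤ n % p := Int.emod_nonneg _ (by omega)
  have h1 : n % p < p := Int.emod_lt_of_pos _ (by omega)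
  have e : win q d n = win q d (n % p) :=
    (per_emod (p := p) (win q d) (fun j => sum_congr rfl fun b _ => by
      rw [add_right_comm, hper]) n).symm
  obtain ⟨y, hy⟩ := Int.eq_ofNat_of_zero_le h0
  rw [e, hy, win_nat hp d hsh y (by omega), win_zero hp d hper hsh]
  push_cast; ring

end

/-- ARITH, abstract form: `d` periodic with the shift identity and total sum zero, `Φ` its quadratic
extension, `Ψ = Φ + ⌊j/q⌋` -/
theorem kill_abs {p q : ℕ} (hp : 2 ≤ p) (hq : 1 ≤ q) (h : ¬ (p = 2 ∧ q = 1)) (d Φ : ℤ → ℚ)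
    (hper : ∀ j, d (j + p) = d j)
    (hsh : ∀ j : ℤ, d (j + q) - d j = (2 * ((j % p : ℤ) : ℚ) + 1 - p) / p)
    (hΦ : ∀ j : ℤ, Φ (j + q) - Φ j = (2 * (j : ℚ) + 1 - p) / p)
    (h0 : ∀ b : ℕ, b < q → Φ b = d b) (hS : ∑ j ∈ range p, d j = 0) (s : Finset ℤ) (r : ℤ → ℕ)
    (hA : ∑ i ∈ s, (r i : ℚ) * ∑ b ∈ range q, (2 * (Φ (i * q + b) + i) - 1) = 0)
    (hC : ∑ i ∈ s, (r i : ℚ) * ∑ b ∈ range q, d (i * q + b) = 0) : ∀ i ∈ s, r i = 0 := by
  have hp0 : 0 < p := by omega
  have hp' : (p : ℚ) ≠ 0 := by positivity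
  refine kill hp hq h s r (hA.symm ▸ sum_congr rfl fun i _ => ?_) ?_
  · congr 1
    have e1 := win_quad hp' q Φ hΦ (i * q)
    have e2 : win q Φ 0 = win q d 0 := sum_congr rfl fun b hb => by
      rw [zero_add, h0 b (mem_range.1 hb)]
    rw [e2, win_zero hp0 d hper hsh, hS] at e1
    simp only [sum_sub_distrib, ← mul_sum, sum_add_distrib, sum_const, card_range, nsmul_eq_mul]
    rw [show ∑ b ∈ range q, Φ (i * q + b) = _ from e1, Aco]
    push_cast; field_simp; ring
  · have : ∀ i ∈ s, (r i : ℚ) * Cco p q i = 2 * ((r i : ℚ) * ∑ b ∈ range q, d (i * q + b)) :=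
      fun i _ => by
        rw [show ∑ b ∈ range q, d (i * q + b) = _ from win_d hp0 d hper hsh (i * q), hS, Cco]; ring
    rw [sum_congr rfl this, ← mul_sum, hC, mul_zero]

/-- ARITH for `Lens8.dL`, `Lens8.Phi` -/
theorem kill8 {p q : ℕ} (hp : 2 ≤ p) (hq : 1 ≤ q) (hc : Nat.Coprime p q) (h : ¬ (p = 2 ∧ q = 1))
    (hS : ∑ j ∈ range p, Lens8.dL p q j = 0) (s : Finset ℤ) (r : ℤ → ℕ)
    (hA : ∑ i ∈ s, (r i : ℚ) * ∑ b ∈ range q, (2 * (Lens8.Phi p q (i * q + b) + i) - 1) = 0)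
    (hC : ∑ i ∈ s, (r i : ℚ) * ∑ b ∈ range q, Lens8.dL p q (i * q + b) = 0) :
    ∀ i ∈ s, r i = 0 := by
  have hp' : (p : ℚ) ≠ 0 := by positivity
  have hq' : (q : ℚ) ≠ 0 := by positivity
  refine kill_abs hp hq h _ _ (Lens8.dL_add p q) (Lens8.dL_shift (by omega) hc) (fun j => ?_)
    (fun b hb => Lens8.Phi_eq (by omega) hq hc (by omega) (by omega)) hS s r hA hC
  rw [Lens8.Phi, Lens8.Phi, Lens8.dL_add]; push_cast; field_simp; ring

/-- ARITH for `Lens17.d`, `Lens17.Psi` -/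
theorem kill17 {p q : ℕ} (hp : 2 ≤ p) (hq : 1 ≤ q) (hc : Nat.Coprime p q) (h : ¬ (p = 2 ∧ q = 1))
    (hS : ∑ j ∈ range p, Lens17.d p q j = 0) (s : Finset ℤ) (r : ℤ → ℕ)
    (hA : ∑ i ∈ s, (r i : ℚ) * ∑ b ∈ range q, (2 * Lens17.Psi p q (i * q + b) - 1) = 0)
    (hC : ∑ i ∈ s, (r i : ℚ) * ∑ b ∈ range q, Lens17.d p q (i * q + b) = 0) :
    ∀ i ∈ s, r i = 0 := by
  refine kill_abs hp hq h _ _ (Lens17.d_add_self p q) (Lens17.shift (by omega) hc)
    (Lens17.Phi_add_q (by omega) hq)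
    (fun b hb => Lens17.Phi_eq_d (by omega) hq hc (by omega) (by omega)) hS s r ?_ hC
  refine hA.symm ▸ sum_congr rfl fun i _ => congrArg _ (sum_congr rfl fun b hb => ?_)
  have hb' := mem_range.1 hb
  rw [Lens17.Psi_eq (by omega) hq hc, add_comm (i * q), Int.add_mul_ediv_right _ _ (by omega),
    Int.ediv_eq_zero_of_lt (by omega) (by omega), zero_add]

end Crest.Agent.X212.Sw87
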