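import Crest.Agent.X212.Nv5.Stm

/-!
# Row 212, layer S (helper87): the two caps

`two : Nv5.TwoStmt`.
-/

set_option autoImplicit false
set_option linter.unusedSectionVars false

open Set Filter Topology Function
open scoped ContDiff Manifold
open Crest.Agent.X212.Bor5.T Crest.Agent.X212.Orx52 Crest.Agent.X212.Nv5
open Crest.Agent.X212.Cyl58 (TP TIso exists_jn)
open Crest.Agent.X212.Rod53 (E4 Z2 Loc Jr PM TE fn wd)

noncomputable section

namespace Crest.Agent.X212.Sw87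

variable {τ : Tub} {Y : O3} {v v' : ℝ → Z2} {a : Z2}

theorem conn_time [ConnectedSpace τ.N.M] {J : Set ℝ} (hJ : IsOpen J) (h : IsPreconnected J) :
    IsPreconnected (τ.T.time v ⁻¹' J) := by
  refine ((τ.T.isPreconnected_Ex.prod h).image _ ((τ.T.ext v).contMDiffOn_toFun.continuousOn.mono
    (prod_mono subset_rfl (subset_univ _)))).subset_closure ?_
    ((τ.T.dense_ext.open_subset_closure_inter (hJ.preimage τ.T.continuous_time)).trans (closure_mono ?_))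
  · rintro _ ⟨p, hp, rfl⟩
    exact show τ.T.time v _ ∈ J from (τ.T.time_ext hp.1).symm ▸ hp.2
  · rintro _ ⟨h1, p, hp, rfl⟩
    exact ⟨p, ⟨hp.1, τ.T.time_ext hp.1 ▸ h1⟩, rfl⟩

theorem fn_cy (f : Fo τ Y a) {J : Set ℝ} (hJ : IsOpen J) (e : ∀ x ∈ J, v' x = v x) (y : Y.Y.M) {t : ℝ} (ht : t ∈ J)
    (h : t ∈ Jr v' a) : fn τ.T τ.T id v' v (f.cy v' (y, t)) = f.cy v (y, t) := by
  rcases f.F.surj y with ⟨q, rfl⟩ | ⟨w, rfl⟩
  · unfold Fo.cy
    rw [f.F.cyf_ie, f.F.cyf_ie]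
    exact (TE.refl τ.T).fn_ext (q := (q.1, t)) ((f.F.hW _).1 q.2)
  · unfold Fo.cy
    rw [f.F.cyf_it, f.F.cyf_it]
    exact (TE.refl τ.T).fn_rod f.hu (.inr h) (.inr (interior_maximal e hJ ht))

/-- the product structure over rods -/
def Fo.ti (f : Fo τ Y a) (hv : Loc v) {J : Set ℝ} (hJ : IsOpen J) (h : J ⊆ Jr v a) : TIso Y.cyl (τ.T.tp hv) J :=
  f.F.tiso (Y := Y.Y.pc) hv f.hu hJ h

theorem Fo.ti_pos (f : Fo τ Y a) (hv : Loc v) {J : Set ℝ} (hJ : IsOpen J) (h : J ⊆ Jr v a) :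
    TPos (Fo.ti f hv hJ h) (pr Y.o oR) (oX hv τ.ori) :=
  (oX_spec hv τ.ori).tiso (Y := Y.Y.pc) f.F hv f.hu hJ h Y.ori f.pos

theorem exists_jc [ConnectedSpace τ.N.M] (f : Fo τ Y (1, 0)) (N : Nk Y) (hv : Loc v)
    (h : Ioo N.α N.β ⊆ Jr v (1, 0)) : ∃ Z, Nonempty (Jc f N hv Z) ∧ ∃ s, ∀ x, s ≤ Z.X.τ x := by
  obtain ⟨t, ht⟩ := nonempty_Ioo.2 N.lt
  have y : Y.Y.M := Classical.arbitrary _
  have e : N.W.X.τ (N.k (y, t)) ∈ Ioo N.α N.β := N.k.mem (x := (y, t)) ht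
  obtain ⟨X, ⟨j⟩⟩ := exists_jn N.lt (N.k.symm.trans (Fo.ti f hv isOpen_Ioo h)) ⟨_, e.2⟩
  obtain ⟨O, h1, -, h2, h3⟩ := jn_ori j (oriOn N.W.ori _) (oriOn (oX_spec hv τ.ori).ori _)
    (N.pk.symm.trans (Fo.ti_pos f hv _ h))
  have := N.cpt
  obtain ⟨s, hs⟩ := (isCompact_range N.W.X.cont).bddBelow
  have c : IsPreconnected (univ : Set X.P.M) := by
    have c1 := N.con.image j.l fun p hp => (j.l.ld hp).contMDiffAt.continuousAt.continuousWithinAt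
    have c2 := (conn_time (τ := τ) (v := v) isOpen_Ioi isPreconnected_Ioi).image j.r
      fun p hp => (j.r.ld hp).contMDiffAt.continuousAt.continuousWithinAt
    rw [j.l.image_preimage subset_rfl] at c1
    erw [j.r.image_preimage subset_rfl] at c2
    rw [← preimage_univ (f := X.τ), ← j.union, preimage_union]
    have k := j.l.tm _ e.2
    exact c1.union (j.l (N.k (y, t))) (show X.τ _ < _ from k ▸ e.2) (show _ < X.τ _ from k ▸ e.1) c2
  have := X.ne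
  let Z : W4 :=
    { X := X, mE := borel _, bE := @BorelSpace.mk _ _ (borel _) rfl, ms := borel _
      bs := @BorelSpace.mk _ _ (borel _) rfl, con := @ConnectedSpace.mk _ _ ⟨c⟩ ‹_›, o := O, ori := h1 }
  refine ⟨Z, ⟨⟨j.l, j.r, h2, h3, fun y t ht => (j.eq _ (N.k.mem (x := (y, t)) ht)).symm.trans ?_⟩⟩,
    _, j.lower fun p => hs ⟨p, rfl⟩⟩
  exact congrArg (fun p => j.r (f.cy v p)) (N.k.symm_apply (x := (y, t)) ht)

/-- a translation by zero -/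
def sh0 {M M' : TP E4} {J : Set ℝ} (k : TIso M M' J) : TIso (M.shift 0) M' J :=
  ⟨k.φ, k.src.trans (Set.ext fun p => by
    show M.τ p ∈ J ↔ M.τ p + 0 ∈ J
    rw [add_zero]), k.tgt, fun p h => (k.tm p (by simpa [TP.shift] using h)).trans (add_zero _).symm⟩

theorem sh0_pos {M M' : TP E4} {J : Set ℝ} {k : TIso M M' J} {o o'} (h : TPos k o o') : TPos (sh0 k) o o' :=
  Pos.mono h fun p hp => by simpa [TP.shift] using hp

theorem jrC : Iio (-1 : ℝ) ⊆ Jr (wd wC) (1, 0) := by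
  have := Rod53.Iio_subset_Jr (a := wC) (α := (1, 0)) (j := -2) fun k hk => .inl (if_pos (by omega))
  norm_num at this
  exact this

theorem jrZ : Iio (-1 : ℝ) ⊆ Jr (wd wZ) (1, 0) := by
  have := Rod53.Iio_subset_Jr (a := wZ) (α := (1, 0)) (j := -2) fun k hk => .inl (if_pos (by omega))
  norm_num at this
  exact this

theorem jrC' : Ioi (-1 : ℝ) ⊆ Jr (wd wC) (1, 1) := by
  simpa using Rod53.Ioi_subset_Jr (a := wC) (α := (1, 1)) (i := -1) fun k hk => .inl (if_neg (by omega))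

theorem jrZ' : Ioi (0 : ℝ) ⊆ Jr (wd wZ) (0, 1) := by
  simpa using Rod53.Ioi_subset_Jr (a := wZ) (α := (0, 1)) (i := 0) fun k hk =>
    .inl ((if_neg (by omega)).trans (if_neg (by omega)))

theorem jrH : Iio (0 : ℝ) ⊆ Jr (wd (w1 (1, 1) (0, 1))) (1, 1) := by
  simpa using Rod53.Iio_subset_Jr (a := w1 (1, 1) (0, 1)) (α := (1, 1)) (j := -1) fun k hk => .inl (if_pos (by omega))

theorem jrH' : Ioi (0 : ℝ) ⊆ Jr (wd (w1 (1, 1) (0, 1))) (0, 1) := by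
  simpa using Rod53.Ioi_subset_Jr (a := w1 (1, 1) (0, 1)) (α := (0, 1)) (i := 0) fun k hk => .inl (if_neg (by omega))

theorem eqC {t : ℝ} (h : t < 0) : wd wC t = wd wZ t :=
  Rod53.wd_congr (i := ⌊t⌋ - 1) (j := -1) (fun k _ hk => by
    unfold wC wZ w1 w2; split_ifs <;> first | rfl | omega)
    ⟨by push_cast; linarith [Int.floor_le t], by simpa using h⟩

theorem eqH {t : ℝ} (h : -1 < t) : wd (w1 (1, 1) (0, 1)) t = wd wZ t :=
  Rod53.wd_congr (i := -1) (j := ⌊t⌋) (fun k hk _ => by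
    unfold wZ w1 w2; split_ifs <;> first | rfl | omega) ⟨by simpa using h, Int.lt_floor_add_one t⟩

/-- **NV-TWO** -/
theorem two : TwoStmt := fun S τ _ X Y f N => by
  have b1 := N.hb
  have b2 := N.lt
  have s1 : Ioo N.α N.β ⊆ Iio (-1) := fun t ht => show t < -1 by linarith [ht.2]
  obtain ⟨Z, ⟨J⟩, lo⟩ := exists_jc f N isC.loc (s1.trans jrC)
  obtain ⟨Z', ⟨J'⟩, lo'⟩ := exists_jc f N isZ.loc (s1.trans jrZ)
  have i1 : Ioi (-1 : ℝ) ⊆ Ioi N.α := Ioi_subset_Ioi (by linarith)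
  have i2 : Ioi (0 : ℝ) ⊆ Ioi N.α := Ioi_subset_Ioi (by linarith)
  have i3 : Ioi (-3 / 4 : ℝ) ⊆ Ioi N.α := Ioi_subset_Ioi (by linarith)
  have i4 : Ioo N.α 0 ⊆ Ioi N.α := Ioo_subset_Ioi_self
  have e1 : ∀ x ∈ Ioo N.α 0, wd wC x = wd wZ x := fun _ h => eqC h.2
  have e2 : ∀ x ∈ Ioi (-3 / 4 : ℝ), wd (w1 (1, 1) (0, 1)) x = wd wZ x := fun _ h => eqH (by linarith [mem_Ioi.1 h])
  let r := X.r1 eg
  let k₁ := J.l.symm.trans J'.l
  let k₂ := (J.r.restr isOpen_Ioo i4).symm.trans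
    ((τ.T.chg isC.loc isZ.loc isOpen_Ioo e1).trans (J'.r.restr isOpen_Ioo i4))
  have q₂ : ∀ p, τ.T.time _ p ∈ Ioo N.α 0 → k₂ (J.r p) = J'.r (fn τ.T τ.T id _ _ p) := fun p hp =>
    congrArg (fun x => J'.r (fn τ.T τ.T id _ _ x)) ((J.r.restr isOpen_Ioo i4).symm_apply hp)
  obtain ⟨l, l1, l2⟩ := TIso.exists_glue₂ (L := Iio 0) isOpen_Iio isOpen_Ioo
    (Iio_union_Ioo ((min_le_left _ _).trans_lt b2) |>.trans (by rw [max_eq_right (by linarith)])) k₁ k₂ fun x h h' => by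
      obtain ⟨p, a1, rfl⟩ := J.l.surj h
      have a2 : N.W.X.τ p ∈ Ioo N.α N.β := a1 ▸ ⟨h'.1, h⟩
      obtain ⟨⟨y, t⟩, a3, rfl⟩ := N.k.surj a2
      have ht : t ∈ Ioo N.α N.β := by
        have : t = N.W.X.τ (N.k (y, t)) := a3
        rw [this]; exact a2
      have a4 : t ∈ Ioo N.α 0 := ⟨ht.1, by linarith [ht.2]⟩
      refine (congrArg J'.l (J.l.symm_apply a2.2)).trans ?_
      rw [J.ov y t ht, J'.ov y t ht, q₂ _ (by rwa [f.F.time_cyf _ _ (jrC (s1 ht))]),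
        fn_cy f isOpen_Ioo e1 y a4 (jrC (s1 ht))]
  let m := (r.K.restr isOpen_Ioi (subset_univ _)).symm.trans
    ((τ.T.chg (X.h1 eg).loc isZ.loc isOpen_Ioi e2).trans (J'.r.restr isOpen_Ioi i3))
  have q : ∀ p, -3 / 4 < τ.T.time _ p → m (r.K p) = J'.r (fn τ.T τ.T id _ _ p) := fun p hp =>
    congrArg (fun x => J'.r (fn τ.T τ.T id _ _ x)) ((r.K.restr isOpen_Ioi (subset_univ _)).symm_apply hp)
  let ko := (Fo.ti (X.f ib trivial) isC.loc isOpen_Ioi jrC').trans (J.r.restr isOpen_Ioi i1)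
  let g : Gl Z (S.cob (X.c1 eg)).toW4 Z' ko (S.cob (X.c1 eg)).ki :=
    { δ₁ := 0, δ₂ := 0, α := -3 / 4, β := 0, lt := by norm_num, hb := by norm_num
      ha := by rw [r.ha, add_zero]
      l := sh0 l
      r := sh0 m
      pl := sh0_pos (tpos_of_loc fun t ht => (lt_or_ge t N.β).elim
        (fun k => ⟨_, isOpen_Iio, k, k₁, J.pl.symm.trans J'.pl, l1⟩) fun k => ⟨_, isOpen_Ioo, ⟨b2.trans_le k, ht⟩, k₂,
          (J.pr.restr _ _).symm.trans (((oX_spec _ τ.ori).chg (oX_spec _ τ.ori) _ _ _ _).trans (J'.pr.restr _ _)), l2⟩)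
      pr := sh0_pos ((r.pos.restr _ _).symm.trans
        (((oX_spec _ τ.ori).chg (oX_spec _ τ.ori) _ _ _ _).trans (J'.pr.restr _ _)))
      ov := fun y t ht => by
        have a1 : t ∈ Jr (wd wC) (1, 1) := jrC' (by linarith [ht.1] : -1 < t)
        have a2 : t ∈ Ioo N.α 0 := ⟨i3 ht.1, ht.2⟩
        have a3 : τ.T.time _ ((X.f ib trivial).cy (wd wC) (y, t)) ∈ Ioo N.α 0 := by
          rwa [(X.f ib trivial).F.time_cyf _ _ a1]
        rw [sub_zero, ← r.ki (y, t) ht.2]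
        refine ((l2 _ ((J.r.tm _ a3.1).symm ▸ a3)).trans (q₂ _ a3)).trans (Eq.trans ?_ (q _ ?_).symm)
        · exact congrArg J'.r ((fn_cy _ isOpen_Ioo e1 y a2 a1).trans (fn_cy _ isOpen_Ioi e2 y ht.1 (jrH ht.2)).symm)
        · exact ((X.f ib trivial).F.time_cyf _ _ (jrH ht.2)).symm ▸ ht.1 }
  refine ⟨⟨Z, Z', J, J', lo, lo', ko,
    (Fo.ti (X.f ie trivial) isZ.loc isOpen_Ioi jrZ').trans (J'.r.restr isOpen_Ioi i2),
    (Fo.ti_pos _ _ _ _).trans (J.pr.restr _ _), (Fo.ti_pos _ _ _ _).trans (J'.pr.restr _ _),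
    ⟨0, .of_forall fun _ _ => by rw [add_zero]; rfl⟩, g, rfl, rfl, rfl, rfl, fun p hp =>
      (l1 _ (J.l.mem hp)).trans (congrArg J'.l (J.l.symm_apply hp)), q,
    ⟨0, (eventually_gt_atTop 0).mono fun t ht y => ?_⟩⟩⟩
  have a1 : (-3 / 4 : ℝ) < t := by linarith
  rw [add_zero]
  refine (congrArg g.fr (r.ko (y, t) ht).symm).trans ?_
  exact (q _ (((X.f ie trivial).F.time_cyf _ _ (jrH' ht)).symm ▸ a1)).trans
    (congrArg J'.r (fn_cy _ isOpen_Ioi e2 y a1 (jrH' ht)))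

end Crest.Agent.X212.Sw87
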