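import Crest.Agent.X212.Sw87.MoS

/-!
# Row 212, GEO engine (helper87), part X: families on the total manifold, the squares at the necks
-/

set_option autoImplicit false
set_option linter.unusedSectionVars false
noncomputable section
open scoped Manifold ContDiff Topology InnerProductSpace
open MeasureTheory Set Function Filter

namespace Crest.Agent.X212.Sw87.Mo
open An Cyf70 Sw Flo2 Geo28 Met55 Pen22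
open Bor5.T (O3 Q3 Pb Cur)
open Dr59 (Cs pm mf HZ)

variable {mk : Mk κ0 L0 ν0} {X X₁ X₂ : M4} {τ τP : MT κ0 X} {τ₁ : MT κ0 X₁} {τ₂ : MT κ0 X₂}

section
variable {A : O3} {k₁ : Nc A X₁ (Ioi 0)} {k₂ : Nc A X₂ (Iio 0)} {g : Gl3 k₁ k₂ X}

theorem fin_glue (H : Lf) {I : Type} {f : I → X.Fm} {f₁ f₂} (h : ∀ i, g.Fm (f i) (f₁ i) (f₂ i))
    (h₁ : (range f₁).Finite) (h₂ : (range f₂).Finite) : (range f).Finite :=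
  ((h₁.prod h₂).biUnion (t := fun p => {y | g.Fm y p.1 p.2}) fun _ _ =>
    Set.Subsingleton.finite fun _ a _ b => H.cgl.fm g _ _ _ _ a b).subset
    (range_subset_iff.2 fun i => mem_biUnion (x := (f₁ i, f₂ i)) ⟨⟨i, rfl⟩, i, rfl⟩ (h i))

theorem fm_add {f f₁ f₂ f' f₁' f₂'} (h : g.Fm f f₁ f₂) (h' : g.Fm f' f₁' f₂') :
    g.Fm (f + f') (f₁ + f₁') (f₂ + f₂') :=
  ⟨fun p k => by rw [Dr59.pm_add, Pi.add_apply, h.1 p k, h'.1 p k]; rfl,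
    fun p k => by rw [Dr59.pm_add, Pi.add_apply, h.2 p k, h'.2 p k]; rfl⟩

end

theorem tri_hull {d : X.L} {f₀ f₁ f₂ : X.Fm} (h : X.Tri d f₀ f₁ f₂) :
    ∀ f ∈ convexHull ℝ {(1 / 2 : ℝ) • f₀, (1 / 2 : ℝ) • f₁, (1 / 2 : ℝ) • f₂}, X.Ps d ((2 : ℝ) • f) := by
  have : convexHull ℝ {(1 / 2 : ℝ) • f₀, (1 / 2 : ℝ) • f₁, (1 / 2 : ℝ) • f₂} ⊆ {f | ∃ a b c : ℝ, 0 ≤ a ∧ 0 ≤ b ∧
      0 ≤ c ∧ a + b + c = 1 ∧ (2 : ℝ) • f = a • f₀ + b • f₁ + c • f₂} := by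
    refine convexHull_min ?_ ?_
    · rintro _ (rfl | rfl | rfl)
      exacts [⟨1, 0, 0, by simp [smul_smul]⟩, ⟨0, 1, 0, by simp [smul_smul]⟩, ⟨0, 0, 1, by simp [smul_smul]⟩]
    · rintro x ⟨a, b, c, h1, h2, h3, h4, h5⟩ y ⟨a', b', c', k1, k2, k3, k4, k5⟩ u v hu hv e
      refine ⟨u * a + v * a', u * b + v * b', u * c + v * c', by positivity, by positivity, by positivity,
        by linear_combination u * h4 + v * k4 + e, ?_⟩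
      linear_combination (norm := module) u • h5 + v • k5
  intro f hf
  obtain ⟨a, b, c, h1, h2, h3, h4, h5⟩ := this hf
  exact h5 ▸ h a b c h1 h2 h3 h4

theorem mt_off {J r} {f : X.M → X.M} : ∀ {a : Option O3} (k : Ec a X J), (∀ p, k.tm p ∈ J → f p = p) →
    Ec.Mt r f k k
  | none, _, _ => trivial
  | some _, k, h => fun y _ ht _ => h _ (by rw [Ec.tm, tm_k k y ht]; exact ht)

/-- a reflection as an isomorphism -/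
def rfIso {a b} {T : Pm a b none} (ρ : Rf T) (n : T.nb = 0) : T.Iso T :=
  ⟨ρ.toDif, mt_off _ fun p h => ρ.id p fun k => k.1.not_gt h, mt_off _ fun p h => ρ.id p fun k => k.2.1.not_gt h,
    trivial, rfl, fun j => (j.cast n).elim0⟩

theorem bw_self {γ : TG τ τ₁ τ₂} {β : MB τ 1} {β₁ : MB τ₁ 0} {β₂ : MB τ₂ 0} {βP : MB τP 0}
    (f : ∀ u, γ.GF β β₁ β₂ 0 e0 e0 u) (e : βP.e 0 = β.e 0) : Bw β βP 0 e0 β :=
  ⟨rfl, fun _ _ => rfl, fun t x p q => by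
    rcases le_total 1 (t 0) with h | h
    · rw [sT1 h]; ring
    · rw [t0 (_ ∘ _), e, (f t).ue (f 0) (congrArg _ (Subsingleton.elim _ _)) (congrArg _ (Subsingleton.elim _ _))
        ((ET.nf_two _ (by simp)).trans (ET.nf_two _ (by linarith)).symm)]
      ring⟩

theorem bij_l : Bijective (Sum.elim (Sum.elim ![(0 : Fin 2)] e0) fun _ : Unit => (1 : Fin 2)) := by decide

theorem bij_r : Bijective (Sum.elim (Sum.elim e0 ![(0 : Fin 2)]) fun _ : Unit => (1 : Fin 2)) := by decide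

variable {G : CG} {a : Option Q3} {B C : Q3} (P : PG G a B C) {𝓔 : Ends mk}

/-- the forms at a class -/
def tri (b : Bool) (k : P.X.L) : Set P.X.Fm :=
  {(1 / 2 : ℝ) • P.η k, (1 / 2 : ℝ) • (P.ρ b).fm P.η k, (1 / 2 : ℝ) • P.ηN k}

theorem fin_η (H : Lf) : (range fun θ : PM P => P.η θ.k).Finite :=
  fin_glue H (fun θ => P.eC _ _ _ θ.lC θ.rC) (fin_glue H (fun θ => P.e12 _ _ _ θ.l12 θ.r12)
    (P.fin.1.subset (range_comp_subset_range _ _)) (P.fin.2.1.subset (range_comp_subset_range _ _)))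
    (P.fin.2.2.1.subset (range_comp_subset_range _ _))

theorem fin_tri (H : Lf) (b : Bool) : (⋃ θ : PM P, tri P b θ.k).Finite := by
  have h := fin_glue H (fun θ : PM P => P.eN _ _ θ.lN) (P.fin.2.2.2.subset (range_comp_subset_range _ _))
    (finite_range_const)
  refine ((((fin_η P H).union ((fin_η P H).image (pm P.X.X.I P.X.X.I (P.ρ b).φ))).union h).image ((1 / 2 : ℝ) • ·)).subset
    (iUnion_subset ?_)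
  rintro θ _ (rfl | rfl | rfl)
  exacts [⟨_, .inl (.inl ⟨θ, rfl⟩), rfl⟩, ⟨_, .inl (.inr ⟨_, ⟨θ.rs b, rfl⟩, rfl⟩), rfl⟩, ⟨_, .inr ⟨θ, rfl⟩, rfl⟩]

variable {P}

/-- **families on the total manifold** -/
theorem fmX (g : Gn mk) {τ : MT κ0 P.X.X} (o : On P.X τ (𝓔.go a) (𝓔.go a) ()) {k} {β : MB τ k} (k2 : k ≤ 2)
    (F : FM (𝓔.TP G a B C) β (PM P)) (hd : ∀ θ, F.d θ = θ.k) (b : Bool) (S : PM P → Set P.X.Fm)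
    (hS : ∀ θ, S θ ⊆ tri P b θ.k) (hl : ∀ θ, Hl (F.c θ) (S θ)) (pk : ∀ θ, Pk mk (F.c θ).toMM)
    (h2 : ∀ c, ∀ i ∈ β.wl c, (τ.nb i).e.H2) (wl : ∀ θ c, ∀ i ∈ β.wl c, ((F.c θ).ec i).kd ≠ .qhs →
      (∀ ens C, ((F.c θ).gc ens C).Hol i) ∧ (a = none → ∃ s, (τ.nb i).n.Cl θ.k s ∧ Tor s)) :
    ∃ R : RF mk (𝓔.TP G a B C) β (PM P), R.toFM = F ∧ R.Prp id 0 := by
  have p3 : τ.p3 = none := Option.map_eq_none_iff.1 o.p3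
  obtain ⟨R, rfl⟩ := g.fm F S (g.ts _ _ _ (tp_fin a B C)) k2 (o.nc.trans P.gN.nT) (fun e => (e p3).elim)
    (fun θ j e => (pk θ).q j (τ.of_port (.inr (.inl e)))) (.inl fun θ j e => (pk θ).q j (τ.of_port (.inl e)))
    (fun θ c j e k => (wl θ c j e k).1) (fun _ _ e => nomatch p3.symm.trans e)
    ((fin_tri P g.lf b).subset (iUnion_mono hS)) hl fun e θ => by
      have := Ends.go_none ((congrArg _ e).symm.trans o.pin)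
      rw [hd]
      refine ⟨fun f hf => tri_hull (P.p this b _ θ.hk) f (convexHull_mono (hS θ) hf), ?_⟩
      rintro j (e | ⟨c, e⟩) k
      exacts [(nomatch k.symm.trans ((pk θ).q j e)), (wl θ c j e (k ▸ nofun)).2 this]
  exact ⟨R, rfl, g.prp P.X R o.toOnP h2 fun θ θ' e => PM.ext ((hd θ).symm.trans (e.trans (hd θ')))⟩

variable {D : CapD 𝓔 G} {Z : BD P D} {Q : QD Z}

theorem QD.pk (θ : PM P) : Pk mk (Q.cP.c θ).toMM := Q.cP.pk (Ends.en_q a) (Ends.en_q a) θ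

theorem QD.cl (θ : PM P) : (Q.cP.c θ).Cl θ.k := (Q.hd θ).1 ▸ Q.cP.cl θ

theorem GD.cl (Γ : GD Q) (b : Bool) (θ : PM P) : ((Γ.Γ b).c θ).Cl θ.k :=
  (Q.hd θ).1 ▸ (Γ.Γ b).hd ▸ (Γ.Γ b).cl θ

theorem GD.fo (Γ : GD Q) (b : Bool) (θ : PM P) (u) : ((Γ.Γ b).c θ).fo u =
    (1 - s1 u) • (1 / 2 : ℝ) • P.η θ.k + s1 u • (1 / 2 : ℝ) • (P.ρ b).fm P.η θ.k := by
  rw [((Γ.Γ b).im θ).fo, (Q.fo _).1, (Q.fo _).1, Dr59.pm_smul]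
  rfl

theorem GD.hl (Γ : GD Q) (b : Bool) (θ : PM P) :
    (∀ f ∈ ({(1 / 2 : ℝ) • P.η θ.k, (1 / 2 : ℝ) • (P.ρ b).fm P.η θ.k} : Set _), Cs P.X.X.I 2 univ f) ∧
    ∀ u, ((Γ.Γ b).c θ).fo u ∈ convexHull ℝ {(1 / 2 : ℝ) • P.η θ.k, (1 / 2 : ℝ) • (P.ρ b).fm P.η θ.k} := by
  refine ⟨?_, fun u => ?_⟩
  · rintro _ (rfl | rfl)
    · simpa [Γ.fo, show s1 0 = 0 from sT0] using ((Γ.Γ b).c θ).cs 0
    · simpa [Γ.fo, show s1 1 = 1 from sT1 le_rfl] using ((Γ.Γ b).c θ).cs 1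
  · rw [convexHull_pair, Γ.fo]
    exact ⟨_, _, sub_nonneg.2 (s1_mem u).2, (s1_mem u).1, sub_add_cancel _ _, rfl⟩

theorem wc_self {γ : TG τ τ₁ τ₂} {β : MB τ 1} {βP : MB τP 0} {β₁ : MB τ₁ 0} {β₂ : MB τ₂ 0} {w : MC μ0 β}
    {p : MC μ0 βP} {c₁ : MC μ0 β₁} {c₂ : MC μ0 β₂} {d f} (cl : w.Cl d) (fw : ∀ u, w.fo u = f)
    (fp : ∀ u, p.fo u = f) (fm : γ.g.Fm f (c₁.fo 0) (c₂.fo 0)) :
    ∃ w₀ : MC μ0 β, BwC w₀ p 0 e0 w ∧ w₀.Cl d ∧ ∀ u, γ.g.Fm (w₀.fo u) (c₁.fo 0) (c₂.fo 0) :=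
  ⟨w, ⟨rfl, fun _ => id, fun t => by rw [fw, fp]; module, id⟩, cl, fun u => fw u ▸ fm⟩

theorem q_ty {N : Type} {p : Option N} {ty : N → TY} {A : Q3} {s} (e : p.map ty = (𝓔.en (some A)).ty s) {i}
    (hi : p = some i) : (ty i).1.kd = .qhs := kd_of e (Ends.en_q _) hi

theorem QD.wB (θ : PM P) : Wc mk Q.tC.γ Q.βB (Q.cB.c θ) (Q.cP.c θ) (Z.D0.p.c θ.j0) (Z.F3.F.c θ.d3) θ.k :=
  ⟨wc_self ((Q.hd θ).2.2 ▸ Q.cB.cl θ) (Q.fo θ).2.2 (Q.fo θ).1 (by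
      rw [(Z.D0.fo _).1, Z.F3.fo]; exact fm_smul (P.eC _ _ _ θ.lC θ.rC) _), Q.cB.mc θ, Q.gmB θ, (Q.b0 θ).pe,
    Q.pk θ, (Q.cB.ro θ).en, fun _ => (congrArg (fun T : TY => T.1.kd) (Q.gmB θ).t₂).symm.trans
      (q_ty (Z.F3.F.hs _) ((Z.F3.τ.inn _).1 Q.tC.γ.s_2))⟩

theorem BD.fB (g : Gn mk) (Z : BD P D) (θ : PM P) : P.gB.Fm (P.η θ.k) (P.η1 θ.d1) (P.η23 θ.j') :=
  let ⟨_, _, _, h⟩ := g.as P.toPG0 Z.D0.t Z.D1.t (Ends.go_std a) Z.F1.fe Z.F2.fe Z.F3.fe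
  h.f (P.e12 _ _ _ θ.l12 θ.r12) (P.e23 _ _ _ θ.l23 θ.r23) (P.eC _ _ _ θ.lC θ.rC)

theorem QD.wA (g : Gn mk) (θ : PM P) :
    Wc mk Q.tB.γ Q.βA (Q.cA.c θ) (Q.cP.c θ) (Z.F1.F.c θ.d1) (Z.D1.p.c θ.j1) θ.k :=
  ⟨wc_self ((Q.hd θ).2.1 ▸ Q.cA.cl θ) (Q.fo θ).2.1 (Q.fo θ).1 (by
      rw [(Z.D1.fo _).1, Z.F1.fo]; exact fm_smul (Z.fB g θ) _), Q.cA.mc θ, Q.gmA θ, (Q.a0 θ).pe,
    Q.pk θ, (Q.cA.ro θ).en, fun _ => (congrArg (fun T : TY => T.1.kd) (Q.gmA θ).t₁).symm.trans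
      (q_ty (Z.F1.F.ht _) Q.tB.γ.port.1)⟩

theorem Wc.fm {γ : TG τ τ₁ τ₂} {β : MB τ 1} {βP : MB τP 0} {β₁ : MB τ₁ 0} {β₂ : MB τ₂ 0} {w : MC μ0 β}
    {p : MC μ0 βP} {c₁ : MC μ0 β₁} {c₂ : MC μ0 β₂} {β₀ d} (W : Wc mk γ β₀ w p c₁ c₂ d) :
    γ.g.Fm (w.fo 1) (c₁.fo 0) (c₂.fo 0) := by
  obtain ⟨x, b, -, f⟩ := W.ex
  simpa [b.fo, sT1] using f 1

theorem seg_self {f : X.Fm} (s : ℝ) : (1 - s) • f + s • f = f := by module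

/-- the family of a square at a neck -/
theorem sqS (g : Gn mk) (Γ : GD Q) (b : Bool) {β : MB Q.τ 2} {βw : MB Q.τ 1} (W : RF mk (𝓔.TP G a B C) βw (PM P))
    {i} (wl : ∀ a, ∀ j ∈ β.wl a, j = i) (h2 : (Q.τ.nb i).e.H2) (pe : ∀ θ, Pe (Q.cP.c θ).toMM (W.c θ).toMM)
    (q : ∀ θ, ((W.c θ).ec i).kd = .qhs) {p : ∀ _ : PM P, MC μ0 β → Prop} (h : ∀ θ, ∃ c : MC μ0 β,
      c.toMM = (W.c θ).toMM ∧ c.Cl θ.k ∧ c.mc = 0 ∧ (∀ t, c.fo t = ((Γ.Γ b).c θ).fo (t ∘ ![0])) ∧ p θ c) :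
    ∃ S : RF mk (𝓔.TP G a B C) β (PM P), (∀ θ, p θ (S.c θ)) ∧ S.Prp id 0 := by
  choose c M cl mc fo hp using h
  obtain ⟨R, e, k⟩ := fmX g Q.tC.o le_rfl ⟨c, _, cl, mc, fun θ j => M θ ▸ W.ty θ j⟩ (fun _ => rfl) b _
    (fun θ => insert_subset_insert (singleton_subset_iff.2 (.inl rfl)))
    (fun θ => ⟨toFinite _, (Γ.hl b θ).1, fun t _ => by rw [fo]; exact (Γ.hl b θ).2 _⟩)
    (fun θ => M θ ▸ (pe θ).pk (Q.pk θ) (W.ro θ).en) (fun a j e => wl a j e ▸ h2)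
    fun θ a j e k => (k (wl a j e ▸ (congrArg (fun M : MM μ0 _ => (M.ec i).kd) (M θ)).trans (q θ))).elim
  exact ⟨R, fun θ => by rw [e]; exact hp θ, k⟩

/-- **P-SD** -/
theorem sdStmt : SdStmt mk := fun g 𝓔 G a B C P D Z Q Γ => by
  have H := g.lf
  have n : Q.τ.nc = 0 := Q.tC.o.nc.trans P.gN.nT
  have E := ei_iso Q.tC.o Q.tC.o (isoId _)
  have E' := fun b => ei_iso Q.tC.o Q.tC.o (rfIso (P.ρ b) P.gN.nT)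
  have i₁ : ∀ p, 0 < Q.tC.γ.k₁.tm p → P.ρ12.φ p = p := fun p h => P.ρ12.id p fun k => k.2.1.not_gt h
  have i₂ : ∀ p, Q.tB.γ.k₂.tm p < 0 → P.ρ23.φ p = p := fun p h => P.ρ23.id p fun k => k.1.not_gt h
  obtain ⟨β1, w1, h1⟩ := sq g Q.ΛC (φ₂ := .refl _) P.mC i₁ (fun _ _ => rfl) E (E' false) n Q.gB.1 Q.gB.2
    (bw_self Q.gB.2 Q.ep.2) (Γ.bl false) bij_l Z.D0.bl.mv (mv_pt _)
  obtain ⟨β2, w2, h2⟩ := sq g Q.ΛB (φ₁ := .refl _) P.mB (fun _ _ => rfl) i₂ E (E' true) n Q.gA.1 Q.gA.2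
    (bw_self Q.gA.2 Q.ep.1) (Γ.bl true) bij_r (mv_pt _) Z.D1.bl.mv
  obtain ⟨S1, k1, p1⟩ := sqS g Γ false Q.cB w1 (Q.tC.γ.h ▸ (𝓔.q C).h2) (fun θ => (Q.b0 θ).pe)
    (fun θ => (Q.wB θ).q rfl) fun θ => by
      obtain ⟨c, a1, a2, a3, a4, a5, a6⟩ := h1 ((Z.D0.γ.im θ.j0).mvc (Z.D0.γ.mc _) rfl) (mvc_pt (Z.F3.F.mc _))
        (Q.wB θ) (Q.wB (θ.rs false)) ((Γ.Γ false).im θ) ((Γ.Γ false).mc θ) (Γ.cl _ θ) ((P.ρ false).pb _)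
        ((Q.gmB (θ.rs false)).t₂.symm.trans (Q.gmB θ).t₂)
      refine ⟨c, a1, a2, a3, fun t => ?_, And.intro a4 a5⟩
      obtain ⟨f, k, e⟩ := a6 t
      have := fm_add (fm_smul (Q.wB θ).fm (1 - s1 (t ∘ ![0]))) (fm_smul (fm_pm (φ₂ := .refl _) P.mC i₁
        (fun _ _ => rfl) (Q.wB (θ.rs false)).fm) (s1 (t ∘ ![0])))
      rw [pm_refl, (Q.fo _).2.2, (Q.fo _).2.2, ← (Q.fo θ).1 0, ← (Q.fo (θ.rs false)).1 0] at this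
      rw [t0 (t ∘ e0), ← seg_self (f := MC.fo _ 0) (s1 (t ∘ ![0])), (Z.D0.γ.im θ.j0).fo] at k
      rw [e, H.cgl.fm _ _ _ _ _ k this, ((Γ.Γ false).im θ).fo]
      module
  obtain ⟨S2, k2, p2⟩ := sqS g Γ true Q.cA w2 (Q.tB.γ.h ▸ (𝓔.q B).h2) (fun θ => (Q.a0 θ).pe)
    (fun θ => (Q.wA g θ).q rfl) fun θ => by
      obtain ⟨c, a1, a2, a3, a4, a5, a6⟩ := h2 (mvc_pt (Z.F1.F.mc _)) ((Z.D1.γ.im θ.j1).mvc (Z.D1.γ.mc _) rfl)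
        (Q.wA g θ) (Q.wA g (θ.rs true)) ((Γ.Γ true).im θ) ((Γ.Γ true).mc θ) (Γ.cl _ θ) ((P.ρ true).pb _)
        ((Q.gmA (θ.rs true)).t₁.symm.trans (Q.gmA θ).t₁)
      refine ⟨c, a1, a2, a3, fun t => ?_, And.intro a4 a5⟩
      obtain ⟨f, k, e⟩ := a6 t
      have := fm_add (fm_smul (Q.wA g θ).fm (1 - s1 (t ∘ ![0]))) (fm_smul (fm_pm (φ₁ := .refl _) P.mB
        (fun _ _ => rfl) i₂ (Q.wA g (θ.rs true)).fm) (s1 (t ∘ ![0])))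
      rw [pm_refl, (Q.fo _).2.1, (Q.fo _).2.1, ← (Q.fo θ).1 0, ← (Q.fo (θ.rs true)).1 0] at this
      rw [t0 (t ∘ e0), ← seg_self (f := MC.fo _ 0) (s1 (t ∘ ![0])), (Z.D1.γ.im θ.j1).fo] at k
      rw [e, H.cgl.fm _ _ _ _ _ k this, ((Γ.Γ true).im θ).fo]
      module
  exact ⟨⟨β1, β2, S1, S2, fun θ => (k1 θ).1, fun θ => (k1 θ).2, fun θ => (k2 θ).1, fun θ => (k2 θ).2,
    (g.lrf _ _ _ _ (.refl _) P.mC i₁ fun _ _ => rfl).2, (g.lrf _ _ _ (.refl _) _ P.mB (fun _ _ => rfl) i₂).2,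
    p1, p2⟩⟩

end Crest.Agent.X212.Sw87.Mo
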