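import Crest.Agent.X212.Sw87.MoL
import Crest.Agent.X212.Geo28.TrB

/-!
# Row 212, GEO engine (helper87), part E: ends, represented points, marks
-/

set_option autoImplicit false
set_option linter.unusedSectionVars false
noncomputable section
open scoped Manifold ContDiff Topology InnerProductSpace
open MeasureTheory Set Function Filter

namespace Crest.Agent.X212.Sw87.Mo
open An Cyf70 Sw Flo2 Geo28 Met55
open Bor5.T (O3 Q3 Sph Prd)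
open Nd18 (YD)
open Dr59 (Cs HZ)

section
variable {κ : Type} [Fintype κ] [DecidableEq κ]

variable (κ) in
/-- geometries on an end -/
def EO : Option O3 → Type
  | none => Unit
  | some A => YD A.Y.I A.Y.M κ L0 × (A.Y.M → F2 κ)

/-- the cross-section -/
abbrev EO.et {A : O3} (g : EO κ (some A)) : ET κ := ⟨A, g.1, g.2⟩

/-- the band of an end -/
def EO.nb {X : M4} (s : Bool) : ∀ {a : Option O3}, EO κ a → Ec a X (Jk (some s)) → Option (NB κ X)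
  | none, _, _ => none
  | some _, g, k => some ⟨g.et, some s, k⟩

variable {a b x : Option O3} (T : Pm a b x) (τ : MT κ T.X) (ga : EO κ a) (gb : EO κ b) (gx : EO κ x)

/-- the ports of `τ` are the ends of `T` -/
structure OnP : Prop where
  pin : τ.pin.map τ.nb = ga.nb false T.ki
  pout : τ.pout.map τ.nb = gb.nb true T.ko
  p3 : τ.p3.map τ.nb = gx.nb true T.k3

/-- the ports and boxes of `τ` are those of `T` -/
structure On : Prop extends OnP T τ ga gb gx where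
  nc : τ.nc = T.nb
  bx : ∀ j, τ.bx j = T.bx (j.cast nc)

end

/-- spinor indices -/
abbrev ν0 : Type := μ0 ⊕ μ0

variable (mk : Mk κ0 L0 ν0)

/-- the end of a rational homology sphere -/
structure EndQ (A : Q3) : Type 1 where
  g : EO κ0 (some A.toO3)
  std : g.et.Std
  sp : g.et.Sp
  h2 : g.et.H2
  ec : EC ν0 g.et.eg
  ok : End.OK mk ⟨_, ec⟩
  kd : ec.kd = .qhs
  lab : A.L ≃ ec.L
  sty : ∀ c, StdT ⟨⟨_, ec⟩, c⟩
  rp : ∀ s, ERp g.et (ec.m (lab s)) s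
  bd : ∃ K, ∀ c, EBd K ⟨⟨_, ec⟩, c⟩
  psc : Nonempty (Sph A.toO3) → mk.psc ⟨_, ec⟩
  red : ∀ c x, (End.en ⟨_, ec⟩ c).cyl.eC ⟨0, 0⟩ x = 0

/-- the ends of `S² × S¹`, one for every class -/
structure EndR (R : R3) (c₀ : R.L) : Type 1 where
  g : EO κ0 (some R.toO3)
  std : g.et.Std
  sp : g.et.Sp
  h2 : g.et.H2
  ec : R.L → EC ν0 g.et.eg
  cl : ∀ s, (ec s).L
  ok : ∀ s, End.OK mk ⟨_, ec s⟩
  tor : (ec c₀).kd = .tor
  dead : ∀ s ≠ c₀, (ec s).kd = .dead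
  sty : ∀ s, StdT ⟨⟨_, ec s⟩, cl s⟩
  rp : ∀ s, ERp g.et ((ec s).m (cl s)) s
  bd : ∃ K, ∀ s, EBd K ⟨⟨_, ec s⟩, cl s⟩
  per : ∀ s, Per ⟨⟨_, ec s⟩, cl s⟩
  zc : Zc ⟨⟨_, ec c₀⟩, cl c₀⟩
  fin : ∀ C, {e ∈ range ec | e.kd ≠ .dead ∨ ∃ c, ∃ v : (End.en ⟨_, e⟩ c).YC,
    (End.en ⟨_, e⟩ c).cyl.Adm (En3.fz v) ∧ v.Φ = 0 ∧ En3.gn v ≤ C}.Finite

/-- all ends -/
structure Ends : Type 1 where
  q : ∀ A : Q3, EndQ mk A
  r : ∀ G : CG, EndR mk G.R G.c0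

/-- E-ENQ -/
def EnqStmt : Prop := ∀ A : Q3, Nonempty (EndQ mk A)

/-- E-ENR -/
def EnrStmt : Prop := ∀ (R : R3) (c₀ : R.L), Tor c₀ → (∀ c : R.L, Tor c → c = c₀) →
  Nonempty (EndR mk R c₀)

variable {mk}

/-- `g` is a model on `T` with the class `d` and the form `η` -/
def Md {a b x : Option O3} (T : Pm a b x) (ga : EO κ0 a) (gb : EO κ0 b) (gx : EO κ0 x)
    (g : Gc κ0 L0 ν0) (d : T.L) (η : T.Fm) : Prop :=
  ∃ (τ : MT κ0 T.X) (β : MB τ 0) (c : MC μ0 β) (ens : Ens μ0 τ) (C : ℕ → ℝ), On T τ ga gb gx ∧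
    c.Cl d ∧ c.fo 0 = (1 / 2 : ℝ) • η ∧ (∃ K, ∀ i, EBd K (c.ty i)) ∧ g = c.gc ens C

namespace Ends
variable (𝓔 : Ends mk)

/-- the end of a rational homology sphere -/
def ob (A : Q3) : EE mk := some ⟨⟨_, (𝓔.q A).ec⟩, (𝓔.q A).ok⟩

/-- the end of `S² × S¹` with the class `s` -/
def obR (G : CG) (s : G.R.L) : EE mk := some ⟨⟨_, (𝓔.r G).ec s⟩, (𝓔.r G).ok s⟩

/-- the geometry of a vertex -/
def go : ∀ a : Option Q3, EO κ0 (vo a)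
  | none => ()
  | some A => (𝓔.q A).g

/-- the end of a vertex -/
abbrev en (a : Option Q3) : EE mk := a.elim none 𝓔.ob

/-- the label of a class -/
def Lab : ∀ a : Option Q3, LO (vo a) → (𝓔.en a).L → Prop
  | none, _, _ => True
  | some A, s, c => c = (𝓔.q A).lab s

/-- the point `σ` represents the piece `T` -/
structure Rep (a b : Option Q3) (σ : C2 (𝓔.en a) (𝓔.en b)) (T : Pm (vo a) (vo b) none) (d : T.L)
    (η : T.Fm) : Prop where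
  p0 : σ.P0
  md : Md T (𝓔.go a) (𝓔.go b) () σ.g d η
  s : ∀ s, T.ki.Cl d s → 𝓔.Lab a s σ.s
  t : ∀ s, T.ko.Cl d s → 𝓔.Lab b s σ.t

/-- the same with three ends -/
structure Rep3 (A B x : Q3) (σ : C3 (𝓔.ob A) (𝓔.ob B) (𝓔.ob x))
    (T : Pm (some A.toO3) (some B.toO3) (some x.toO3)) (d : T.L) : Prop where
  p0 : σ.P0
  md : ∃ η, Md T (𝓔.q A).g (𝓔.q B).g (𝓔.q x).g σ.g d η
  s : ∀ s, T.ki.Cl d s → σ.s = (𝓔.q A).lab s
  t : ∀ s, T.ko.Cl d s → σ.t = (𝓔.q B).lab s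
  u : ∀ s, T.k3.Cl d s → σ.u = (𝓔.q x).lab s

/-- ends and points, with the caps `cap` -/
abbrev pre (cap : ∀ G : CG, Set G.N.L → (KC mk).Cap) : Pre (KC mk) where
  ob := 𝓔.ob
  lab A := (𝓔.q A).lab
  Rep := 𝓔.Rep
  Rep3 := 𝓔.Rep3
  cap := cap

end Ends

variable (mk) in
/-- a cobordism of rational homology spheres with `b₁ = 0` -/
structure Cb {X : M4} {τ : MT κ0 X} (M : MM μ0 τ) : Prop where
  pin : ∃ i ∈ τ.pin, (M.ec i).kd = .qhs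
  pout : ∃ i ∈ τ.pout, (M.ec i).kd = .qhs
  p3 : τ.p3 = none
  ok : ∀ i, End.OK mk (M.ty i).1
  qh : ∀ i, (τ.nb i).s ≠ none → ∃ A : Q3, (τ.nb i).e.A = A.toO3
  red : ∀ i, (τ.nb i).s ≠ none → ∀ x, (M.ty i).en.cyl.eC ⟨0, 0⟩ x = 0
  h1 : HZ X.I 1 (univ : Set X.M)

variable (mk)

/-- M-TP: the degree -/
def MtpStmt : Prop := ∀ {X : M4} {τ : MT κ0 X} {k} {β : MB τ k} (c : MC μ0 β) d x ens C,
  Cb mk c.toMM → c.Cl d → X.Deg d x → mk.tp (c.gc ens C) (x + k - 2 * τ.nc)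

/-- M-HI: negative definite cobordisms -/
def MhiStmt : Prop := ∀ {X : M4} {τ : MT κ0 X} {β : MB τ 0} (c : MC μ0 β) d, Cb mk c.toMM →
  τ.nc = 0 → c.Cl d → X.Bp 0 → ∃ (β' : MB τ 0) (c' : MC μ0 β'), (∀ i, c'.ty i = c.ty i) ∧ c'.Cl d ∧
    ∀ ens C, mk.hi1 (c'.gc ens C)

/-- M-WC: one wall is crossed -/
def MwcStmt : Prop := ∀ {X : M4} {τ : MT κ0 X} {β : MB τ 1} (c : MC μ0 β) d η η', Cb mk c.toMM →
  τ.nc = 0 → c.Cl d → X.Bp 1 → X.Crs d η η' → β.wl 0 = none → (∀ t, β.e t = β.e 0) →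
  c.fo 0 = (1 / 2 : ℝ) • η → c.fo 1 = (1 / 2 : ℝ) • η' → ∃ c' : MC μ0 β, c'.toMM = c.toMM ∧
    X.Seg d η ((2 : ℝ) • c'.fo 0) ∧ X.Seg d η' ((2 : ℝ) • c'.fo 1) ∧
    (∀ t ∈ dom β.wl, c'.fo t ∈ segment ℝ (c'.fo 0) (c'.fo 1)) ∧ ∀ ens C, mk.hi1 (c'.gc ens C)

/-- M-U: the cylinder with one box -/
def MuStmt : Prop := ∀ (A : Q3) (E : EndQ mk A) (T : Pm (some A.toO3) (some A.toO3) none), T.IsCyl →
  T.nb = 1 → ∀ τ : MT κ0 T.X, On T τ E.g E.g () → (∀ i, (τ.nb i).s ≠ none) → ∀ d s, T.ki.Cl d s →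
  T.ko.Cl d s → ∃ (β : MB τ 0) (c : MC μ0 β), (∀ i, c.ty i = ⟨⟨_, E.ec⟩, E.lab s⟩) ∧
    c.Cl d ∧ c.fo 0 = 0 ∧ ∀ ens C, mk.hi1 (c.gc ens C) ∧ (mk.psc ⟨_, E.ec⟩ → mk.al1 (c.gc ens C))

/-- the marks of the families -/
structure Marks : Prop where
  tp : MtpStmt mk
  hi : MhiStmt mk
  wc : MwcStmt mk
  u : MuStmt mk

/-- the closed manifolds with a model that has the mark `p`; M-EX is `Taub (QM mk.ex1)` -/
def QM (p : Gc κ0 L0 ν0 → Prop) : Prd := fun W d η => ∃ (τ : MT κ0 (m4 W)) (β : MB τ 0) (c : MC μ0 β),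
  IsEmpty τ.N ∧ τ.nc = 0 ∧ c.Cl d ∧ c.fo 0 = (1 / 2 : ℝ) • η ∧ ∀ ens C, p (c.gc ens C)

/-- A-PEN: the pentagons -/
def PenStmt : Prop := ∀ 𝓔 : Ends mk, ∃ cap, ∀ (G : CG) (a : Option Q3) (B C : Q3) (P : PG G a B C)
  (T : P.I1 → P.I2 → P.I3 → Prop), (∀ d₁ d₂ d₃, T d₁ d₂ d₃ ↔ P.T d₁ d₂ d₃) →
    Nonempty (PO (𝓔.pre cap) P T)

/-- the leaves on models -/
structure Lf : Prop where
  pz : PzStmt κ0 μ0
  ok : OkStmt κ0 μ0
  bd : BdStmt κ0 μ0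
  res : ResStmt κ0 μ0
  cst : CstStmt κ0 μ0
  mix : MixStmt κ0 μ0
  bl : BlStmt κ0 μ0
  pb : PbStmt κ0 μ0
  iso : IsoStmt κ0 μ0
  exu : ExuStmt κ0 μ0
  trp : TrpStmt κ0 μ0
  lr : LrStmt κ0
  wal : WalStmt κ0 μ0
  glu : GluStmt κ0 μ0
  cgl : CglStmt κ0 μ0
  tw : TwStmt κ0 μ0
  hol : HolStmt κ0 μ0
  nrm : NrmStmt κ0
  tf : TfStmt κ0 μ0
  nr : NrStmt κ0 μ0
  fing : FingStmt
  site : SiteStmt
  em : EmStmt κ0

end Crest.Agent.X212.Sw87.Mo
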