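import Crest.Agent.X212.Sw87.MoB
import Crest.Agent.X212.Geo28.Lv

/-!
# Row 212, GEO engine (helper87), part L: relations between models and the leaves
-/

set_option autoImplicit false
set_option linter.unusedSectionVars false
noncomputable section
open scoped Manifold ContDiff Topology InnerProductSpace
open MeasureTheory Set Function Filter

namespace Crest.Agent.X212.Sw87.Mo
open An Cyf70 Sw Flo2 Geo28 Met55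
open Crest.Agent.R208.F (Ext)
open Bor5.T (O3 Q3 Pb Cur Sph Prd W4)
open Lab56 (C8 M8 CI Cls)
open Prm93 (JS)
open Int54 (oc volF)
open Line51 (iL rl)
open Dr59 (Cs Cl Ex HZ pm mf)
open Gm56 (Rp LE alp)

variable {κ : Type} [Fintype κ] [DecidableEq κ] {μ : Type} [Fintype μ] [DecidableEq μ]
  {X X' X₁ X₂ : M4} {k k' k₁ k₂ : ℕ} {τ : MT κ X} {τ' : MT κ X'} {τ₁ : MT κ X₁} {τ₂ : MT κ X₂}

/-- allowed classes at the bands -/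
abbrev Ens (μ : Type) [Fintype μ] [DecidableEq μ] (τ : MT κ X) : Type 1 :=
  ∀ i, Set (EC (μ ⊕ μ) (τ.nb i).e.eg)

/-! ### isomorphisms -/

/-- the diffeomorphism as a partial homeomorphism -/
abbrev oph (φ : M4.Dif X' X) : OpenPartialHomeomorph X'.M X.M := φ.φ.toHomeomorph.toOpenPartialHomeomorph

/-- the rotation between `e'` and the pull-back of `e` -/
def rotU (φ : X'.M → X.M) (e' : Option κ → VF X'.I X'.M) (e : Option κ → VF X.I X.M) (x : X'.M) :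
    Matrix (Option κ) (Option κ) ℝ := Matrix.of fun b a => fT e' (pbv X'.I X.I φ (e b)) x a

/-- `φ` is an isometry from `β'` at `t'` to `β` at `t` that matches active bands and boxes -/
structure MI (β' : MB τ' k') (β : MB τ k) (φ : M4.Dif X' X) (r : τ'.N → τ.N → Prop) (t' : Tk k')
    (t : Tk k) : Prop where
  co : ∀ x, Co (fun a => mf X'.I X.I φ.φ x (β'.e t' a x)) (atx (β.e t) (φ.φ x))
  cor : ∀ i' i, r i' i → (τ'.nb i').Cor (τ.nb i) φ.φ ∧ β'.v t' i' = β.v t i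
  inj : ∀ i i' j j', r i i' → r j j' → (i = j ↔ i' = j')
  l : ∀ i', 1 < β'.v t' i' → ∃ i, r i' i
  r' : ∀ i, 1 < β.v t i → ∃ i', r i' i
  nc : τ.nc = τ'.nc
  bx : ∀ j y, τ.bx (j.cast nc.symm) y = φ.φ (τ'.bx j y)

/-- an isomorphism `w` of the modules that is the gauge `γ` on the active bands -/
structure MW {β' : MB τ' k'} {β : MB τ k} (c' : MC μ β') (c : MC μ β) (φ : M4.Dif X' X) (t' : Tk k')
    (t : Tk k) (γ : ∀ i, (τ'.nb i).e.A.Y.M → ℂ) (w : X'.M → Matrix μ μ ℂ) : Prop where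
  ci : CI X'.I c'.m ((c.m.comp φ.φ).rot (rotU φ.φ (β'.e t') (β.e t))) w univ
  gau : ∀ i, Gau (τ'.nb i).e.A.Y.I (γ i)
  nk : ∀ i, 1 < β'.v t' i → ∀ x ∈ (τ'.nb i).V (1 / 4),
    w ((τ'.nb i).k x) = γ i x.1 • c'.m.p ((τ'.nb i).k x)

/-- forms, masses and test spinors correspond; `m`, `η` are those of the target -/
structure MD {β' : MB τ' k'} {β : MB τ k} (c' : MC μ β') (c : MC μ β) (φ : M4.Dif X' X) (t' : Tk k')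
    (t : Tk k) (w : X'.M → Matrix μ μ ℂ) (h : τ.nc = τ'.nc) (m : X.M → En (μ ⊕ μ))
    (η : Fin τ.nc → R4 → Eu (μ ⊕ μ)) : Prop where
  mc : ∀ x, m (φ.φ x) * rl (w x) = rl (w x) * c'.mc t' x
  η : ∀ j, (c'.P t').bg.TI (fun x => rl (w x)) (alp (c'.P t').bg (c.P t).bg (oph φ)
    (fun x => rotU φ.φ (β'.e t') (β.e t) x) fun x => rl (w x)) j (c'.η t' j) (η (j.cast h.symm))

/-- `u` generates the components of the gauge group -/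
def LgE (e : End κ L0 (μ ⊕ μ)) : Prop := Gau e.Y.I e.u ∧ ∀ v, Gau e.Y.I v → ∃ (n : ℤ) (χ : e.Y.M → ℝ),
  Sm e.Y.I χ ∧ ∀ y, v y = e.u y ^ n * Complex.exp (χ y * Complex.I)

/-! ### gluing -/

/-- `τ` is glued from `τ₁` and `τ₂`; finite bands of the pieces may be dropped -/
structure TG (τ : MT κ X) (τ₁ : MT κ X₁) (τ₂ : MT κ X₂) : Type 1 where
  cap : Bool
  e : ET κ
  k₁ : Nc e.A X₁ (Ioi 0)
  k₂ : Nc e.A X₂ (Iio 0)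
  g : Gl3 k₁ k₂ X
  i : τ.N
  j₁ : τ₁.N
  j₂ : τ₂.N
  h : τ.nb i = ⟨e, none, g.n⟩
  h₁ : τ₁.nb j₁ = ⟨e, some true, k₁⟩
  h₂ : τ₂.nb j₂ = ⟨e, some false, k₂⟩
  r₁ : τ₁.N → τ.N → Prop
  r₂ : τ₂.N → τ.N → Prop
  c₁ : ∀ j i', r₁ j i' → j ≠ j₁ ∧ i' ≠ i ∧ (τ₁.nb j).Cor (τ.nb i') g.l
  c₂ : ∀ j i', r₂ j i' → j ≠ j₂ ∧ i' ≠ i ∧ (τ₂.nb j).Cor (τ.nb i') g.r
  inj₁ : ∀ i i' j j', r₁ i i' → r₁ j j' → (i = j ↔ i' = j')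
  inj₂ : ∀ i i' j j', r₂ i i' → r₂ j j' → (i = j ↔ i' = j')
  dj : ∀ i' j j', r₁ j i' → ¬r₂ j' i'
  sur : ∀ i', i' = i ∨ (∃ j, r₁ j i') ∨ ∃ j, r₂ j i'
  ec : Fin τ₁.nc ⊕ Fin τ₂.nc ≃ Fin τ.nc
  b₁ : ∀ j y, τ.bx (ec (.inl j)) y = g.l (τ₁.bx j y)
  b₂ : ∀ j y, τ.bx (ec (.inr j)) y = g.r (τ₂.bx j y)
  pin : Option.Rel r₁ τ₁.pin τ.pin
  p3 : τ₂.p3 = none ∧ τ.p3 = none
  port : bif cap then τ₁.p3 = some j₁ ∧ Option.Rel r₁ τ₁.pout τ.pout ∧ τ₂.pout = none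
    else τ₁.pout = some j₁ ∧ Option.Rel r₂ τ₂.pout τ.pout ∧ τ₁.p3 = none

open Classical in
/-- the compression of an end onto one side of a neck with the switch `v` -/
def NB.cp (b : NB κ X) (v : ℝ) (x : X.M) : X.M :=
  if x ∈ b.k.target then b.k ((b.k.symm x).1, if b.s = some true then (stH v).symm (b.n.tm x)
    else (stH v).symm (b.n.tm x + len v + 2) - 4) else x

namespace TG
variable (γ : TG τ τ₁ τ₂)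

/-- the embeddings of the pieces -/
structure LR where
  l : ℝ → OpenPartialHomeomorph X₁.M X.M
  r : ℝ → OpenPartialHomeomorph X₂.M X.M
  ls : ∀ v, (l v).source = γ.k₁.tm ⁻¹' Iio (len v + 1)
  rs : ∀ v, (r v).source = γ.k₂.tm ⁻¹' Ioi (-(len v + 1))
  lt : ∀ v, (l v).target = γ.g.n.tm ⁻¹' Iio 3
  rt : ∀ v, (r v).target = γ.g.n.tm ⁻¹' Ioi 1
  le : ∀ v, ∀ x ∈ (l v).source, l v x = γ.g.l ((τ₁.nb γ.j₁).cp v x)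
  re : ∀ v, ∀ x ∈ (r v).source, r v x = γ.g.r ((τ₂.nb γ.j₂).cp v x)
  l0 : ∀ v x, γ.k₁.tm x ≤ 3 / 2 → l v x = γ.g.l x
  r0 : ∀ v x, -(3 / 2) ≤ γ.k₂.tm x → r v x = γ.g.r x
  sl : ∀ v, ContMDiffOn X₁.I X.I ∞ (l v) (l v).source ∧ ContMDiffOn X.I X₁.I ∞ (l v).symm (l v).target
  sr : ∀ v, ContMDiffOn X₂.I X.I ∞ (r v) (r v).source ∧ ContMDiffOn X.I X₂.I ∞ (r v).symm (r v).target

variable (β : MB τ k) (β₁ : MB τ₁ k₁) (β₂ : MB τ₂ k₂) (c : Fin k) (ι₁ : Fin k₁ → Fin k)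
  (ι₂ : Fin k₂ → Fin k)

/-- the coordinates -/
structure GB : Prop where
  bij : Bijective (Sum.elim (Sum.elim ι₁ ι₂) fun _ : Unit => c)
  wl : β.wl c = some γ.i
  w₁ : ∀ c', (β₁.wl c' = none ∧ β.wl (ι₁ c') = none) ∨ ∃ j ∈ β₁.wl c', ∃ i' ∈ β.wl (ι₁ c'), γ.r₁ j i'
  w₂ : ∀ c', (β₂.wl c' = none ∧ β.wl (ι₂ c') = none) ∨ ∃ j ∈ β₂.wl c', ∃ i' ∈ β.wl (ι₂ c'), γ.r₂ j i'

/-- the frames at `t` -/
structure GF (t : Tk k) : Prop where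
  l : ∀ x, γ.k₁.tm x < 3 / 2 → ∀ a,
    mfderiv X₁.I X.I γ.g.l x (β₁.e (t ∘ ι₁) a x) = β.e t a (γ.g.l x)
  r : ∀ x, -(3 / 2) < γ.k₂.tm x → ∀ a,
    mfderiv X₂.I X.I γ.g.r x (β₂.e (t ∘ ι₂) a x) = β.e t a (γ.g.r x)
  n : (τ.nb γ.i).Rl (β.e t) (t c) (1 / 2)

/-- the modules -/
structure GM (M : MM μ τ) (M₁ : MM μ τ₁) (M₂ : MM μ τ₂) : Prop where
  t₁ : M₁.ty γ.j₁ = M.ty γ.i
  t₂ : M₂.ty γ.j₂ = M.ty γ.i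
  r₁ : ∀ j i', γ.r₁ j i' → M₁.ty j = M.ty i'
  r₂ : ∀ j i', γ.r₂ j i' → M₂.ty j = M.ty i'
  l : LE M₁.m (M.m.comp γ.g.l) (γ.k₁.tm ⁻¹' Iio (3 / 2))
  r : LE M₂.m (M.m.comp γ.g.r) (γ.k₂.tm ⁻¹' Ioi (-(3 / 2)))

variable {β β₁ β₂} in
/-- forms, masses and test spinors at `t` -/
structure GC (d : MC μ β) (d₁ : MC μ β₁) (d₂ : MC μ β₂) (t : Tk k) : Prop where
  fo : γ.g.Fm (d.fo t) (d₁.fo (t ∘ ι₁)) (d₂.fo (t ∘ ι₂))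
  l : ∀ x, γ.k₁.tm x < 3 / 2 → d.mc t (γ.g.l x) = d₁.mc (t ∘ ι₁) x
  r : ∀ x, -(3 / 2) < γ.k₂.tm x → d.mc t (γ.g.r x) = d₂.mc (t ∘ ι₂) x
  n : ∀ x ∈ (τ.nb γ.i).U 0, d.mc t x = 0
  η₁ : ∀ j, d.η t (γ.ec (.inl j)) = d₁.η (t ∘ ι₁) j
  η₂ : ∀ j, d.η t (γ.ec (.inr j)) = d₂.η (t ∘ ι₂) j

end TG

/-! ### forms -/

/-- on the core of the band `f` is `r` times the spatial part of `ζ` -/
def NB.Zf (b : NB κ X) (f : X.Fm) (r : ℝ) : Prop := ∀ x ∈ b.V 0, ∀ a a',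
  Int54.cf (I := IC b.e.A.Y.I) (ce b.e.D.F.e) 2 (pm (IC b.e.A.Y.I) X.I b.k f) ![a, a'] x =
    if a.isSome ∧ a'.isSome then r * b.e.ζ x.1 (a, a') else 0

/-- the spatial part of `ζ` spans the second cohomology -/
def ET.H2 (e : ET κ) : Prop := ∃ z : e.A.Y.M × ℝ → Ext (e.A.Y.E × ℝ), Cl (IC e.A.Y.I) 2 univ z ∧
  (∀ x a a', Int54.cf (I := IC e.A.Y.I) (ce e.D.F.e) 2 z ![a, a'] x =
    if a.isSome ∧ a'.isSome then e.ζ x.1 (a, a') else 0) ∧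
  ∀ g, Cl (IC e.A.Y.I) 2 univ g → ∃ r : ℝ, Ex (IC e.A.Y.I) univ (g - r • z)

/-- the band is an end or a wall -/
def MB.Act (β : MB τ k) (i : τ.N) : Prop := (τ.nb i).s ≠ none ∨ ∃ c, β.wl c = some i

/-- the period of `u` does not vanish -/
def Per (T : Ty κ L0 (μ ⊕ μ)) : Prop := En3.hol (En3.YC.act T.1.u (⟨0, 0⟩ : T.en.YC)) ≠ 0

/-- the temporal part of `ζ` is closed -/
def Zc (T : Ty κ L0 (μ ⊕ μ)) : Prop := T.en.Clo fun a y => T.en.ζ y (none, some a)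

/-- a bound of the mass of an end -/
def EBd (K : ℝ) (T : Ty κ L0 (μ ⊕ μ)) : Prop := ∀ x, ‖T.en.cyl.ms x‖ ≤ K ∧ ∀ a,
  ‖T.en.cyl.F.D a T.en.cyl.ms x + (T.en.cyl.A a x * T.en.cyl.ms x - T.en.cyl.ms x * T.en.cyl.A a x)‖ ≤ K

/-- substitution of coordinates and constants -/
def sb (π : Fin k → Fin k' ⊕ ℝ) (t : Tk k') : Tk k := fun c => (π c).elim t id

variable (κ μ)

/-! ### the leaves: families -/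

/-- E-NK + E-PZ: active bands are necks, pieces are pieces -/
structure PzStmt : Prop where
  nk : ∀ {X : M4} {τ : MT κ X} {k} {β : MB τ k} (c : MC μ β) t {n} (ct : Fin n → Cut X.M κ (μ ⊕ μ)) i,
    3 / 2 < β.v t i → ∃ K ∈ (c.pz t (β.v t) ct).nk i, K.ng = (τ.nb i).ng (β.v t i)
  ok : ∀ {X : M4} {τ : MT κ X} {k} {β : MB τ k} (c : MC μ β) t,
    (c.P t).OK ∧ (c.pz t (β.v t) (n := 0) Fin.elim0).OK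

/-- E-FAM -/
def FamStmt : Prop := ∀ {X : M4} {τ : MT κ X} {k} {β : MB τ k} (c : MC μ β) ens C, (c.gc ens C).𝓕.OK

/-- E-OK: what remains to be checked -/
def OkStmt : Prop := ∀ {X : M4} {τ : MT κ X} {k} {β : MB τ k} (c : MC μ β) (ens : Ens μ τ) C, k ≤ 2 →
  (k = 2 → τ.nc = 0) → c.Bnd C → (τ.p3 ≠ none → k = 0) → (∀ i ∈ τ.pout, (c.ec i).kd = .qhs) →
  ((∀ i ∈ τ.pin, (c.ec i).kd = .qhs) ∨ (τ.pout = none ∧ τ.p3 = none ∧ τ.nc = 0 ∧ ∀ c, β.wl c = none)) →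
  (∀ a, ∀ i ∈ β.wl a, (c.ec i).kd ≠ .qhs → (c.gc ens C).Hol i) →
  (∀ i ∈ τ.p3, (c.ec i).kd = .tor → ∃ e : (β.bs ens C).Tf, e.r i = 1) →
  (∀ i, c.ec i ∈ ens i ∧ ∀ C, {e ∈ ens i | e.kd ≠ .dead ∨ ∃ c, ∃ v : (End.en ⟨_, e⟩ c).YC,
    (End.en ⟨_, e⟩ c).cyl.Adm (En3.fz v) ∧ v.Φ = 0 ∧ En3.gn v ≤ C}.Finite) → (c.gc ens C).OK

/-- E-BD: uniform bounds -/
def BdStmt : Prop := ∀ {X : M4} {τ : MT κ X} {k} (β : MB τ k) (I : Type) (c : I → MC μ β)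
  (S : Set X.Fm), S.Finite → (∀ f ∈ S, Cs X.I 2 univ f) →
  (∀ i, ∀ t ∈ dom β.wl, (c i).fo t ∈ convexHull ℝ S) → (∃ K, ∀ i j, EBd K ((c i).ty j)) →
  ((∀ i, (c i).mc = 0) ∨ (Finite I ∧ ∀ i, Lng β.wl (c i).mc)) → ∃ C, ∀ i, (c i).Bnd C

/-- E-RES: substitution of coordinates -/
def ResStmt : Prop := ∀ {X : M4} {τ : MT κ X} {k k'} (β : MB τ k) (π : Fin k → Fin k' ⊕ ℝ)
  (wl : Fin k' → Option τ.N), (∀ c c', π c = .inl c' → wl c' = β.wl c) →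
  (∀ c', wl c' ≠ none → ∃ c, π c = .inl c') →
  (∀ c a, π c = .inr a → (β.wl c ≠ none → a = 0) ∧ a ∈ Icc (0 : ℝ) 1) →
  ∃ β' : MB τ k', β'.wl = wl ∧ (∀ t, β'.e t = β.e (sb π t)) ∧ ∀ c : MC μ β, ∃ c' : MC μ β',
    c'.toMM = c.toMM ∧ (∀ d, c.Cl d → c'.Cl d) ∧
      ∀ t, c'.fo t = c.fo (sb π t) ∧ c'.mc t = c.mc (sb π t) ∧ c'.η t = c.η (sb π t)

/-- E-CST: constant data -/
def CstStmt : Prop := ∀ {X : M4} {τ : MT κ X} {k} (β : MB τ k) (M : MM μ τ) (f : X.Fm),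
  M.m.On X.I (fP (β.e 0)) univ → Cs X.I 2 univ f → (∀ i, β.Act i → ∀ x ∈ (τ.nb i).U 0, f x = 0) →
  ∃ c : MC μ β, c.toMM = M ∧ (∀ t, c.fo t = f) ∧ c.mc = 0 ∧ c.η = 0

/-- E-MIX: convex combinations of data on one module -/
def MixStmt : Prop := ∀ {X : M4} {τ : MT κ X} {k} {β : MB τ k} (c₀ c₁ : MC μ β) (s : Tk k → ℝ),
  c₁.toMM = c₀.toMM → ContDiff ℝ ∞ s → ∃ c : MC μ β, c.toMM = c₀.toMM ∧ ∀ t,
    c.fo t = (1 - s t) • c₀.fo t + s t • c₁.fo t ∧ c.mc t = (1 - s t) • c₀.mc t + s t • c₁.mc t ∧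
      c.η t = (1 - s t) • c₀.η t + s t • c₁.η t

/-- E-BL: the convex combination of `β` with the frames `w`, with the weight `s` -/
def BlStmt : Prop := ∀ {X : M4} {τ : MT κ X} {k} (β : MB τ k) (w : Tk k → Option κ → VF X.I X.M)
  (s : Tk k → ℝ), ContDiff ℝ ∞ s → (∀ t, s t ∈ Icc (0 : ℝ) 1) → (∀ t, s t = s (clp β.wl t)) →
  Lng β.wl s → (∀ a t x, VJ X.I (fun t => w t a) t x) → (∀ t x, Sp (atx (w t) x)) →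
  (∀ t, s t ≠ 0 → w t = w (clp β.wl t)) →
  (∀ t i, 1 < β.v t i → s t ≠ 0 → ∀ x ∈ (τ.nb i).U (1 / 2), Co (atx (β.e t) x) (atx (w t) x)) →
  (∀ c, ∀ i ∈ β.wl c, ∀ t v, 3 ≤ t c → 3 ≤ v → s t ≠ 0 → ∀ x,
    (τ.nb i).n.tm x ∉ Icc (3 / 2 : ℝ) (5 / 2) → ∀ a, w (update t c v) a x = w t a x) →
  ∃ β' : MB τ k, β'.wl = β.wl ∧ (∀ t, s t = 0 → β'.e t = β.e t) ∧
    (∀ t x, ∀ p q : X.X.E →ₗ[ℝ] ℝ, ∑ a, p (β'.e t a x) * q (β'.e t a x) =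
      (1 - s t) * ∑ a, p (β.e t a x) * q (β.e t a x) + s t * ∑ a, p (w t a x) * q (w t a x)) ∧
    ∀ (c : MC μ β) (f : Tk k → X.Fm) (m : Tk k → X.M → En (μ ⊕ μ))
      (η : Tk k → Fin τ.nc → R4 → Eu (μ ⊕ μ)), (∀ t, Cs X.I 2 univ (f t)) →
      JS X.I univ (fun t => cmp (β.e 0) (f t)) → JS X.I univ m →
      (∀ t x, iL μ * m t x = m t x * iL μ) →
      (∀ t x, (β.bg0 c.m).pm x * m t x * (β.bg0 c.m).pp x = m t x) →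
      (∀ t i, 1 < β.v t i → s t ≠ 0 → ∀ x ∈ (τ.nb i).U 0, f t x = 0 ∧ m t x = 0) →
      (∀ j, JC univ fun t => η t j) → (∀ t j, (β.bg0 c.m).Tst (τ.bx j) (η t j)) →
      ∃ c' : MC μ β', c'.toMM = c.toMM ∧ (∀ d, c.Cl d → c'.Cl d) ∧ ∀ t,
        c'.fo t = (1 - s t) • c.fo t + s t • f t ∧ c'.mc t = (1 - s t) • c.mc t + s t • m t ∧
          c'.η t = (1 - s t) • c.η t + s t • η t

/-- E-PB: pull-back of families of frames and forms -/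
structure PbStmt : Prop where
  e : ∀ {X X' : M4} {τ : MT κ X} {k} (β : MB τ k) (φ : M4.Dif X' X),
    (∀ a t x, VJ X'.I (fun t => pbv X'.I X.I φ.φ (β.e t a)) t x) ∧
      ∀ t x, Sp (atx (fun a => pbv X'.I X.I φ.φ (β.e t a)) x)
  f : ∀ {X X' : M4} {τ : MT κ X} {k} {β : MB τ k} (c : MC μ β) (φ : M4.Dif X' X)
    (e : Option κ → VF X'.I X'.M), (∀ x, FAt e x) → (∀ t, Cs X'.I 2 univ (pm X'.I X.I φ.φ (c.fo t))) ∧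
      JS X'.I univ fun t => cmp e (pm X'.I X.I φ.φ (c.fo t))

/-! ### the leaves: isomorphisms -/

/-- E-ISO -/
def IsoStmt : Prop := ∀ {X X' : M4} {τ : MT κ X} {τ' : MT κ X'} {k k'} {β' : MB τ' k'} {β : MB τ k}
  (c' : MC μ β') (c : MC μ β) φ (r : τ'.N → τ.N → Prop) (D : Set (Tk k)) (ι : Fin k' → Fin k) (n : ℤ)
  (h : τ.nc = τ'.nc), Injective ι → (∀ i' i, r i' i → c'.ty i' = c.ty i) →
  (∀ a, (β'.wl a = none ∧ β.wl (ι a) = none) ∨ ∃ i ∈ β'.wl a, ∃ i' ∈ β.wl (ι a), r i i') →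
  Option.Rel r τ'.pin τ.pin → Option.Rel r τ'.pout τ.pout → Option.Rel r τ'.p3 τ.p3 →
  (∀ t ∈ D, MI β' β φ r (t ∘ ι) t ∧ pm X'.I X.I φ.φ (c.fo t) = c'.fo (t ∘ ι) ∧
    ∃ γ w, MW c' c φ (t ∘ ι) t γ w ∧ MD c' c φ (t ∘ ι) t w h (c.mc t) (c.η t) ∧
      ∀ i, (τ'.nb i).s ≠ none → γ i = fun y => if τ'.pin = some i then (c'.ec i).u y ^ (-n) else 1) →
  ∀ ens ens' C C', (c.gc ens C).Fc (c'.gc ens' C') D ι (oph φ) n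

/-- E-EXU: the isomorphism of the modules -/
def ExuStmt : Prop := ∀ {X X' : M4} {τ : MT κ X} {τ' : MT κ X'} {k k'} {β' : MB τ' k'} {β : MB τ k}
  (c' : MC μ β') (c : MC μ β) φ r t' t d' d, MI β' β φ r t' t → (∀ i' i, r i' i → c'.ty i' = c.ty i) →
  c'.Cl d' → c.Cl d → Pb φ.φ univ d d' → (∀ i, LgE (c'.ty i).1) →
  ∃ γ w, MW c' c φ t' t γ w ∧ ∀ i, ∃ n : ℤ, γ i = fun y => (c'.ec i).u y ^ n

/-- E-TRP: transport of masses and test spinors -/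
def TrpStmt : Prop := ∀ {X X' : M4} {τ : MT κ X} {τ' : MT κ X'} {k k'} {β' : MB τ' k'} {β : MB τ k}
  (c' : MC μ β') (c : MC μ β) φ r t' t γ w (h : MI β' β φ r t' t), MW c' c φ t' t γ w →
  ∃ m η, MD c' c φ t' t w h.nc m η ∧ Sm X.I m ∧ (∀ x, iL μ * m x = m x * iL μ) ∧
    (∀ x, (β.bg0 c.m).pm x * m x * (β.bg0 c.m).pp x = m x) ∧
    (∀ i, 1 < β.v t i → ∀ x ∈ (τ.nb i).U 0, m x = 0) ∧ ∀ j, (β.bg0 c.m).Tst (τ.bx j) (η j)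

/-! ### the leaves: gluing -/

/-- E-LR -/
def LrStmt : Prop := ∀ {X X₁ X₂ : M4} {τ : MT κ X} {τ₁ : MT κ X₁} {τ₂ : MT κ X₂} (γ : TG τ τ₁ τ₂),
  Nonempty γ.LR

/-- E-WL -/
def WalStmt : Prop := ∀ {X X₁ X₂ : M4} {τ : MT κ X} {τ₁ : MT κ X₁} {τ₂ : MT κ X₂} (γ : TG τ τ₁ τ₂)
  (Λ : γ.LR) {k k₁ k₂} {β : MB τ k} {β₁ : MB τ₁ k₁} {β₂ : MB τ₂ k₂} a ι₁ ι₂ (c : MC μ β) (c₁ : MC μ β₁)
  (c₂ : MC μ β₂), γ.GB β β₁ β₂ a ι₁ ι₂ → γ.GM c.toMM c₁.toMM c₂.toMM →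
  (∀ t, 3 ≤ t a → γ.GF β β₁ β₂ a ι₁ ι₂ t ∧ γ.GC ι₁ ι₂ c c₁ c₂ t) →
  (γ.cap = false → (c.ec γ.i).kd = .qhs) → ∀ ens ens₁ ens₂ C C₁ C₂,
    (c.gc ens C).Wl (c₁.gc ens₁ C₁) (c₂.gc ens₂ C₂) a γ.i γ.cap ι₁ ι₂ Λ.l Λ.r

/-- E-GLU: glued families -/
structure GluStmt : Prop where
  b : ∀ {X X₁ X₂ : M4} {τ : MT κ X} {τ₁ : MT κ X₁} {τ₂ : MT κ X₂} (γ : TG τ τ₁ τ₂) {k k₁ k₂}
    (β₁ : MB τ₁ k₁) (β₂ : MB τ₂ k₂) (a : Fin k) ι₁ ι₂,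
    Bijective (Sum.elim (Sum.elim ι₁ ι₂) fun _ : Unit => a) →
    (∀ c, ∀ j ∈ β₁.wl c, ∃ i, γ.r₁ j i) → (∀ c, ∀ j ∈ β₂.wl c, ∃ i, γ.r₂ j i) →
    ∃ β : MB τ k, γ.GB β β₁ β₂ a ι₁ ι₂ ∧ ∀ t, γ.GF β β₁ β₂ a ι₁ ι₂ t
  c : ∀ {X X₁ X₂ : M4} {τ : MT κ X} {τ₁ : MT κ X₁} {τ₂ : MT κ X₂} (γ : TG τ τ₁ τ₂) {k k₁ k₂}
    {β : MB τ k} {β₁ : MB τ₁ k₁} {β₂ : MB τ₂ k₂} a ι₁ ι₂ (c₁ : MC μ β₁) (c₂ : MC μ β₂),
    γ.GB β β₁ β₂ a ι₁ ι₂ → (∀ t, γ.GF β β₁ β₂ a ι₁ ι₂ t) → c₁.ty γ.j₁ = c₂.ty γ.j₂ →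
    ∃ c : MC μ β, γ.GM c.toMM c₁.toMM c₂.toMM ∧ ∀ t, γ.GC ι₁ ι₂ c c₁ c₂ t

/-- E-CGL: the class of a glued module; glued forms are unique -/
structure CglStmt : Prop where
  cl : ∀ {X X₁ X₂ : M4} {τ : MT κ X} {τ₁ : MT κ X₁} {τ₂ : MT κ X₂} (γ : TG τ τ₁ τ₂) {k k₁ k₂}
    {β : MB τ k} {β₁ : MB τ₁ k₁} {β₂ : MB τ₂ k₂} a ι₁ ι₂ (c : MC μ β) (c₁ : MC μ β₁) (c₂ : MC μ β₂) t
    d d₁ d₂, γ.GF β β₁ β₂ a ι₁ ι₂ t → γ.GM c.toMM c₁.toMM c₂.toMM → c.Cl d → c₁.Cl d₁ → c₂.Cl d₂ →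
    γ.g.Rl d d₁ ∧ γ.g.Rr d d₂
  fm : ∀ {A : O3} {X X₁ X₂ : M4} {k₁ : Nc A X₁ (Ioi 0)} {k₂ : Nc A X₂ (Iio 0)} (g : Gl3 k₁ k₂ X)
    f f' f₁ f₂, g.Fm f f₁ f₂ → g.Fm f' f₁ f₂ → f = f'

variable {κ μ} in
/-- the lifts of a cap: `M n` is `M 0` glued with the twist `u ^ n` -/
def Tw (M : ℤ → MM μ τ) (j : τ.N) : Prop := ∀ n, (∀ i, (M n).ty i = (M 0).ty i) ∧
  ∃ w, CI X.I (M 0).m (M n).m w univ ∧ ∀ x ∈ (τ.nb j).V (1 / 2),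
    w ((τ.nb j).k x) = ((M 0).ec j).u x.1 ^ n • (M 0).m.p ((τ.nb j).k x)

/-- E-TW: classes along a neck with a circle of gauge components -/
def TwStmt : Prop := ∀ {X X₁ X₂ : M4} {τ : MT κ X} {τ₁ : MT κ X₁} {τ₂ : MT κ X₂} (γ : TG τ τ₁ τ₂)
  {β : MB τ 1} {β₁ : MB τ₁ 0} {β₂ : MB τ₂ 0} (c : ℤ → MC μ β) (c₁ : MC μ β₁) (c₂ : ℤ → MC μ β₂) d d₁ d₂,
  γ.GF β β₁ β₂ 0 Fin.elim0 Fin.elim0 0 → (∀ n, γ.GM (c n).toMM c₁.toMM (c₂ n).toMM) →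
  Tw (fun n => (c₂ n).toMM) γ.j₂ → LgE (c₁.ty γ.j₁).1 → c₁.Cl d₁ → (c₂ 0).Cl d₂ →
  γ.g.Rl d d₁ → γ.g.Rr d d₂ → (∃ n, (c n).Cl d) ∧ (γ.e.H2 → Per (c₁.ty γ.j₁) →
    Ext2 γ.k₁ {x | ∃ j ≠ γ.j₁, (τ₁.nb j).s ≠ none ∧ x ∈ (τ₁.nb j).k.target} → τ₂.pout = none →
    Ext2 γ.k₂ ∅ → ∀ n n', (c n).Cl d → (c n').Cl d → n = n')

/-- E-HOL -/
def HolStmt : Prop := ∀ {X X₁ X₂ : M4} {τ : MT κ X} {τ₁ : MT κ X₁} {τ₂ : MT κ X₂} (γ : TG τ τ₁ τ₂)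
  {k} {β : MB τ k} (c : MC μ β) ens C, (∀ a, ∀ i ∈ β.wl a, i = γ.i) → γ.e.H2 → Per (c.ty γ.i) →
  LgE (c.ty γ.i).1 → Ext2 γ.k₁ {x | ∃ j ≠ γ.j₁, (τ₁.nb j).s ≠ none ∧ x ∈ (τ₁.nb j).k.target} →
  (c.gc ens C).Hol γ.i

/-! ### the leaves: forms -/

/-- E-NRM: normal form on one band -/
def NrmStmt : Prop := ∀ {X : M4} (b : NB κ X) (f₀ : X.Fm), b.e.H2 → Cl X.I 2 univ f₀ →
  ∃ f r, Cl X.I 2 univ f ∧ b.Zf f r ∧ (∀ x ∉ b.U (1 / 2), f x = f₀ x) ∧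
    (r = 0 → Ex (IY b.e.A) (univ ×ˢ Jk b.s) (pm (IY b.e.A) X.I b.n.k f₀)) ∧
    (b.s = none → Cs X.I 2 univ f₀ → Cs X.I 2 univ f ∧ ∀ y, Cl X.I 2 univ y → X.ip y f = X.ip y f₀)

/-- E-TF: test forms and labels -/
structure TfStmt : Prop where
  ex : ∀ {X : M4} {τ : MT κ X} {k} (β : MB τ k) (ens : Ens μ τ) C f (r : τ.N → ℝ), Cl X.I 2 univ f →
    (∀ i, An.Sm (τ.nb i).e.A.Y.I (τ.nb i).e.ζ) → (∀ i, β.Act i → (τ.nb i).Zf f (r i)) →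
    ∃ e : (β.bs ens C).Tf, e.r = r ∧ ∀ t, e.e t = cmp (β.e t) f
  pr : ∃ a : ℝ, 0 < a ∧ ∀ {X : M4} {τ : MT κ X} {k} {β : MB τ k} (c : MC μ β) ens C
    (e : (β.bs ens C).Tf) f d y n, (∀ t, e.e t = cmp (β.e t) f) → Cs X.I 2 univ f → c.Cl d → Cur d y →
    (∀ i, Gau (τ.nb i).e.A.Y.I (c.ec i).u) → (c.gc ens C).pr n e = a * |X.ip y f|
  cap : ∀ {X : M4} {τ : MT κ X} {k} {β : MB τ k} (c : MC μ β) ens C (e : (β.bs ens C).Tf) f i,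
    (∀ t, e.e t = cmp (β.e t) f) → Cl X.I 2 univ f → τ.pin = some i → τ.pout = none → τ.p3 = none →
    (∀ a, β.wl a = none) → e.r i ≠ 0 → Per (c.ty i) → Gau (τ.nb i).e.A.Y.I (c.ec i).u →
    ∀ R, {n | (c.gc ens C).pr n e ≤ R}.Finite

/-- E-NR: no reducible solutions -/
def NrStmt : Prop := ∀ {X : M4} {τ : MT κ X} {k} {β : MB τ k} (c : MC μ β) ens C d (S : Set X.Fm),
  c.Cl d → S.Finite → (∀ f ∈ S, Cs X.I 2 univ f) → (∀ t ∈ dom β.wl, c.fo t ∈ convexHull ℝ S) →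
  (∀ f ∈ convexHull ℝ S, X.Ps d ((2 : ℝ) • f)) →
  (∀ i, β.Act i → (c.ec i).f = 0 ∨ (Zc (c.ty i) ∧ ∃ s, (τ.nb i).n.Cl d s ∧ Geo28.Tor s)) →
  (c.gc ens C).NoRed

/-- E-FIN: finiteness along rational homology spheres -/
def FingStmt : Prop := ∀ {a c : Option O3} {B : Q3} (T₁ : Pm a (some B.toO3) none)
  (T₂ : Pm (some B.toO3) c none) (T : Pm a c none) (g : Cm T₁ T₂ T) S₁ S₂, T₁.Fin S₁ → T₂.Fin S₂ →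
  T.Fin {d | ∃ d₁ ∈ S₁, ∃ d₂ ∈ S₂, g.Rl d d₁ ∧ g.Rr d d₂}

/-! ### the leaves: sites and modules -/

/-- frame indices, with eight spare fields -/
abbrev κ0 : Type := Fin 6 ⊕ Fin 8

/-- module indices -/
abbrev μ0 : Type := Fin 6 ⊕ Fin 6

/-- the spare fields vanish -/
def ET.Sp (e : ET κ0) : Prop := ∀ j y, e.D.F.e (.inr j) y = 0

/-- E-SITE -/
def SiteStmt : Prop := ∀ {X : M4} (τ : MT κ0 X), (∀ i, (τ.nb i).e.Sp) →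
  ∃ β : MB τ 0, ∀ i, (τ.nb i).Rl (β.e 0) 2 (3 / 4)

variable {κ} in
/-- the module `m` of a cross-section has the class `s` and lives in the first slot -/
def ERp (e : ET κ) (m : M8 e.A.Y.M (Option κ) (μ0 ⊕ μ0)) (s : e.A.L) : Prop :=
  ∃ n : C8 e.A.Y.M (Option κ) (Fin 6), m = (Gm56.inl (Fin 6) n).re ∧
    Rp (I := IC e.A.Y.I) (ce e.D.F.e) (n.comp Prod.fst) (show Cls (IY e.A) univ from s)

/-- E-EXT: modules with a given class, with all twists at one band -/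
def EmStmt : Prop := ∀ {X : M4} {τ : MT κ X} (β : MB τ 0) (ec : ∀ i, EC (μ0 ⊕ μ0) (τ.nb i).e.eg)
  (cl : ∀ i, (ec i).L) (s : ∀ i, (τ.nb i).e.A.L) d, (∀ i, (τ.nb i).Rl (β.e 0) 2 (3 / 4)) →
  (∀ i, StdT ⟨⟨_, ec i⟩, cl i⟩) → (∀ i, ERp (τ.nb i).e ((ec i).m (cl i)) (s i)) →
  (∀ i, (τ.nb i).n.Cl d (s i)) → (∀ i, Gau (τ.nb i).e.A.Y.I (ec i).u) → ∀ o : Option τ.N, ∃ M : ℤ → MM μ0 τ,
    (∀ n, (M n).ec = ec ∧ (∀ i, (M n).ty i = ⟨⟨_, ec i⟩, cl i⟩) ∧ Rp (β.e 0) (M n).m d) ∧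
      ∀ j ∈ o, Tw M j

end Crest.Agent.X212.Sw87.Mo
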