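import Crest.Agent.X212.Sw87.MoE
import Crest.Agent.X212.Pen22.Cl
import Crest.Agent.X212.Geo28.As2

/-!
# Row 212, GEO engine (helper87), part T: constructors of `MT` and `TG`
-/

set_option autoImplicit false
set_option linter.unusedSectionVars false
noncomputable section
open scoped Manifold ContDiff Topology
open Set Function Filter

namespace Crest.Agent.X212.Sw87.Mo
open An Cyf70 Sw Flo2 Geo28 Met55 Pen22
open Bor5.T (O3)
open Dr59 (mf)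

variable {κ : Type} [Fintype κ] [DecidableEq κ] {μ : Type} [Fintype μ] [DecidableEq μ]
  {X X' X₁ X₂ : M4} {a b c x : Option O3}

/-- the geometry is standard -/
def EO.Std : ∀ {a : Option O3}, EO κ a → Prop
  | none, _ => True
  | some _, g => g.et.Std

theorem EO.mem {s : Bool} : ∀ {a : Option O3} {g : EO κ a} {k : Ec a X (Jk (some s))} {n : NB κ X},
    g.nb s k = some n → n.s = some s ∧ n.n.tm = k.tm ∧ (g.Std → n.e.Std)
  | some _, _, _, _, h => by cases h; exact ⟨rfl, rfl, id⟩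

theorem EO.nil {s : Bool} : ∀ {a : Option O3} {g : EO κ a} {k : Ec a X (Jk (some s))},
    g.nb s k = none → k.tm = 0
  | none, _, _, _ => rfl

theorem NB.mem_tgt {n : NB κ X} {s : Option Bool} (h : n.s = s) {p : X.M} :
    p ∈ n.k.target ↔ n.n.tm p ∈ Jk s := by subst h; rw [n.tgt]; rfl

theorem jm_ne (s : Option Bool) : (Jm s (1 / 2)).Nonempty := by
  rcases s with _ | _ | _
  exacts [⟨2, jm_none.2 (by norm_num)⟩, ⟨-2, jm_in.2 (by norm_num)⟩, ⟨2, jm_out.2 (by norm_num)⟩]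

theorem half_le : (1 / 2 : ℝ) ≤ 1 := by norm_num

theorem NB.Cor.two {n₁ : NB κ X₁} {n₂ : NB κ X₂} {n : NB κ X} {f₁ f₂} (h₁ : n₁.Cor n f₁)
    (h₂ : n₂.Cor n f₂) : ∃ p₁ ∈ n₁.k.target, ∃ p₂ ∈ n₂.k.target, f₁ p₁ = f₂ p₂ := by
  obtain ⟨e, s, k₁⟩ := n₁
  obtain ⟨e', s', k₂⟩ := n₂
  obtain ⟨k, rfl, h₁⟩ := h₁
  obtain ⟨k', e₂, h₂⟩ := h₂
  cases e₂
  obtain ⟨σ, hσ⟩ := jm_ne s
  obtain ⟨y⟩ : Nonempty e.A.Y.M := inferInstance
  exact ⟨_, k₁.k.map_source (k₁.src.ge ⟨trivial, jm_sub _ half_le hσ⟩), _,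
    k₂.k.map_source (k₂.src.ge ⟨trivial, jm_sub _ half_le hσ⟩), (h₁ y σ hσ).symm.trans (h₂ y σ hσ)⟩

theorem NB.Cor.both {n : NB κ X} {n' n'' : NB κ X'} {f} (h : n.Cor n' f) (h' : n.Cor n'' f) :
    ¬Disjoint n'.k.target n''.k.target := by
  obtain ⟨k, rfl, h⟩ := h
  obtain ⟨k', rfl, h'⟩ := h'
  obtain ⟨σ, hσ⟩ := jm_ne n.s
  obtain ⟨y⟩ : Nonempty n.e.A.Y.M := inferInstance
  have m : (y, σ) ∈ univ ×ˢ Jk n.s := ⟨trivial, jm_sub _ half_le hσ⟩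
  exact not_disjoint_iff.2 ⟨_, k.k.map_source (k.src.ge m),
    ((h' y σ hσ).trans (h y σ hσ).symm) ▸ k'.k.map_source (k'.src.ge m)⟩

theorem MT.eq_of (τ : MT κ X) {i j : τ.N} (h : ¬Disjoint (τ.nb i).k.target (τ.nb j).k.target) : i = j :=
  by_contra fun e => h (τ.dj e)

theorem rel_mt {N N' : Type} {n : N → NB κ X} {n' : N' → NB κ X'} {p : Option N} {p' : Option N'}
    {s : Bool} {f : X.M → X'.M} {r : ℝ} (hr : r ≤ 1 / 2) : ∀ {a : Option O3} {g : EO κ a}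
    {k : Ec a X (Jk (some s))} {k' : Ec a X' (Jk (some s))}, p.map n = g.nb s k →
    p'.map n' = g.nb s k' → Ec.Mt r f k k' → Option.Rel (fun j i => (n j).Cor (n' i) f) p p'
  | none, _, _, _, h, h', _ => by
    rw [Option.map_eq_none_iff.1 h, Option.map_eq_none_iff.1 h']; exact .none
  | some _, g, k, k', h, h', m => by
    obtain ⟨j, rfl, e⟩ := Option.map_eq_some_iff.1 h
    obtain ⟨i, rfl, e'⟩ := Option.map_eq_some_iff.1 h'
    refine .some ?_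
    rw [e, e']
    refine ⟨k', rfl, fun y σ hσ => (m y σ (jm_sub _ half_le hσ) (hr.trans_lt ?_)).symm⟩
    cases s
    · exact lt_abs.2 (.inr (by linarith [jm_in.1 hσ]))
    · exact lt_abs.2 (.inl (by linarith [jm_out.1 hσ]))

section mt
variable (T : Pm a b x) (ga : EO κ a) (gb : EO κ b) (gx : EO κ x)

/-- the piece without its boxes -/
abbrev nobx : Pm a b x :=
  { T with nb := 0, bx := Fin.elim0, src := fun j => j.elim0, core := fun j => j.elim0 }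

/-- the bands of the ends -/
def prt : Fin 3 → Option (NB κ T.X) := ![ga.nb false T.ki, gb.nb true T.ko, gx.nb true T.k3]

theorem prt_core {o : Fin 3} {n : NB κ T.X} (h : prt T ga gb gx o = some n) {p : T.M}
    (hp : p ∈ T.Core) : p ∉ n.k.target := fun m => by
  fin_cases o <;> obtain ⟨h1, h2, -⟩ := EO.mem h <;> rw [NB.mem_tgt h1, h2] at m
  exacts [hp.1.not_gt m, hp.2.1.not_gt m, hp.2.2.not_gt m]

theorem prt_dj {o o' : Fin 3} (ne : o ≠ o') {n n' : NB κ T.X} (h : prt T ga gb gx o = some n)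
    (h' : prt T ga gb gx o' = some n') : Disjoint n.k.target n'.k.target :=
  disjoint_left.2 fun p m m' => by
    fin_cases o <;> fin_cases o' <;> first | exact ne rfl | skip
    all_goals
      obtain ⟨h1, h2, -⟩ := EO.mem h
      obtain ⟨h3, h4, -⟩ := EO.mem h'
      rw [NB.mem_tgt h1, h2] at m
      rw [NB.mem_tgt h3, h4] at m'
    exacts [(T.io p m).not_gt m', (T.i3 p m).not_gt m', (T.io p m').not_gt m, (T.o3 p m).not_gt m',
      (T.i3 p m').not_gt m, (T.o3 p m').not_gt m]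

/-- **models on a piece with the finite bands `n`** -/
theorem exists_mt (ha : ga.Std) (hb : gb.Std) (hx : gx.Std) {I : Type} [Fintype I] (n : I → NB κ T.X)
    (hs : ∀ i, (n i).s = none) (st : ∀ i, (n i).e.Std)
    (dj : Pairwise fun i j => Disjoint (n i).k.target (n j).k.target)
    (co : ∀ i, (n i).k.target ⊆ T.Core) (off : ∀ j y i, T.bx j y ∉ (n i).k.target) :
    ∃ (τ : MT κ T.X) (ι : I → τ.N), On T τ ga gb gx ∧ (∀ i, τ.nb (ι i) = n i) ∧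
      ∀ j, (τ.nb j).s = none → ∃ i, j = ι i := by
  classical
  let P := prt T ga gb gx
  let N := {o : Fin 3 // (P o).isSome} ⊕ I
  let nb : N → NB κ T.X := Sum.elim (fun o => (P o.1).get o.2) n
  let pt : Fin 3 → Option N := fun o => if h : (P o).isSome then some (.inl ⟨o, h⟩) else none
  have e : ∀ o : {o // (P o).isSome}, P o.1 = some (nb (.inl o)) := fun o => (Option.some_get o.2).symm
  have mp : ∀ o, (pt o).map nb = P o := fun o => by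
    by_cases h : (P o).isSome
    · simp only [pt, dif_pos h]; exact (e ⟨o, h⟩).symm
    · simp only [pt, dif_neg h]; exact (Option.not_isSome_iff_eq_none.1 h).symm
  have pe : ∀ o (j : {o // (P o).isSome}), pt o = some (.inl j) ↔ j.1 = o := fun o j => by
    refine ⟨fun h => ?_, fun h => by subst h; exact dif_pos j.2⟩
    by_cases k : (P o).isSome
    · simp only [pt, dif_pos k] at h; cases h; rfl
    · simp only [pt, dif_neg k] at h; cases h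
  have pr : ∀ o i, pt o ≠ some (.inr i) := fun o i h => by
    by_cases k : (P o).isSome
    · simp only [pt, dif_pos k] at h; cases h
    · simp only [pt, dif_neg k] at h; cases h
  have sg : ∀ j : {o // (P o).isSome}, (nb (.inl j)).s = some (decide (j.1 ≠ 0)) := fun ⟨o, h⟩ => by
    have := e ⟨o, h⟩
    fin_cases o <;> exact (EO.mem this).1
  refine ⟨⟨N, nb, ?_, ?_, fun R => ?_, T.nb, T.bx, T.src, ?_, pt 0, pt 1, pt 2, ?_, ?_, ?_⟩, .inr,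
    ⟨⟨mp 0, mp 1, mp 2⟩, rfl, fun _ => rfl⟩, fun _ => rfl, ?_⟩
  · rintro (⟨o, h⟩ | i)
    · have := e ⟨o, h⟩
      fin_cases o
      exacts [(EO.mem this).2.2 ha, (EO.mem this).2.2 hb, (EO.mem this).2.2 hx]
    · exact st i
  · rintro (o | i) (o' | i') ne
    · exact prt_dj T ga gb gx (fun h => ne (congrArg _ (Subtype.ext h))) (e o) (e o')
    · exact disjoint_right.2 fun p m => prt_core T ga gb gx (e o) (co _ m)
    · exact disjoint_left.2 fun p m => prt_core T ga gb gx (e o') (co _ m)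
    · exact dj fun h => ne (congrArg _ h)
  · refine (T.cpt |R|).of_isClosed_subset ?_ fun p hp => ?_
    · simp only [ofPred_forall, ofPred_and]
      exact isClosed_iInter fun i => (isClosed_iInter fun _ => isClosed_le (nb i).n.cont
        continuous_const).inter (isClosed_iInter fun _ => isClosed_le continuous_const (nb i).n.cont)
    · have k : ∀ (s : Bool) {a : Option O3} (g : EO κ a) (k : Ec a T.X (Jk (some s))) o, P o = g.nb s k →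
          if s then k.tm p ≤ |R| else -|R| ≤ k.tm p := fun s a g k o h => by
        by_cases m : (P o).isSome
        · obtain ⟨h1, h2, -⟩ := EO.mem (h.symm.trans (e ⟨o, m⟩))
          have := hp (.inl ⟨o, m⟩)
          rw [h2] at this
          cases s
          · exact (neg_le_neg (le_abs_self R)).trans (this.2 h1)
          · exact (this.1 h1).trans (le_abs_self R)
        · rw [EO.nil (h.symm.trans (Option.not_isSome_iff_eq_none.1 m))]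
          cases s <;> simp
      exact ⟨k false ga T.ki 0 rfl, k true gb T.ko 1 rfl, k true gx T.k3 2 rfl⟩
  · rintro j y (o | i)
    exacts [prt_core T ga gb gx (e o) (T.core j y), off j y i]
  · rintro (o | i)
    · rw [sg, pe]; simp
    · exact ⟨fun h => (nomatch (hs i).symm.trans h), fun h => (pr _ _ h).elim⟩
  · rintro (⟨o, h⟩ | i)
    · rw [sg, pe, pe]; fin_cases o <;> simp
    · exact ⟨fun h => (nomatch (hs i).symm.trans h), fun h => (h.elim (pr _ _) (pr _ _)).elim⟩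
  · rintro (o | i) h h'
    · exact absurd (((pe _ _).1 h).symm.trans ((pe _ _).1 h')) (by decide)
    · exact pr _ _ h
  · rintro (o | i) h
    · exact nomatch (sg o).symm.trans h
    · exact ⟨i, rfl⟩

end mt

section tg
variable {τ : MT κ X} {τ₁ : MT κ X₁} {τ₂ : MT κ X₂}

theorem MT.off_port (τ : MT κ X) {e : ET κ} {s : Option Bool} {k : Nc e.A X (Jk s)} {i j : τ.N}
    (h : τ.nb j = ⟨e, s, k⟩) (ne : i ≠ j) {p : X.M} (hp : p ∈ (τ.nb i).k.target) : k.tm p ∉ Jk s :=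
  fun m => disjoint_left.1 (τ.dj ne) hp (by rw [h]; exact k.tgt.ge m)

/-- the bands that correspond under `f` -/
def Crr (τ₁ : MT κ X₁) (τ : MT κ X) (j₁ : τ₁.N) (i : τ.N) (f : X₁.M → X.M) (j : τ₁.N) (i' : τ.N) : Prop :=
  j ≠ j₁ ∧ i' ≠ i ∧ (τ₁.nb j).Cor (τ.nb i') f

theorem crr_inj {j₁ : τ₁.N} {i : τ.N} {f : Pen22.PD X₁ X}
    (h : ∀ j ≠ j₁, (τ₁.nb j).k.target ⊆ f.source) (a a' b b') (r : Crr τ₁ τ j₁ i f a a')
    (r' : Crr τ₁ τ j₁ i f b b') : a = b ↔ a' = b' := by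
  refine ⟨fun e => τ.eq_of (r.2.2.both (e ▸ r'.2.2)), fun e => ?_⟩
  obtain ⟨p, hp, q, hq, k⟩ := r.2.2.two (e ▸ r'.2.2)
  exact τ₁.eq_of (not_disjoint_iff.2 ⟨p, hp, f.injOn (h _ r.1 hp) (h _ r'.1 hq) k ▸ hq⟩)

theorem rel_crr {j₁ : τ₁.N} {i : τ.N} {f : X₁.M → X.M} {p : Option τ₁.N} {p' : Option τ.N}
    (h : Option.Rel (fun j i => (τ₁.nb j).Cor (τ.nb i) f) p p') (h₁ : p ≠ some j₁) (h' : p' ≠ some i) :
    Option.Rel (Crr τ₁ τ j₁ i f) p p' := by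
  cases h with
  | none => exact .none
  | some k => exact .some ⟨fun e => h₁ (congrArg _ e), fun e => h' (congrArg _ e), k⟩

/-- a gluing with the maximal relations -/
def TG.of (cap : Bool) {e : ET κ} {k₁ : Nc e.A X₁ (Ioi 0)} {k₂ : Nc e.A X₂ (Iio 0)} (g : Gl3 k₁ k₂ X)
    {i : τ.N} {j₁ : τ₁.N} {j₂ : τ₂.N} (h : τ.nb i = ⟨e, none, g.n⟩) (h₁ : τ₁.nb j₁ = ⟨e, some true, k₁⟩)
    (h₂ : τ₂.nb j₂ = ⟨e, some false, k₂⟩)
    (fin : ∀ i' ≠ i, (τ.nb i').s = none → (∃ j ≠ j₁, (τ₁.nb j).Cor (τ.nb i') g.l) ∨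
      ∃ j ≠ j₂, (τ₂.nb j).Cor (τ.nb i') g.r)
    (ec : Fin τ₁.nc ⊕ Fin τ₂.nc ≃ Fin τ.nc) (b₁ : ∀ j y, τ.bx (ec (.inl j)) y = g.l (τ₁.bx j y))
    (b₂ : ∀ j y, τ.bx (ec (.inr j)) y = g.r (τ₂.bx j y))
    (pin : Option.Rel (Crr τ₁ τ j₁ i g.l) τ₁.pin τ.pin) (p3 : τ₂.p3 = none ∧ τ.p3 = none)
    (port : bif cap then τ₁.p3 = some j₁ ∧ Option.Rel (Crr τ₁ τ j₁ i g.l) τ₁.pout τ.pout ∧ τ₂.pout = none
      else τ₁.pout = some j₁ ∧ Option.Rel (Crr τ₂ τ j₂ i g.r) τ₂.pout τ.pout ∧ τ₁.p3 = none) :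
    TG τ τ₁ τ₂ where
  cap := cap
  e := e
  k₁ := k₁
  k₂ := k₂
  g := g
  i := i
  j₁ := j₁
  j₂ := j₂
  h := h
  h₁ := h₁
  h₂ := h₂
  r₁ := Crr τ₁ τ j₁ i g.l
  r₂ := Crr τ₂ τ j₂ i g.r
  c₁ _ _ := id
  c₂ _ _ := id
  inj₁ := crr_inj fun _ ne _ m => (mem_l g).2 ((not_lt.1 (τ₁.off_port h₁ ne m)).trans_lt four_pos)
  inj₂ := crr_inj fun _ ne _ m => (mem_r g).2 (lt_of_lt_of_le (by norm_num) (not_lt.1 (τ₂.off_port h₂ ne m)))
  dj i' j j' r r' := by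
    obtain ⟨p, hp, q, hq, k⟩ := r.2.2.two r'.2.2
    have h1 := l_le g le_rfl four_pos (not_lt.1 (τ₁.off_port h₁ r.1 hp))
    have h2 := r_ge g le_rfl four_pos (neg_zero.trans_le (not_lt.1 (τ₂.off_port h₂ r'.1 hq)))
    rw [← k] at h2
    linarith
  sur i' := by
    refine or_iff_not_imp_left.2 fun ne => ?_
    rcases k : (τ.nb i').s with _ | _ | _
    · exact (fin i' ne k).imp (fun ⟨j, a, b⟩ => ⟨j, a, ne, b⟩) fun ⟨j, a, b⟩ => ⟨j, a, ne, b⟩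
    · rw [(τ.inn i').1 k] at pin
      exact .inl ((rel_r pin rfl).imp fun _ m => m.2)
    · have := ((τ.out i').1 k).resolve_right (by rw [p3.2]; nofun)
      rw [this] at port
      cases cap
      · exact .inr ((rel_r port.2.1 rfl).imp fun _ m => m.2)
      · exact .inl ((rel_r port.2.1 rfl).imp fun _ m => m.2)
  ec := ec
  b₁ := b₁
  b₂ := b₂
  pin := pin
  p3 := p3
  port := port

theorem MT.ne_pin (τ : MT κ X) {i : τ.N} (h : (τ.nb i).s ≠ some false) : τ.pin ≠ some i :=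
  fun e => h ((τ.inn i).2 e)

theorem MT.ne_pout (τ : MT κ X) {i : τ.N} (h : (τ.nb i).s ≠ some true) : τ.pout ≠ some i :=
  fun e => h ((τ.out i).2 (.inl e))

/-- `γ` is the gluing `g` with the neck `i` and the maximal relations -/
structure TG.Is (γ : TG τ τ₁ τ₂) (cap : Bool) {e : ET κ} {k₁ : Nc e.A X₁ (Ioi 0)} {k₂ : Nc e.A X₂ (Iio 0)}
    (g : Gl3 k₁ k₂ X) (i : τ.N) : Prop where
  cap : γ.cap = cap
  i : γ.i = i
  g : (⟨γ.e, γ.k₁, γ.k₂, γ.g⟩ : Σ e : ET κ, Σ k₁ : Nc e.A X₁ (Ioi 0), Σ k₂ : Nc e.A X₂ (Iio 0),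
    Gl3 k₁ k₂ X) = ⟨e, k₁, k₂, g⟩
  r₁ : γ.r₁ = Crr τ₁ τ γ.j₁ γ.i γ.g.l
  r₂ : γ.r₂ = Crr τ₂ τ γ.j₂ γ.i γ.g.r

end tg

section cm
variable {B : O3} {ga : EO κ a} {gb : EO κ b} {gc : EO κ c} {gB : EO κ (some B)}

theorem Cm.core {T₁ : Pm a (some B) none} {T₂ : Pm (some B) c none} {T : Pm a c none} (g : Cm T₁ T₂ T) :
    g.n.k.target ⊆ T.Core := fun p m => by
  have m : g.n.tm p ∈ Ioo (0 : ℝ) 4 := g.n.tgt.le m
  have l := (mem_lt g.toGl3).2 m.2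
  have r := (mem_rt g.toGl3).2 m.1
  exact ⟨g.r.right_inv r ▸ ki_r g (g.r.map_target r), g.l.right_inv l ▸ ko_l g (g.l.map_target l), le_rfl⟩

theorem Cm.off {T₁ : Pm a (some B) none} {T₂ : Pm (some B) c none} {T : Pm a c none} (g : Cm T₁ T₂ T)
    (j y) : T.bx j y ∉ g.n.k.target := fun m => by
  have m : g.n.tm _ ∈ Ioo (0 : ℝ) 4 := g.n.tgt.le m
  obtain ⟨j | j, rfl⟩ := g.e.surjective j
  · exact (l_le g.toGl3 le_rfl four_pos (T₁.core j y).2.1).not_gt (g.b₁ j y ▸ m.1)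
  · have := r_ge g.toGl3 le_rfl four_pos (neg_zero.trans_le (T₂.core j y).1)
    rw [g.b₂] at this
    linarith [m.2]

theorem Cp3.core {A : O3} {L : Pm a b (some A)} {Q : Pm (some A) none none} {T : Pm a b none}
    (g : Cp3 L Q T) : g.n.k.target ⊆ T.Core := fun p m => by
  have m : g.n.tm p ∈ Ioo (0 : ℝ) 4 := g.n.tgt.le m
  have l := (mem_lt g.toGl3).2 m.2
  have s := g.l.map_target l
  have e := g.l.right_inv l
  have t : 0 < L.k3.tm (g.l.symm p) :=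
    m.1.trans_eq ((congrArg _ e).symm.trans (tm_l g.toGl3 s (.inr (e.symm ▸ m.1))))
  refine ⟨not_lt.1 fun k => ?_, not_lt.1 fun k => ?_, le_rfl⟩
  · have := mt_tm (by simp) g.ki (fun p h => (mem_l g.toGl3).2 ((L.i3 p h).trans_lt four_pos)) _ s
      (.inr (e.symm ▸ k))
    exact (L.i3 _ (this ▸ e.symm ▸ k)).not_gt t
  · have := mt_tm (by simp) g.ko (fun p h => (mem_l g.toGl3).2 ((L.o3 p h).trans_lt four_pos)) _ s
      (.inr (e.symm ▸ k))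
    exact (L.o3 _ (this ▸ e.symm ▸ k)).not_gt t

/-- **the gluing of a composition** -/
theorem exists_tgC {T₁ : Pm a (some B) none} {T₂ : Pm (some B) c none} {T : Pm a c none} (g : Cm T₁ T₂ T)
    {τ₁ : MT κ T₁.X} {τ₂ : MT κ T₂.X} {τ : MT κ T.X} (h₁ : On T₁ τ₁ ga gB ()) (h₂ : On T₂ τ₂ gB gc ())
    (h : On T τ ga gc ()) {i : τ.N} (hi : τ.nb i = ⟨gB.et, none, g.n⟩)
    (fin : ∀ i' ≠ i, (τ.nb i').s = none → (∃ j, (τ₁.nb j).Cor (τ.nb i') g.l) ∨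
      ∃ j, (τ₂.nb j).Cor (τ.nb i') g.r) :
    ∃ γ : TG τ τ₁ τ₂, γ.Is false (e := gB.et) g.toGl3 i := by
  obtain ⟨j₁, a₁, e₁⟩ := Option.map_eq_some_iff.1 h₁.pout
  obtain ⟨j₂, a₂, e₂⟩ := Option.map_eq_some_iff.1 h₂.pin
  have s : (τ.nb i).s = none := by rw [hi]
  have s₁ : (τ₁.nb j₁).s = some true := by rw [e₁]
  have s₂ : (τ₂.nb j₂).s = some false := by rw [e₂]
  exact ⟨.of false (e := gB.et) g.toGl3 hi e₁ e₂ (fun i' ne k => (fin i' ne k).imp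
    (fun ⟨j, m⟩ => ⟨j, fun e => by subst e; simp [m.s, s₁] at k, m⟩)
      fun ⟨j, m⟩ => ⟨j, fun e => by subst e; simp [m.s, s₂] at k, m⟩)
    (((finCongr h₁.nc).sumCongr (finCongr h₂.nc)).trans (g.e.trans (finCongr h.nc.symm)))
    (fun j y => by rw [h.bx, h₁.bx]; exact (g.b₁ _ y).symm)
    (fun j y => by rw [h.bx, h₂.bx]; exact (g.b₂ _ y).symm)
    (rel_crr (rel_mt (by norm_num) h₁.pin h.pin g.ki) (τ₁.ne_pin (by simp [s₁]))
      (τ.ne_pin (by simp [s]))) ⟨Option.map_eq_none_iff.1 h₂.p3, Option.map_eq_none_iff.1 h.p3⟩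
    ⟨a₁, rel_crr (rel_mt (by norm_num) h₂.pout h.pout g.ko) (τ₂.ne_pout (by simp [s₂]))
      (τ.ne_pout (by simp [s])), Option.map_eq_none_iff.1 h₁.p3⟩, rfl, rfl, rfl, rfl, rfl⟩

/-- **the gluing of a cap** -/
theorem exists_tgP {A : O3} {gA : EO κ (some A)} {L : Pm a b (some A)} {Q : Pm (some A) none none}
    {T : Pm a b none} (g : Cp3 L Q T) {τ₁ : MT κ L.X} {τ₂ : MT κ Q.X} {τ : MT κ T.X}
    (h₁ : OnP L τ₁ ga gb gA) (h₂ : OnP Q τ₂ gA () ()) (h : OnP T τ ga gb ()) (n₁ : τ₁.nc = 0)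
    (n₂ : τ₂.nc = 0) (n : τ.nc = 0) {i : τ.N} (hi : τ.nb i = ⟨gA.et, none, g.n⟩)
    (fin : ∀ i', (τ.nb i').s = none → i' = i) :
    ∃ γ : TG τ τ₁ τ₂, γ.Is true (e := gA.et) g.toGl3 i := by
  obtain ⟨j₁, a₁, e₁⟩ := Option.map_eq_some_iff.1 h₁.p3
  obtain ⟨j₂, a₂, e₂⟩ := Option.map_eq_some_iff.1 h₂.pin
  have s : (τ.nb i).s = none := by rw [hi]
  have s₁ : (τ₁.nb j₁).s = some true := by rw [e₁]
  have : IsEmpty (Fin τ₁.nc) := n₁ ▸ Fin.isEmpty'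
  have : IsEmpty (Fin τ₂.nc) := n₂ ▸ Fin.isEmpty'
  have : IsEmpty (Fin τ.nc) := n ▸ Fin.isEmpty'
  refine ⟨.of true (e := gA.et) g.toGl3 hi e₁ e₂ (fun i' ne k => (ne (fin i' k)).elim)
    (Equiv.equivOfIsEmpty _ _) isEmptyElim isEmptyElim
    (rel_crr (rel_mt (by norm_num) h₁.pin h.pin g.ki) (τ₁.ne_pin ?_) (τ.ne_pin ?_))
    ⟨Option.map_eq_none_iff.1 h₂.p3, Option.map_eq_none_iff.1 h.p3⟩
    ⟨a₁, rel_crr (rel_mt (by norm_num) h₁.pout h.pout g.ko) (τ₁.ne3 _ a₁) (τ.ne_pout ?_),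
      Option.map_eq_none_iff.1 h₂.pout⟩, rfl, rfl, rfl, rfl, rfl⟩
  all_goals simp [s, s₁]

end cm

theorem MM.ext' {τ : MT κ X} {M M' : MM μ τ} (h : ∀ i, M'.ty i = M.ty i) (e : M'.m = M.m) : M' = M := by
  obtain ⟨ec, cl, _, m, _⟩ := M
  obtain ⟨ec', cl', _, m', _⟩ := M'
  obtain rfl : ec' = ec := funext fun i => by have := h i; simp only [MM.ty] at this; grind
  obtain rfl : cl' = cl := funext fun i => eq_of_heq (Sigma.mk.inj (h i)).2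
  cases e
  rfl

theorem MM.lit_eq {τ : MT κ X} {M M' : MM μ τ} {i : τ.N} (h : M'.ty i = M.ty i) {z}
    (hz : z ∈ (τ.nb i).V (1 / 2)) :
    M'.m.p ((τ.nb i).k z) = M.m.p ((τ.nb i).k z) ∧ ∀ a, M'.m.ρ a ((τ.nb i).k z) = M.m.ρ a ((τ.nb i).k z) := by
  have k : ∀ {eg} {ec ec' : EC (μ ⊕ μ) eg} {cl cl'}, (⟨⟨eg, ec'⟩, cl'⟩ : Ty κ L0 (μ ⊕ μ)) = ⟨⟨eg, ec⟩, cl⟩ →
      ec'.m cl' = ec.m cl := fun h => by cases h; rfl
  have a := M.lit i z hz
  have a' := M'.lit i z hz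
  rw [k h] at a'
  exact ⟨Line51.rl_injective (a'.1.trans a.1.symm), fun b => Line51.rl_injective ((a'.2 b).trans (a.2 b).symm)⟩

/-- `φ` is an isometry from `e'` to `e` -/
def FI (φ : X'.M → X.M) (e' : Option κ → VF X'.I X'.M) (e : Option κ → VF X.I X.M) : Prop :=
  ∀ x, Co (fun a => mf X'.I X.I φ x (e' a x)) (atx e (φ x))

theorem Dif.md (φ : X'.Dif X) (p : X'.M) : MDifferentiableAt X'.I X.I φ.φ p :=
  φ.φ.contMDiff.mdifferentiableAt (by simp)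

theorem mf_sq {Y Y' : M4} {l : Pen22.PD X Y} {l' : Pen22.PD X' Y'} {f : X.M → X'.M} {φ : Y.M → Y'.M} {p : X.M}
    (h : (fun q => φ (l q)) =ᶠ[𝓝 p] fun q => l' (f q)) (hp : p ∈ l.source) (hq : f p ∈ l'.source)
    (hf : MDifferentiableAt X.I X'.I f p) (hφ : MDifferentiableAt Y.I Y'.I φ (l p)) (v : X.X.E) :
    mf Y.I Y'.I φ (l p) (mf X.I Y.I l p v) = mf X'.I Y'.I l' (f p) (mf X.I X'.I f p v) :=
  DFunLike.congr_fun ((Dr59.mf_comp hφ (md_pd l hp)).symm.trans ((Dr59.mf_congr h).trans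
    (Dr59.mf_comp (md_pd l' hq) hf))) v

theorem fi_at {l : Pen22.PD X₁ X} {φ : X.Dif X} {φ₁ : X₁.Dif X₁} (m : ∀ p ∈ l.source, φ.φ (l p) = l (φ₁.φ p))
    {e e' : Option κ → VF X.I X.M} {e₁ e₁' : Option κ → VF X₁.I X₁.M} (h : FI φ₁.φ e₁' e₁) {p : X₁.M}
    (hp : p ∈ l.source) (hq : φ₁.φ p ∈ l.source) (k' : ∀ a, mfderiv X₁.I X.I l p (e₁' a p) = e' a (l p))
    (k : ∀ a, mfderiv X₁.I X.I l (φ₁.φ p) (e₁ a (φ₁.φ p)) = e a (l (φ₁.φ p))) :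
    Co (fun a => mf X.I X.I φ.φ (l p) (e' a (l p))) (atx e (φ.φ (l p))) := by
  have := (h p).map (mf X₁.I X.I l (φ₁.φ p)).toLinearMap
  rw [m p hp]
  convert this using 2 with a a
  · rw [← k']
    exact mf_sq (eventually_of_mem (l.open_source.mem_nhds hp) m) hp hq (Dif.md _ _) (Dif.md _ _) _
  · exact (k a).symm

namespace TG
variable {τ : MT κ X} {τ₁ : MT κ X₁} {τ₂ : MT κ X₂} (γ : TG τ τ₁ τ₂)

theorem s_i : (τ.nb γ.i).s = none := by rw [γ.h]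

theorem s_1 : (τ₁.nb γ.j₁).s = some true := by rw [γ.h₁]

theorem s_2 : (τ₂.nb γ.j₂).s = some false := by rw [γ.h₂]

theorem tm_i : (τ.nb γ.i).n.tm = γ.g.n.tm := by rw [γ.h]

theorem tm_1 : (τ₁.nb γ.j₁).n.tm = γ.k₁.tm := by rw [γ.h₁]

theorem tm_2 : (τ₂.nb γ.j₂).n.tm = γ.k₂.tm := by rw [γ.h₂]

theorem cover (x : X.M) : (∃ p, γ.k₁.tm p < 3 / 2 ∧ γ.g.l p = x) ∨
    (∃ p, -(3 / 2) < γ.k₂.tm p ∧ γ.g.r p = x) ∨ ∃ z ∈ (τ.nb γ.i).V (1 / 2), (τ.nb γ.i).k z = x := by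
  rcases lt_or_ge (γ.g.n.tm x) (3 / 2) with h | h
  · exact .inl ((img_l γ.g (by norm_num) (by norm_num)).ge h)
  rcases lt_or_ge (4 - 3 / 2) (γ.g.n.tm x) with h' | h'
  · exact .inr (.inl ((img_r γ.g (by norm_num) (by norm_num)).ge h'))
  have m : x ∈ (τ.nb γ.i).U (1 / 2) := by
    rw [NB.U, γ.tm_i, γ.s_i]
    exact jm_none.2 ⟨by linarith, by linarith⟩
  exact .inr (.inr ⟨_, NB.symm_mem half_le m, (τ.nb γ.i).k.right_inv (NB.U_sub _ half_le m)⟩)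

variable {γ} {k k' k₁ k₁' k₂ k₂' : ℕ} {β : MB τ k} {β' : MB τ k'} {β₁ : MB τ₁ k₁} {β₁' : MB τ₁ k₁'}
  {β₂ : MB τ₂ k₂} {β₂' : MB τ₂ k₂'} {a : Fin k} {a' : Fin k'} {ι₁ : Fin k₁ → Fin k} {ι₂ : Fin k₂ → Fin k}
  {ι₁' : Fin k₁' → Fin k'} {ι₂' : Fin k₂' → Fin k'} {t : Tk k} {t' : Tk k'}

/-- glued frames are unique -/
theorem GF.ue (h : γ.GF β β₁ β₂ a ι₁ ι₂ t) (h' : γ.GF β' β₁' β₂' a' ι₁' ι₂' t')
    (e₁ : β₁'.e (t' ∘ ι₁') = β₁.e (t ∘ ι₁)) (e₂ : β₂'.e (t' ∘ ι₂') = β₂.e (t ∘ ι₂))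
    (e : (τ.nb γ.i).e.nf (t' a') = (τ.nb γ.i).e.nf (t a)) : β'.e t' = β.e t := by
  funext b x
  obtain ⟨p, hp, rfl⟩ | ⟨p, hp, rfl⟩ | ⟨z, hz, rfl⟩ := γ.cover x
  · rw [← h.l p hp, ← h'.l p hp, e₁]
  · rw [← h.r p hp, ← h'.r p hp, e₂]
  · rw [← h.n b z hz, ← h'.n b z hz, e]

/-- glued isometries -/
theorem GF.fi (h : γ.GF β β₁ β₂ a ι₁ ι₂ t) (h' : γ.GF β' β₁' β₂' a' ι₁' ι₂' t') {φ : X.Dif X}
    {φ₁ : X₁.Dif X₁} {φ₂ : X₂.Dif X₂} (m : γ.g.Mp φ.φ φ₁.φ φ₂.φ) (i₁ : ∀ p, 0 < γ.k₁.tm p → φ₁.φ p = p)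
    (i₂ : ∀ p, γ.k₂.tm p < 0 → φ₂.φ p = p) (e₁ : FI φ₁.φ (β₁'.e (t' ∘ ι₁')) (β₁.e (t ∘ ι₁)))
    (e₂ : FI φ₂.φ (β₂'.e (t' ∘ ι₂')) (β₂.e (t ∘ ι₂)))
    (e : (τ.nb γ.i).e.nf (t' a') = (τ.nb γ.i).e.nf (t a)) : FI φ.φ (β'.e t') (β.e t) := fun x => by
  obtain ⟨p, hp, rfl⟩ | ⟨p, hp, rfl⟩ | ⟨z, hz, rfl⟩ := γ.cover x
  · have q : γ.k₁.tm (φ₁.φ p) < 3 / 2 := lt_of_not_ge fun k => by
      rw [show φ₁.φ p = p from φ₁.φ.injective (i₁ (φ₁.φ p) (by linarith))] at k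
      exact k.not_gt hp
    exact fi_at m.1 e₁ ((mem_l γ.g).2 (by linarith)) ((mem_l γ.g).2 (by linarith)) (h'.l p hp) (h.l _ q)
  · have q : -(3 / 2) < γ.k₂.tm (φ₂.φ p) := lt_of_not_ge fun k => by
      rw [show φ₂.φ p = p from φ₂.φ.injective (i₂ (φ₂.φ p) (by linarith))] at k
      exact k.not_gt hp
    exact fi_at m.2 e₂ ((mem_r γ.g).2 (by linarith)) ((mem_r γ.g).2 (by linarith)) (h'.r p hp) (h.r _ q)
  · have o : φ.φ =ᶠ[𝓝 ((τ.nb γ.i).k z)] id := eventually_of_mem ((τ.nb γ.i).k.open_target.mem_nhds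
      ((τ.nb γ.i).k.map_source (NB.V_sub _ half_le hz))) fun w hw => by
        have u := (NB.mem_tgt γ.s_i).1 hw
        rw [γ.tm_i] at u
        have l := (mem_lt γ.g).2 u.2
        have s := γ.g.l.map_target l
        have r := γ.g.l.right_inv l
        have := m.1 _ s
        rwa [i₁ _ (u.1.trans_eq ((congrArg _ r).symm.trans (tm_l γ.g s (.inr (r.symm ▸ u.1))))), r] at this
    rw [Dr59.mf_congr o, Dr59.mf_id, o.eq_of_nhds]
    intro α β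
    refine Finset.sum_congr rfl fun b _ => ?_
    have : β'.e t' b ((τ.nb γ.i).k z) = _ := (h'.n b z hz).symm.trans (e ▸ h.n b z hz)
    simp only [this, id]
    rfl

/-- glued modules are unique -/
theorem GM.uq {M M' : MM μ τ} {M₁ : MM μ τ₁} {M₂ : MM μ τ₂} (h : γ.GM M M₁ M₂) (h' : γ.GM M' M₁ M₂) :
    M' = M := by
  have k : ∀ x, M'.m.p x = M.m.p x ∧ ∀ a, M'.m.ρ a x = M.m.ρ a x := fun x => by
    obtain ⟨p, hp, rfl⟩ | ⟨p, hp, rfl⟩ | ⟨z, hz, rfl⟩ := γ.cover x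
    · exact ⟨(h'.l p hp).1.trans (h.l p hp).1.symm, congrFun ((h'.l p hp).2.trans (h.l p hp).2.symm)⟩
    · exact ⟨(h'.r p hp).1.trans (h.r p hp).1.symm, congrFun ((h'.r p hp).2.trans (h.r p hp).2.symm)⟩
    · exact MM.lit_eq (h'.t₁.symm.trans h.t₁) hz
  refine MM.ext' (fun i => ?_) ?_
  · obtain rfl | ⟨j, r⟩ | ⟨j, r⟩ := γ.sur i
    exacts [h'.t₁.symm.trans h.t₁, (h'.r₁ _ _ r).symm.trans (h.r₁ _ _ r), (h'.r₂ _ _ r).symm.trans (h.r₂ _ _ r)]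
  · exact congrArg₂ Lab56.C8.mk (funext fun x => (k x).1) (funext₂ fun a x => (k x).2 a)

end TG

end Crest.Agent.X212.Sw87.Mo
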