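import Crest.Agent.X212.Rfl19.Th
import Crest.Agent.X212.Rw22.Defs
import Crest.Agent.X212.Lab56.Hom

/-!
# Row 212, layer S (helper87): positive diffeomorphisms act on a theory

* `PD A B` : positive diffeomorphisms; `cyC φ` : the cylinder over `B` as a cobordism from `A`;
* `Kc S i j C` : the cobordism `C` belongs to the scene; `hiso` : the modules are isomorphic.
-/

set_option autoImplicit false
set_option linter.unusedSectionVars false

open Set Filter Topology Function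
open scoped ContDiff Manifold
open Crest.Agent.R208 Crest.Agent.R208.F
open Crest.Agent.X212.Bor5.T Crest.Agent.X212.Orx52 Crest.Agent.X212.Rfl19
open Crest.Agent.X212.Dr59 (HZ Cs)
open Crest.Agent.X212.Cyl58 (TP TIso cylT cylIso)
open Crest.Agent.X212.Rod53 (E4)
open Crest.Agent.X212.Lab56 (Cls Dat)
open Crest.Agent.X212.Rw22 (HIso)
open Crest.Agent.X212.Bor5 (K)

noncomputable section

namespace Crest.Agent.X212.Sw87

/-- a positive diffeomorphism -/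
structure PD (A B : O3) where
  φ : A.Y.M ≃ₘ^∞⟮A.Y.I, B.Y.I⟯ B.Y.M
  pos : Pos A.Y.I B.Y.I φ univ A.o B.o

/-- the identity -/
def PD.refl (A : O3) : PD A A := ⟨Diffeomorph.refl _ _ _, pos_id.2 (oriOn A.ori univ).same⟩

/-- the inverse -/
def PD.symm {A B : O3} (φ : PD A B) : PD B A :=
  ⟨φ.φ.symm, (Pos.symm (φ := φ.φ.toPartialDiffeomorph) φ.pos subset_rfl).mono
    fun y _ => ⟨φ.φ.symm y, trivial, φ.φ.apply_symm_apply y⟩⟩

/-- the composite -/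
def PD.trans {A B C : O3} (φ : PD A B) (ψ : PD B C) : PD A C :=
  ⟨φ.φ.trans ψ.φ, ψ.pos.comp φ.pos (fun y _ => ψ.φ.isLocalDiffeomorph y) (fun y _ => φ.φ.isLocalDiffeomorph y)
    (mapsTo_univ _ _)⟩

/-- the cylinder with the model `E4` -/
def cyT (A : O3) : TP E4 where
  P := Glue52.Pc.of A.cyl.P.I A.cyl.P.M (Glue52.linE 4 _ (by
    show Module.finrank ℝ (A.Y.E × ℝ) = 4
    simp [A.Y.dim]))
  t2 := A.cyl.t2
  sc := A.cyl.sc
  ne := A.cyl.ne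
  τ := A.cyl.τ
  cont := A.cyl.cont
  prop := A.cyl.prop

/-- the oriented cylinder -/
def cyW (A : O3) : W4 where
  X := cyT A
  mE := borel _
  bE := @BorelSpace.mk _ _ (borel _) rfl
  ms := borel _
  bs := @BorelSpace.mk _ _ (borel _) rfl
  con := inferInstanceAs (ConnectedSpace (A.Y.M × ℝ))
  o := pr A.o oR
  ori := ori_pr A.ori ori_oR

theorem hz_cyl {A : O3} {k : ℕ} (h : HZ A.Y.I k (univ : Set A.Y.M)) : HZ A.cyl.P.I k (univ : Set A.cyl.P.M) := by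
  have := h.prod_convex isOpen_univ (isOpen_univ : IsOpen (univ : Set ℝ)) convex_univ
  rwa [univ_prod_univ] at this

variable {A B C : Q3}

/-- `φ × id` -/
def PD.cy {A B : O3} (φ : PD A B) {J : Set ℝ} (hJ : IsOpen J) : TIso A.cyl B.cyl J :=
  cylIso (Y := A.Y.pc) (Y' := B.Y.pc) φ.φ hJ

theorem PD.cy_pos {A B : O3} (φ : PD A B) {J : Set ℝ} (hJ : IsOpen J) :
    TPos (φ.cy hJ) (pr A.o oR) (pr B.o oR) := tpos_cylIso (Y := A.Y.pc) (Y' := B.Y.pc) hJ φ.pos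

/-- the same with values in `cyT` -/
def PD.cx {A B : O3} (φ : PD A B) {J : Set ℝ} (hJ : IsOpen J) : TIso A.cyl (cyT B) J :=
  ⟨(φ.cy hJ).φ, (φ.cy hJ).src, (φ.cy hJ).tgt, (φ.cy hJ).tm⟩

/-- the cylinder of a positive diffeomorphism -/
def cyC (φ : PD A.toO3 B.toO3) : Cob A B where
  toW4 := cyW B.toO3
  h1 := hz_cyl B.h1
  a := 1
  b := 0
  ki := φ.cx isOpen_Iio
  ko := (PD.refl B.toO3).cx isOpen_Ioi
  pi := φ.cy_pos isOpen_Iio
  po := (PD.refl B.toO3).cy_pos isOpen_Ioi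

/-- the action on classes -/
def PD.cl {A B : O3} (φ : PD A B) (t : B.L) : A.L :=
  t.pull (f := φ.cy isOpen_univ) (fun _ _ => (φ.cy isOpen_univ).ld trivial) (mapsTo_univ _ _)

theorem PD.pb {A B : O3} (φ : PD A B) (t : B.L) : Pb (φ.cy isOpen_univ) univ t (φ.cl t) := pb_pull _

theorem PD.cl_symm {A B : O3} (φ : PD A B) (s : A.L) : φ.cl (φ.symm.cl s) = s :=
  pb_unique (pb_congr (pb_comp (φ.symm.pb s) (φ.pb _) (mapsTo_univ _ _)) (f' := id)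
    fun _ _ => .of_forall fun y => Prod.ext (φ.φ.symm_apply_apply y.1).symm rfl) pb_id

/-- the bijection of the classes -/
def PD.eqv {A B : O3} (φ : PD A B) : A.L ≃ B.L := ⟨φ.symm.cl, φ.cl, φ.cl_symm, φ.symm.cl_symm⟩

theorem in_cyC (φ : PD A.toO3 B.toO3) (t : B.L) : (cyC φ).In t (φ.cl t) := pb_mono (φ.pb t) (subset_univ _)

theorem out_cyC (φ : PD A.toO3 B.toO3) (t : B.L) : (cyC φ).Out t t := pb_id

/-- the composite of two cylinders -/
def glC (φ : PD A.toO3 B.toO3) (ψ : PD B.toO3 C.toO3) (χ : PD A.toO3 C.toO3) :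
    Gl (cyC φ).toW4 (cyC ψ).toW4 (cyC χ).toW4 (cyC φ).ko (cyC ψ).ki where
  δ₁ := 0
  δ₂ := 0
  α := 0
  β := 1
  lt := one_pos
  hb := (add_zero _).le
  ha := (add_zero _).ge
  l := ⟨(ψ.cy isOpen_Iio).φ, (ψ.cy isOpen_Iio).src.trans (Set.ext fun p => by
      show p.2 < 1 ↔ p.2 + 0 < 1
      rw [add_zero]), (ψ.cy isOpen_Iio).tgt, fun _ _ => (add_zero _).symm⟩
  r := ⟨((PD.refl _).cy isOpen_Ioi).φ, ((PD.refl _).cy isOpen_Ioi).src.trans (Set.ext fun p => by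
      show 0 < p.2 ↔ 0 < p.2 + 0
      rw [add_zero]), ((PD.refl _).cy isOpen_Ioi).tgt, fun _ _ => (add_zero _).symm⟩
  pl := (ψ.cy_pos isOpen_univ).mono (subset_univ _)
  pr := ((PD.refl _).cy_pos isOpen_univ).mono (subset_univ _)
  ov _ _ _ := rfl

theorem cur_zero {W : W4} (h : HZ W.X.P.I 2 (univ : Set W.M)) (d : W.L) : Cur d 0 := by
  obtain ⟨D⟩ := d
  have h0 := D.ok.det.on
  obtain ⟨b, h1, h2, h3⟩ := (h _ (h0.cl_F isOpen_univ).neg).deg (h0.cl_F isOpen_univ).neg.dg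
  refine ⟨D, rfl, _, h0.shift h1 h2, funext fun x => ?_⟩
  exact ((h0.F_shift isOpen_univ h1 trivial).trans (by rw [h3 x trivial]; simp)).symm

/-! ### cobordisms of a scene -/

variable {S : Scene} {i j k : S.ι}

variable (S i j) in
/-- the cobordism `C` belongs to the scene -/
structure Kc (C : Cob (S.ob i) (S.ob j)) where
  c : S.κ i j
  e : S.cob c = C

variable (θ : Th S) {C₁ : Cob (S.ob i) (S.ob j)} {C₂ : Cob (S.ob j) (S.ob k)} {C₃ : Cob (S.ob i) (S.ob k)}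

/-- the maps -/
def Kc.F (c : Kc S i j C₁) : C₁.L → (θ.H i).H →ₗ[K] (θ.H j).H := c.e ▸ θ.F c.c

theorem Kc.map0 (c : Kc S i j C₁) (h : HZ C₁.X.P.I 2 (univ : Set C₁.M)) {d s t x y} (a : C₁.In d s)
    (b : C₁.Out d t) (hy : y ∈ (θ.H i).gr s x) : c.F θ d y ∈ (θ.H j).gr t x := by
  obtain ⟨c, rfl⟩ := c
  have := θ.map c d s t x y a b hy
  rwa [θ.deg c d (n := Empty) Empty.elim Empty.elim ∅ 0 0
    (Dr59.Lat.empty (S.cob c).ori isOpen_univ (empty_subset _) h) Cs.zero (cur_zero h d) (by simp [Dr59.ip]),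
    add_zero] at this

theorem Kc.off (c : Kc S i j C₁) {d s s' x y} (a : C₁.In d s) (b : s' ≠ s) (hy : y ∈ (θ.H i).gr s' x) :
    c.F θ d y = 0 := by
  obtain ⟨c, rfl⟩ := c
  exact θ.off c d s s' x y a b hy

theorem Kc.U (c : Kc S i j C₁) (d y) : c.F θ d ((θ.H i).U y) = (θ.H j).U (c.F θ d y) := by
  obtain ⟨c, rfl⟩ := c
  exact θ.U c d y

theorem Kc.comp (c₁ : Kc S i j C₁) (c₂ : Kc S j k C₂) (c₃ : Kc S i k C₃)
    (g : Gl C₁.toW4 C₂.toW4 C₃.toW4 C₁.ko C₂.ki) {d d₁ d₂} (a : Ag atBot (g.fl ∘ C₁.ki) C₃.ki)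
    (b : Ag atTop (g.fr ∘ C₂.ko) C₃.ko) (h : g.Rs d d₁ d₂) : c₃.F θ d = c₂.F θ d₂ ∘ₗ c₁.F θ d₁ := by
  obtain ⟨c₁, rfl⟩ := c₁
  obtain ⟨c₂, rfl⟩ := c₂
  obtain ⟨c₃, rfl⟩ := c₃
  exact θ.comp c₁ c₂ c₃ g d d₁ d₂ a b h

theorem Kc.id {C : Cob (S.ob i) (S.ob i)} (c : Kc S i i C)
    (φ : (S.ob i).cyl.P.M ≃ₘ^∞⟮(S.ob i).cyl.P.I, C.X.P.I⟯ C.M) {d s x y}
    (p : Pos (S.ob i).cyl.P.I C.X.P.I φ univ (pr (S.ob i).o oR) C.o) (a : Ag atBot φ C.ki) (b : Ag atTop φ C.ko)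
    (h : C.In d s) (hy : y ∈ (θ.H i).gr s x) : c.F θ d y = y := by
  obtain ⟨c, rfl⟩ := c
  exact θ.id c φ d s x y p a b h hy

variable {φ : PD (S.ob i).toO3 (S.ob j).toO3}

/-- the total map of a cylinder -/
def Kc.tot (c : Kc S i j (cyC φ)) : (θ.H i).H →ₗ[K] (θ.H j).H :=
  have := (S.ob j).fin
  have := Fintype.ofFinite (S.ob j).L
  ∑ t : (S.ob j).L, c.F θ t

theorem Kc.tot_eq (c : Kc S i j (cyC φ)) {t x y} (hy : y ∈ (θ.H i).gr (φ.cl t) x) : c.tot θ y = c.F θ t y := by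
  refine (LinearMap.sum_apply _ _ _).trans ?_
  exact Finset.sum_eq_single t (fun t' _ h => c.off θ (in_cyC φ t') (fun e => h (φ.eqv.symm.injective e).symm) hy)
    fun h => (h (@Finset.mem_univ _ (_) _)).elim

theorem Kc.tot_mem (c : Kc S i j (cyC φ)) {t x y} (hy : y ∈ (θ.H i).gr (φ.cl t) x) :
    c.tot θ y ∈ (θ.H j).gr t x :=
  (c.tot_eq θ hy).symm ▸ c.map0 θ (hz_cyl (S.ob j).h2) (in_cyC φ t) (out_cyC φ t) hy

theorem Kc.tot_tot (c : Kc S i j (cyC φ)) (c' : Kc S j i (cyC φ.symm)) (e : Kc S i i (cyC (PD.refl _))) (y) :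
    c'.tot θ (c.tot θ y) = y := by
  have hy : y ∈ ⨆ p : _ × ℚ, (θ.H i).gr p.1 p.2 := (θ.H i).top ▸ Submodule.mem_top
  induction hy using Submodule.iSup_induction' with
  | zero => simp
  | add _ _ _ _ a b => simp [a, b]
  | mem p y hy =>
    obtain ⟨s, x⟩ := p
    have h1 : y ∈ (θ.H i).gr (φ.cl (φ.symm.cl s)) x := (φ.cl_symm s).symm ▸ hy
    rw [c'.tot_eq θ (c.tot_mem θ h1), c.tot_eq θ h1, ← LinearMap.comp_apply,
      ← Kc.comp θ c c' e (glC φ φ.symm (PD.refl _)) (d := s)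
        (ag_of_eq (.of_forall fun _ y => Prod.ext (φ.φ.symm_apply_apply y) rfl)) ag_refl
        ⟨pb_mono (φ.symm.pb s) (subset_univ _), pb_id⟩]
    exact e.id θ (Diffeomorph.refl _ _ _) ((PD.refl _).cy_pos isOpen_univ) ag_refl ag_refl pb_id hy

/-- **R-ISO** -/
def hiso (c : Kc S i j (cyC φ)) (c' : Kc S j i (cyC φ.symm)) (e : Kc S i i (cyC (PD.refl _)))
    (e' : Kc S j j (cyC (PD.refl _))) : HIso (θ.H i) (θ.H j) where
  g := LinearEquiv.ofLinearMap (c.tot θ) (c'.tot θ) (LinearMap.ext (c'.tot_tot θ (φ := φ.symm) c e'))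
    (LinearMap.ext (c.tot_tot θ c' e))
  τ := φ.eqv
  map s _ _ hy := c.tot_mem θ ((φ.cl_symm s).symm ▸ hy)
  U y := (LinearMap.sum_apply _ _ _).trans ((Finset.sum_congr rfl fun t _ => c.U θ t y).trans
    ((map_sum _ _ _).symm.trans (congrArg _ (LinearMap.sum_apply _ _ _).symm)))

end Crest.Agent.X212.Sw87
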