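import Crest.Agent.X212.Bor5.Ex
import Crest.Agent.X212.Sw87.Iso
import Crest.Agent.X212.Cab39.Defs

/-!
# Row 212, layer S (helper87): the objects of the seam, statements

* `tK k` : the tube of a knot, with the sign `-1`; `Base k` : its fillings, and the exteriors of the meridians;
* leaves `ObStmt`, `DifStmt`, `H1Stmt`, `LinkStmt`.
-/

set_option autoImplicit false
set_option linter.unusedSectionVars false

open Set Filter Topology Function
open scoped ContDiff Manifold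
open Crest.Agent.X212.Bor5.T Crest.Agent.X212.Orx52
open Crest.Agent.X212.Dr59 (HZ)
open Crest.Agent.X212.Ext52 (KD)
open Crest.GeometryTopology.DehnSurgery (S3)
open Crest.Agent.X212.Nrm38 (Cos)
open Crest.Agent.X212.Rod53 (Z2 Loc Jr PM ofTube)
open Crest.Agent.X212.Lab56 (Cls Ref Good Pic0)
open Crest.Agent.X212.Rw22 (Vx Ln vK vL δL SL Sg)
open Crest.Agent.X212.Bor5 (Sl sl14)
open Crest.Agent.X212.M (Mf)

noncomputable section

namespace Crest.Agent.X212.Sw87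

/-- the tube of a knot, in the sphere with the opposite orientation -/
def tK (k : KD) : Tub where
  N := Mf.ofB 3 (𝓡 3) S3 (by simp)
  cpt := (inferInstance : CompactSpace S3)
  T := ofTube k.toTube
  o := -oS k.toTube
  ori := (oriOn (ori_oS k.toTube) _).neg
  σ := -1
  hσ := .inr rfl
  pos := by simpa using (pos_τ k.toTube _).neg

/-- an exterior with the character `δ` -/
structure Xt (δ : Z2) : Type 1 where
  τ : Tub
  sg : τ.σ = -1
  ϑ : τ.N.M → Circle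
  gd : Good τ.T ϑ δ
  cl : Nonempty (Cls (τ.N.I.prod 𝓘(ℝ, ℝ)) (univ : Set (τ.N.M × ℝ)))

theorem sl10 : Sl 1 0 := ⟨one_ne_zero, le_rfl, isCoprime_one_left⟩

theorem sl11 : Sl 1 1 := ⟨one_ne_zero, zero_le_one, isCoprime_one_left⟩

/-- the fillings of the knot `k`, and the exteriors of the meridians -/
structure Base (k : KD) : Type 1 where
  ob : Vx → Q3
  f : ∀ i, Fo (tK k) (ob i).toO3 (vK i)
  pic : ∀ i, Pic0 (ob i).Y.I univ (f i).F.tb.Ex
  s0 : Sph (ob ⟨(1, 0), sl10⟩).toO3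
  inj : Injective s0.π
  Λ : Ln → Q3
  lam : ∀ l, Nonempty (Sph (Λ l).toO3)
  X : ∀ l, Xt (δL l)
  g : ∀ l i, some i ∈ SL l → Fo (X l).τ (ob i).toO3 (vL l (some i))
  g0 : ∀ l, Fo (X l).τ (Λ l).toO3 (1, 0)
  picg : ∀ l i h, Pic0 (ob i).Y.I univ (g l i h).F.tb.Ex
  pic0 : ∀ l, Pic0 (Λ l).Y.I univ (g0 l).F.tb.Ex
  mer : ∀ l i h w, (g l i h).F.it w = (f i).F.mer.τ w

/-- R-OB -/
def ObStmt : Prop := ∀ k : KD, Nonempty (Base k)

/-- R-DIF: positive diffeomorphisms of fillings -/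
structure DifStmt : Prop where
  uniq : ∀ (τ : Tub) (A B : O3) (a b : Z2), Fo τ A a → Fo τ B b → PM a b → Nonempty (PD A B)
  cos : ∀ (k : KD) (A B : O3) (p q q' : ℤ), Fo (tK k) A (q, p) → Fo (tK k) B (q', p) → Cos k p q q' →
    Nonempty (PD A B)
  cab : ∀ (k : KD) (A B : O3), Fo (tK (Cab39.cable k)) A (1, 1) → Fo (tK k) B (4, 1) → Nonempty (PD A B)

/-- R-H1 -/
def H1Stmt : Prop := ∀ (τ : Tub) (A : Q3) (a : Z2), Fo τ A.toO3 a → ∀ v, Loc v → (Jr v a).Nonempty →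
  HZ (𝓡 4) 1 (univ : Set (τ.X v))

/-- R-LINK: the core of the meridian tube is `± a.1` times the core of the filling -/
def LinkStmt : Prop := ∃ η, Sg η ∧ ∀ (δ δ' : Z2) (X : Xt δ) (X' : Xt δ') {n N n' N' : ℕ}
  (R : Ref X.τ.T (Fin n) (Fin N)) (R' : Ref X'.τ.T (Fin n') (Fin N')) (A : Q3) (a a' : Z2) (f : Fo X.τ A.toO3 a)
  (f' : Fo X'.τ A.toO3 a'), (∀ w, f'.F.it w = f.F.mer.τ w) → ∀ s t m m', Lo R f s m → Lo R' f' s m' →
    Lo R' f' t (m' + 2) → Lo R f t (m + 2 * η * a.1)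

end Crest.Agent.X212.Sw87
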