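import Crest.Agent.X212.Bor5.Ex

/-!
# Row 212, layer S (helper87): the rod theory of an exterior

`rodStmt : DegStmt → Deg2Stmt → CmpStmt → BuStmt → RflStmt → ExStmt → RodStmt'`.
-/

set_option autoImplicit false
set_option linter.unusedSectionVars false

open Set Filter Topology Function
open scoped ContDiff Manifold
open Crest.Agent.X212.Bor5.T
open Crest.Agent.X212.Rod53 (Z2 Uni dt)
open Crest.Agent.X212.Lab56 (Cls Ref Good)
open Crest.Agent.X212.Line51 (dot)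
open Crest.Agent.X212.Rw22 (Rod Sg Tr dgk sq kp)
open Crest.Agent.X212.Bor5 (K)

noncomputable section

namespace Crest.Agent.X212.Sw87

theorem tr_uni {a b c : Z2} {σ ρ : ℤ} (h : Tr a b c σ ρ) : Uni a b ∧ Uni b c ∧ Uni a c := by
  obtain ⟨rfl | rfl, rfl | rfl, rfl, h⟩ := h <;>
    simp only [Rw22.dt, Uni, dt, one_smul, neg_smul, Prod.fst_add, Prod.snd_add, Prod.fst_neg, Prod.snd_neg] at h ⊢ <;>
    refine ⟨?_, ?_, ?_⟩ <;> first | (left; linear_combination h) | (right; linear_combination h) |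
      (left; linear_combination -h) | (right; linear_combination -h)

theorem rfl_uni {a b c : Z2} {σ ρ n : ℤ} (h : Uni a b) (hσ : Sg σ) (hρ : Sg ρ) (e : σ • a + ρ • c = n • b) :
    Uni b c := by
  have e1 := congrArg Prod.fst e
  have e2 := congrArg Prod.snd e
  simp only [Prod.fst_add, Prod.snd_add, Prod.smul_fst, Prod.smul_snd, smul_eq_mul] at e1 e2
  rcases hσ with rfl | rfl <;> rcases hρ with rfl | rfl <;> rcases h with h | h <;> simp only [Uni, dt] at h ⊢ <;>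
    first | (left; linear_combination h + b.1 * e2 - b.2 * e1) | (right; linear_combination h + b.1 * e2 - b.2 * e1) |
      (left; linear_combination -h + b.1 * e2 - b.2 * e1) | (right; linear_combination -h + b.1 * e2 - b.2 * e1) |
      (left; linear_combination h - b.1 * e2 + b.2 * e1) | (right; linear_combination h - b.1 * e2 + b.2 * e1) |
      (left; linear_combination -h - b.1 * e2 + b.2 * e1) | (right; linear_combination -h - b.1 * e2 + b.2 * e1)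

variable {S : Scene} (θ : Th S) {τ : Tub} {I : Type} {V : Set I} {v : I → Z2} {X : Ex S τ V v} {n N : ℕ}
  {R : Ref τ.T (Fin n) (Fin N)} {δ : Z2} {ε : I → ℤ} {a b c i : I} {m m' : ℤ}

theorem eg_symm (h : Eg V v a b) : Eg V v b a := ⟨h.2.1, h.1, h.2.2.symm⟩

variable (R) in
open Classical in
/-- the class with a given order on a filling -/
def cl0 (ne : ∀ i, Nonempty (S.ob (X.ι i)).L) (i : I) (m : ℤ) : (S.ob (X.ι i)).L :=
  if h : ∃ s, ∃ k : i ∈ V, X.L0 R k s m then h.choose else (ne i).some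

variable (X) in
/-- the classes on a word with one vertex -/
def CC (a b : I) : Type := ∀ h : Eg V v a b, (S.cob (X.c1 h)).L

/-- ... are those of the cobordism -/
def eC (h : Eg V v a b) : (S.cob (X.c1 h)).L ≃ CC X a b := ⟨fun d _ => d, fun d => d h, fun _ => rfl, fun _ => rfl⟩

open Classical in
/-- the maps -/
def FF (d : CC X a b) : (θ.H (X.ι a)).H →ₗ[K] (θ.H (X.ι b)).H :=
  if h : Eg V v a b then θ.F (X.c1 h) (d h) else 0

theorem FF_eq (h : Eg V v a b) (d : CC X a b) : FF θ d = θ.F (X.c1 h) (d h) := dif_pos h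

theorem tot_eq (h : Eg V v a b) :
    (fun y => ∑ᶠ d : CC X a b, FF θ d y) = fun y => ∑ᶠ d, θ.F (X.c1 h) d y := funext fun y => by
  rw [← finsum_comp_equiv (eC h)]
  exact finsum_congr fun d => by rw [FF_eq θ h]; rfl

variable (w : X.Cw R δ ε)
include w

theorem cl0_spec (ne : ∀ i, Nonempty (S.ob (X.ι i)).L) (h : i ∈ V) (e : Even (m + ε i)) :
    X.L0 R h (cl0 R ne i m) m := by
  have k : ∃ s, ∃ k : i ∈ V, X.L0 R k s m := let ⟨s, hs⟩ := w.ex0 h m e; ⟨s, h, hs⟩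
  rw [cl0, dif_pos k]
  exact k.choose_spec.2

open Classical in
/-- the class with given orders on a word -/
def c20 (a b : I) (m m' : ℤ) : CC X a b := fun h =>
  if k : ∃ d, X.L1 R h d m m' then k.choose else (w.ex1 h _ _ ⟨_, rfl⟩ ⟨_, rfl⟩).choose

theorem c20_spec (h : Eg V v a b) (e : Even (m + ε a)) (e' : Even (m' + ε b)) :
    X.L1 R h (c20 w a b m m' h) m m' := by
  rw [c20, dif_pos (w.ex1 h m m' e e')]
  exact (w.ex1 h m m' e e').choose_spec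

theorem c20_eq (h : Eg V v a b) (e : Even (m + ε a)) (e' : Even (m' + ε b)) {d} (k : X.L1 R h d m m') :
    c20 w a b m m' h = d := (w.eq1 h (c20_spec w h e e') k).2 ⟨0, by ring, by ring⟩

variable (hD : DegStmt) (hD2 : Deg2Stmt) (hC : CmpStmt) (hB : BuStmt) (hR : RflStmt) (hE : ExStmt)
  {ϑ : τ.N.M → Circle} (gd : Good τ.T ϑ δ) (sg : τ.σ = -1) (nz : ∀ i ∈ V, dot δ (v i) ≠ 0)
  (ne : ∀ i, Nonempty (S.ob (X.ι i)).L)

/-- **R-ASM** -/
def rod : Rod V v δ fun i => θ.H (X.ι i) where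
  ε := ε
  cl := cl0 R ne
  cl_surj i h s :=
    let ⟨m, e, k⟩ := w.sj0 h s; ⟨m, e, (w.eq0 h (cl0_spec w ne h e) k).2 (by simp)⟩
  cl_eq i h m n e e' := w.eq0 h (cl0_spec w ne h e) (cl0_spec w ne h e')
  C := CC X
  c2 := c20 w
  F := FF θ
  c2_surj a ha b hb hu d :=
    let ⟨m, m', e, e', k⟩ := w.sj1 ⟨ha, hb, hu⟩ (d ⟨ha, hb, hu⟩); ⟨m, m', e, e', funext fun h => c20_eq w h e e' k⟩
  c2_eq a ha b hb hu m m' k k' e e' f f' :=
    Iff.trans ⟨fun q => congrFun q ⟨ha, hb, hu⟩, fun q => funext fun _ => q⟩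
      (w.eq1 ⟨ha, hb, hu⟩ (c20_spec w _ e e') (c20_spec w _ f f'))
  map a ha b hb hu m m' e e' x y hy := by
    have k := c20_spec w ⟨ha, hb, hu⟩ e e'
    rw [FF_eq θ ⟨ha, hb, hu⟩, ← (hD S θ τ V v X ϑ δ R gd sg nz _ _ _ _ k).1]
    exact θ.map _ _ _ _ _ _ (w.in1 _ k (cl0_spec w ne ha e)) (w.out1 _ k (cl0_spec w ne hb e')) hy
  off a ha b hb hu m m' e e' s x hs y hy := by
    rw [FF_eq θ ⟨ha, hb, hu⟩]
    exact θ.off _ _ _ _ _ _ (w.in1 _ (c20_spec w _ e e') (cl0_spec w ne ha e)) hs hy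
  U a ha b hb hu d y := by
    rw [FF_eq θ ⟨ha, hb, hu⟩]
    exact θ.U _ _ _
  fin a ha b hb hu y := by
    refine ((θ.fin (X.c1 ⟨ha, hb, hu⟩) y).image (eC _)).subset fun d hd => ⟨d _, ?_, rfl⟩
    rwa [mem_support, FF_eq θ ⟨ha, hb, hu⟩] at hd
  neg a ha b hb hu h m m' e e' := by
    have k := c20_spec w ⟨ha, hb, hu⟩ e e'
    rw [FF_eq θ ⟨ha, hb, hu⟩]
    exact (hD S θ τ V v X ϑ δ R gd sg nz _ _ _ _ k).2.1 h _ (w.in1 _ k (cl0_spec w ne ha e))
  pos a ha b hb hu h m m' e e' := by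
    rw [FF_eq θ ⟨ha, hb, hu⟩]
    exact ((hD S θ τ V v X ϑ δ R gd sg nz _ _ _ _ (c20_spec w ⟨ha, hb, hu⟩ e e')).2.2 h).imp fun _ k => k _
  bu a ha b hb c hc σ ρ t ma mb mc e he ea eb ec hm := by
    have h : Eg V v a b := ⟨ha, hb, (tr_uni t).1⟩
    have k : Eg V v b c := ⟨hb, hc, (tr_uni t).2.1⟩
    have l : Eg V v a c := ⟨ha, hc, (tr_uni t).2.2⟩
    obtain ⟨d, hd⟩ := w.ex2 h k ma mb mc ea eb ec
    have q := c20_spec w l ea ec
    rw [FF_eq θ h, FF_eq θ k, FF_eq θ l,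
      ← hC S θ τ V v X R h k d _ _ ma mb mc hd (c20_spec w h ea eb) (c20_spec w k eb ec)]
    exact hB S θ τ V v X R sg h k l σ ρ d _ ma mb mc t hd q
      (hD2 S θ τ V v X ϑ δ R gd sg nz h k l σ ρ e d _ ma mb mc t he hm hd q)
  refl a ha b hb c hc hu σ ρ p e hσ hρ hp hs ma mb mb' mc ea eb eb' ec hm := by
    have h : Eg V v a b := ⟨ha, hb, hu⟩
    have k : Eg V v b c := ⟨hb, hc, rfl_uni hu hσ hρ hs⟩
    obtain ⟨d, hd⟩ := w.ex2 h k ma mb mc ea eb ec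
    obtain ⟨d', hd'⟩ := w.ex2 h k ma mb' mc ea eb' ec
    rw [FF_eq θ h, FF_eq θ k, FF_eq θ h, FF_eq θ k,
      ← hC S θ τ V v X R h k d _ _ ma mb mc hd (c20_spec w h ea eb) (c20_spec w k eb ec),
      ← hC S θ τ V v X R h k d' _ _ ma mb' mc hd' (c20_spec w h ea eb') (c20_spec w k eb' ec)]
    exact hR S θ τ V v X R h k σ ρ p e d d' ma mb mb' mc hσ hρ hp hs hm hd hd'
  ex a ha b hb c hc σ ρ t := by
    have h : Eg V v a b := ⟨ha, hb, (tr_uni t).1⟩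
    have k : Eg V v b c := ⟨hb, hc, (tr_uni t).2.1⟩
    rw [tot_eq θ h, tot_eq θ k]
    exact hE S θ τ V v X sg h k σ ρ t

omit w in
/-- `RodStmt`, for vertices that carry a class -/
def RodStmt' : Prop := ∀ (S : Scene) (θ : Th S) (τ : Tub) {I : Type} (V : Set I) (v : I → Z2) (X : Ex S τ V v)
  (ϑ : τ.N.M → Circle) (δ : Z2) {n N : ℕ} (R : Ref τ.T (Fin n) (Fin N)) (ε : I → ℤ), Good τ.T ϑ δ → τ.σ = -1 →
  (∀ i ∈ V, dot δ (v i) ≠ 0) → X.Cw R δ ε → (∀ i, Nonempty (S.ob (X.ι i)).L) →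
  ∃ ρ : Rod V v δ fun i => θ.H (X.ι i), ρ.ε = ε ∧
    (∀ {i} (h : i ∈ V) m, Even (m + ε i) → X.L0 R h (ρ.cl i m) m) ∧
    ∀ {a b} (h : Eg V v a b) d m m', Even (m + ε a) → Even (m' + ε b) → X.L1 R h d m m' →
      ρ.F (ρ.c2 a b m m') = θ.F (X.c1 h) d

omit w in
include hD hD2 hC hB hR hE in
theorem rodStmt : RodStmt' := fun _ θ _ _ _ _ _ _ _ _ _ _ _ gd sg nz w ne =>
  ⟨rod θ w hD hD2 hC hB hR hE gd sg nz ne, rfl, fun h _ e => cl0_spec w ne h e,
    fun h _ _ _ e e' k => (FF_eq θ h _).trans (congrArg _ (c20_eq w h e e' k))⟩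

omit w in
theorem cw_ne (w : X.Cw R δ ε) (h : i ∈ V) : Nonempty (S.ob (X.ι i)).L :=
  let ⟨s, _⟩ := w.ex0 h _ ⟨_, rfl⟩; ⟨s⟩

end Crest.Agent.X212.Sw87
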