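import Crest.Agent.X212.Sw87.Scn
import Crest.Agent.X212.Sw87.Rod
import Crest.Agent.X212.Lu3.Main
import Crest.Agent.X212.Lab9.Main
import Crest.Agent.X212.Rob53.Ori

/-!
# Row 212, layer S (helper87): the geometric half of the seam, from its leaves

`seam : ThStmt → NvS → ObStmt → DifStmt → Dif2 → LinkStmt → ClsStmt → RodStmt' → InStmt`.
-/

set_option autoImplicit false
set_option linter.unusedSectionVars false

open Set Filter Topology Function
open scoped ContDiff Manifold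
open Crest.Agent.X212.Bor5.T
open Crest.Agent.X212.Ext52 (KD)
open Crest.Agent.X212.Cab39 (cable)
open Crest.Agent.X212.Rod53 (Z2 PM)
open Crest.Agent.X212.Lab56 (Good Pic0 thK good_KD)
open Crest.Agent.X212.Line51 (dot)
open Crest.Agent.X212.Rw22 (Vx Ln vK vL δL SL Rod HIso Pure NVH In InStmt extL extA)
open Crest.Agent.X212.Win22 (Hf)
open Crest.Agent.X212.Bor5 (Sl sl14)

noncomputable section

namespace Crest.Agent.X212.Sw87

/-- NV: the caps, the pentagon and the non-vanishing data of the cable -/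
def NvS : Prop := ∀ (Q : Prd) (R : ℝ), Taub Q → ∀ k : KD, ¬k.thick.IsUnknot →
  ∀ (S : Scene) (X : Ex S (tK (cable k)) univ vK), ∃ (γ : S.ι → Type) (_ : ∀ i, Countable (γ i))
    (cap : ∀ {i}, γ i → Cp (S.ob i)) (P : Pent (S.caps γ cap) Q R), ∀ θ : Th (S.caps γ cap), θ.NV P →
      (∀ i : Vx, i.1.2 = 0 → Pure (θ.H (X.ι i)) fun _ => 0) → NVH (θ.H (X.ι ⟨(1, 1), sl11⟩))

/-- R-DIF, second part -/
structure Dif2 : Prop where
  chg : ∀ (τ : Tub) (A : O3) (a a' : Z2), Fo τ A a → PM a' a → Nonempty (Fo τ A a')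
  csp : ∀ (k : KD) (A B : O3), Fo (tK (cable k)) A (0, 1) → Fo (tK k) B (0, 1) → Nonempty (PD A B)

theorem h1Stmt : H1Stmt := fun _ A _ f _ _ h => Rob53.hz1_X f.F f.hu A.h1 h

/-- the exterior of a knot -/
def xK (k : KD) : Xt (0, 1) :=
  ⟨tK k, rfl, thK k, good_KD Lu3.uStmt Lab9.pStmt k, ⟨Lab56.on_sphD.cls⟩⟩

theorem rod_cast {I : Type} {V : Set I} {v : I → Z2} {δ : Z2} {L L' : I → Type} {A : ∀ i, Hf (L i)}
    {A' : ∀ i, Hf (L' i)} (e : L = L') (e' : HEq A A') (ρ : Rod V v δ A) :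
    ∃ ρ' : Rod V v δ A', ρ'.ε = ρ.ε ∧ ∀ i m, HEq (ρ'.cl i m) (ρ.cl i m) := by
  subst e
  cases e'
  exact ⟨ρ, rfl, fun _ _ => HEq.rfl⟩

theorem dot_vK (i : Vx) : dot (0, 1) (vK i) ≠ 0 := by simpa [dot, vK] using i.2.1

theorem dot_vL (l : Ln) : ∀ o ∈ SL l, dot (δL l) (vL l o) ≠ 0
  | none, _ => by have := l.2.1; simp [dot, vL, δL]; omega
  | some i, h => by
    have := Int.mul_ediv_add_emod i.1.1 l.1.1
    rw [(h i rfl).2] at this
    simpa [dot, vL, δL, this] using i.2.1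

theorem pm_inf {i : Vx} (h : i.1.2 = 0) : PM (vK i) (0, 1) := by
  have := i.2.2.2
  rw [h, isCoprime_zero_right, Int.isUnit_iff] at this
  rcases this with k | k
  · exact .inl (Prod.ext h k)
  · exact .inr (Prod.ext h k)

section

variable {k k' : KD} (B : Base k) (B' : Base k') (hC : CobStmt)

/-- the objects -/
def obs : Vx ⊕ Vx ⊕ Ln → Q3 := Sum.elim B.ob (Sum.elim B'.ob B.Λ)

/-- the fillings of the knot -/
def pK : PX (obs B B') (tK k) univ vK := ⟨.inl, fun i _ => B.f i⟩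

/-- the fillings of the second knot -/
def pC : PX (obs B B') (tK k') univ vK := ⟨fun i => .inr (.inl i), fun i _ => B'.f i⟩

/-- the fillings of a line -/
def pL (l : Ln) : PX (obs B B') (B.X l).τ (SL l) (vL l) :=
  ⟨fun o => o.elim (.inr (.inr l)) .inl, fun o h => match o, h with
    | none, _ => B.g0 l
    | some i, h => B.g l i h⟩

/-- the cobordisms -/
def rq : Fin 3 ⊕ Ln → Req (obs B B')
  | .inl 0 => cyR _
  | .inl 1 => (pK B B').req hC
  | .inl 2 => (pC B B').req hC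
  | .inr l => (pL B B' l).req hC

/-- the scene -/
def scn : Scene := (Req.sum (rq B B' hC)).scene (.inl ⟨(1, 0), sl10⟩) B.s0 B.inj

/-- it contains them -/
def hs (x : Fin 3 ⊕ Ln) : Has (scn B B' hC) (rq B B' hC x) :=
  Has.part (S := scn B B' hC) (r := rq B B' hC) ((Req.sum (rq B B' hC)).has (.inl ⟨(1, 0), sl10⟩) B.s0 B.inj) x

end

/-- **THE SEAM** -/
theorem seam (hT : ThStmt) (hN : NvS) (hO : ObStmt) (hD : DifStmt) (hD2 : Dif2) (hL : LinkStmt) (hW : ClsStmt)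
    (hR : RodStmt') : InStmt := fun k hk => by
  obtain ⟨Q, R, hQ, hT⟩ := hT
  obtain ⟨B⟩ := hO k
  obtain ⟨B'⟩ := hO (cable k)
  obtain ⟨η, hη, hL⟩ := hL
  have hC := cobStmt h1Stmt
  obtain ⟨γ, _, cap, P, hP⟩ := hN Q R hQ k hk (scn B B' hC) (PX.ex (hC := hC) (pC B B') (hs B B' hC (.inl 2)))
  obtain ⟨θ, nv⟩ := hT _ P
  have iso := fun {i j} => iso_of (i := i) (j := j) θ ((hs B B' hC (.inl 0)).caps γ cap)
  let X := PX.ex (S := Scene.caps _ γ cap) (hC := hC) (pK B B') ((hs B B' hC (.inl 1)).caps γ cap)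
  let Z := fun l => PX.ex (S := Scene.caps _ γ cap) (hC := hC) (pL B B' l) ((hs B B' hC (.inr l)).caps γ cap)
  obtain ⟨_, _, r, ε, w⟩ := hW _ _ _ _ X _ _ (xK k).gd (xK k).cl fun i _ => B.pic i
  have ne := fun i => cw_ne w (mem_univ i)
  obtain ⟨ρ, e1, e2, -⟩ := hR _ θ _ _ _ X _ _ r ε (xK k).gd rfl (fun i _ => dot_vK i) w ne
  have hl : ∀ l, ∃ ρ' : Rod (SL l) (vL l) (δL l) (extA (fun i => θ.H (.inl i)) (θ.H (.inr (.inr l)))),
      ∀ i, some i ∈ SL l → ∀ m m', Even (m + ρ.ε i) → Even (m' + ρ'.ε (some i)) →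
        ρ'.cl (some i) m' = ρ.cl i m → ρ'.cl (some i) (m' + 2) = ρ.cl i (m + 2 * η * l.1.1) := fun l => by
    obtain ⟨_, _, r', ε', w'⟩ := hW _ _ _ _ (Z l) _ _ (B.X l).gd (B.X l).cl fun o h => match o, h with
      | none, _ => B.pic0 l
      | some i, h => B.picg l i h
    obtain ⟨ρ', f1, f2, -⟩ := hR _ θ _ _ _ (Z l) _ _ r' ε' (B.X l).gd (B.X l).sg (dot_vL l) w' fun
      | none => cw_ne w' (i := none) fun _ h => nomatch h
      | some i => ne i
    obtain ⟨ρ'', g1, g2⟩ := rod_cast (A' := extA (fun i => θ.H (.inl i)) (θ.H (.inr (.inr l))))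
      (funext fun o => by cases o <;> rfl) (Function.hfunext rfl fun o o' h => by cases h; cases o <;> rfl) ρ'
    refine ⟨ρ'', fun i h m m' a b c => ?_⟩
    rw [g1, f1] at b
    rw [e1] at a
    have b' : Even (m' + 2 + ε' (some i)) := by rw [add_right_comm]; exact b.add even_two
    have a' : Even (m + 2 * η * l.1.1 + ε i) := by
      rw [add_right_comm, mul_assoc]; exact a.add (even_two_mul _)
    have k1 := f2 h m' b
    rw [← eq_of_heq (g2 (some i) m'), c] at k1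
    have k2 := hL _ _ (xK k) (B.X l) r r' _ _ _ (B.f i) (B.g l i h) (B.mer l i h) _ _ m m' (e2 trivial m a) k1
      (f2 h _ b')
    rw [show (vK i).1 = l.1.1 from (h i rfl).1] at k2
    exact (eq_of_heq (g2 (some i) _)).trans ((w.eq0 trivial k2 (e2 trivial _ a')).2 (by simp))
  choose ρ' hl using hl
  have sph : ∀ {k''} (B'' : Base k'') (j) (i : Vx), obs B B' j = B''.ob i → i.1.2 = 0 →
      Nonempty (PD (B''.ob ⟨(1, 0), sl10⟩).toO3 (B.ob ⟨(1, 0), sl10⟩).toO3) → Pure (θ.H j) fun _ => 0 :=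
    fun B'' j i e h ⟨q⟩ =>
      let ⟨p⟩ := hD.uniq _ _ _ _ _ (B''.f i) (B''.f ⟨(1, 0), sl10⟩) (pm_inf h)
      let ⟨g⟩ := iso (i := j) (j := .inl ⟨(1, 0), sl10⟩) 
        (show Nonempty (PD (obs B B' j).toO3 _) from e ▸ ⟨p.trans q⟩)
      hiso_pure g θ.s3
  refine ⟨⟨⟨_, _, ρ, fun i h => sph B _ i rfl h ⟨PD.refl _⟩⟩, _, _, fun l => θ.psc (.inr (.inr l)) (B.lam l), ρ',
    fun l => ⟨η, hη, hl l⟩⟩, ?_, fun p q q' h h' _ c => iso (hD.cos k _ _ p q q' (B.f ⟨_, h⟩) (B.f ⟨_, h'⟩) c),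
    fun p q s h h' _ _ c => ?_⟩
  · obtain ⟨g⟩ := iso (i := .inr (.inl ⟨(1, 1), sl11⟩)) (j := .inl ⟨(1, 4), sl14⟩)
      (hD.cab k _ _ (B'.f ⟨(1, 1), sl11⟩) (B.f ⟨(1, 4), sl14⟩))
    exact hiso_nvh g (hP θ nv fun i h => sph B' _ i rfl h (hD2.csp k _ _ (B'.f _) (B.f _)))
  · obtain ⟨f⟩ := hD2.chg _ _ _ (-s, p) (B.f ⟨(-p, s), h'.neg⟩) (.inr (Prod.ext rfl (neg_neg p).symm))
    exact iso (hD.cos k _ _ p q (-s) (B.f ⟨(p, q), h⟩) f c)

end Crest.Agent.X212.Sw87
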