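import Mathlib

/-!
# Row 212 (helper87): the two first moments kill the reduced rank
-/

set_option autoImplicit false

namespace Crest.Agent.X212.Sw87

open Finset

/-- `D₀ = (p² - 1) / 3p` -/
def D0 (p : ℕ) : ℚ := ((p : ℚ) ^ 2 - 1) / (3 * p)

/-- coefficient of the total-degree equation -/
def Aco (p q : ℕ) (i : ℤ) : ℚ := D0 p - q + 2 * (i : ℚ) ^ 2 * (q : ℚ) ^ 2 / p

/-- coefficient of the class-function equation -/
def Cco (p q : ℕ) (i : ℤ) : ℚ :=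
  D0 p - 2 * ((i * q % p : ℤ) : ℚ) * (p - ((i * q % p : ℤ) : ℚ)) / p

theorem D0_pos {p : ℕ} (hp : 2 ≤ p) : 0 < D0 p := by
  have : (2 : ℚ) ≤ p := by exact_mod_cast hp
  unfold D0
  apply div_pos <;> nlinarith

theorem quad_pos {p q : ℚ} (hp : 3 ≤ p ∨ (p = 2 ∧ q ≠ 1)) :
    (3 * p * q - p ^ 2 + 1) * p ^ 2 < 4 * q ^ 2 * (p ^ 2 - 1) := by
  rcases hp with hp | ⟨rfl, hq⟩
  · have h1 : 0 < p ^ 2 - 1 := by nlinarith
    have h2 : 0 < (p ^ 2 - 4) * (7 * p ^ 2 - 4) := by apply mul_pos <;> nlinarith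
    have h3 : 0 < p ^ 2 * ((p ^ 2 - 4) * (7 * p ^ 2 - 4)) := by positivity
    have h4 := sq_nonneg (8 * (p ^ 2 - 1) * q - 3 * p ^ 3)
    by_contra h
    have h5 := mul_le_mul_of_nonneg_left (not_lt.1 h) h1.le
    nlinarith
  · have := sq_pos_of_ne_zero (sub_ne_zero.2 hq)
    nlinarith

theorem key {p q i y : ℚ} (hp : 3 ≤ p ∨ (p = 2 ∧ q ≠ 1)) (hq : 1 ≤ q) (hi : 1 ≤ i ^ 2) (h0 : 0 ≤ y)
    (h1 : y ≤ p) : (3 * p * q - p ^ 2 + 1) * (y * (p - y)) < i ^ 2 * q ^ 2 * (p ^ 2 - 1) := by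
  have hp2 : 2 ≤ p := by rcases hp with h | ⟨h, -⟩ <;> linarith
  have a1 : 0 < q ^ 2 * (p ^ 2 - 1) := by apply mul_pos <;> nlinarith
  have a2 : q ^ 2 * (p ^ 2 - 1) ≤ i ^ 2 * q ^ 2 * (p ^ 2 - 1) := by nlinarith
  have a3 : 0 ≤ y * (p - y) := mul_nonneg h0 (by linarith)
  have a4 : 4 * (y * (p - y)) ≤ p ^ 2 := by nlinarith [sq_nonneg (p - 2 * y)]
  rcases le_or_gt (3 * p * q - p ^ 2 + 1) 0 with c | c
  · have := mul_nonpos_of_nonpos_of_nonneg c a3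
    linarith
  · have := quad_pos hp
    have := mul_le_mul_of_nonneg_left a4 c.le
    linarith

theorem comb_zero {p : ℕ} (hp : 2 ≤ p) (q : ℕ) : Aco p q 0 - (1 - q / D0 p) * Cco p q 0 = 0 := by
  have := (D0_pos hp).ne'
  simp only [Aco, Cco]; simp; field_simp; ring

theorem comb_pos {p q : ℕ} (hp : 2 ≤ p) (hq : 1 ≤ q) (h : ¬ (p = 2 ∧ q = 1)) {i : ℤ} (hi : i ≠ 0) :
    0 < Aco p q i - (1 - q / D0 p) * Cco p q i := by
  have hp' : (2 : ℚ) ≤ p := by exact_mod_cast hp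
  have h3 : (3 : ℚ) ≤ p ∨ ((p : ℚ) = 2 ∧ (q : ℚ) ≠ 1) := by
    rcases hp.eq_or_lt with rfl | h'
    · exact Or.inr ⟨by norm_num, fun e => h ⟨rfl, by exact_mod_cast e⟩⟩
    · exact Or.inl (by exact_mod_cast h')
  have hi' : (1 : ℚ) ≤ (i : ℚ) ^ 2 := by
    have : (1 : ℤ) ≤ i ^ 2 := sq_pos_of_ne_zero hi
    exact_mod_cast this
  have y0 : (0 : ℚ) ≤ ((i * q % p : ℤ) : ℚ) := by
    exact_mod_cast Int.emod_nonneg _ (by omega : (p : ℤ) ≠ 0)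
  have y1 : ((i * q % p : ℤ) : ℚ) ≤ p := by
    exact_mod_cast (Int.emod_lt_of_pos _ (by omega : (0 : ℤ) < p)).le
  have K := key h3 (by exact_mod_cast hq) hi' y0 y1
  have hd : 0 < (p : ℚ) ^ 2 - 1 := by nlinarith
  have hp0 : (0 : ℚ) < p := by linarith
  simp only [Aco, Cco, D0]
  generalize ((i * q % p : ℤ) : ℚ) = y at *
  have e : ((p : ℚ) ^ 2 - 1) / (3 * p) - q + 2 * (i : ℚ) ^ 2 * (q : ℚ) ^ 2 / p -
      (1 - q / (((p : ℚ) ^ 2 - 1) / (3 * p))) * (((p : ℚ) ^ 2 - 1) / (3 * p) - 2 * y * (p - y) / p) =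
      2 * ((i : ℚ) ^ 2 * (q : ℚ) ^ 2 * (p ^ 2 - 1) - (3 * p * q - p ^ 2 + 1) * (y * (p - y))) /
        (p * (p ^ 2 - 1)) := by
    have := hd.ne'
    have := hp0.ne'
    field_simp; ring
  rw [e]
  apply div_pos (by linarith) (mul_pos hp0 hd)

/-- ARITH: the two first moments force all multiplicities to vanish -/
theorem kill {p q : ℕ} (hp : 2 ≤ p) (hq : 1 ≤ q) (h : ¬ (p = 2 ∧ q = 1)) (s : Finset ℤ) (r : ℤ → ℕ)
    (hA : ∑ i ∈ s, (r i : ℚ) * Aco p q i = 0) (hC : ∑ i ∈ s, (r i : ℚ) * Cco p q i = 0) :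
    ∀ i ∈ s, r i = 0 := by
  have hB : ∑ i ∈ s, (r i : ℚ) * (Aco p q i - (1 - q / D0 p) * Cco p q i) = 0 := by
    simp only [mul_sub (r _ : ℚ), sum_sub_distrib, hA, mul_left_comm (r _ : ℚ), ← mul_sum, hC]
    simp
  have nn : ∀ i ∈ s, 0 ≤ (r i : ℚ) * (Aco p q i - (1 - q / D0 p) * Cco p q i) := fun i _ => by
    rcases eq_or_ne i 0 with rfl | hi
    · rw [comb_zero hp, mul_zero]
    · exact mul_nonneg (Nat.cast_nonneg _) (comb_pos hp hq h hi).le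
  have h1 : ∀ i ∈ s, i ≠ 0 → r i = 0 := fun i hs hi => by
    have := (sum_eq_zero_iff_of_nonneg nn).1 hB i hs
    exact_mod_cast (mul_eq_zero.1 this).resolve_right (comb_pos hp hq h hi).ne'
  intro i hs
  rcases eq_or_ne i 0 with rfl | hi
  · rw [sum_eq_single_of_mem 0 hs fun j hj h0 => by rw [h1 j hj h0]; simp] at hC
    have e : Cco p q 0 = D0 p := by simp [Cco]
    rw [e] at hC
    exact_mod_cast (mul_eq_zero.1 hC).resolve_right (D0_pos hp).ne'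
  · exact h1 i hs hi

/-- the same for finitely supported multiplicities -/
theorem kill' {p q : ℕ} (hp : 2 ≤ p) (hq : 1 ≤ q) (h : ¬ (p = 2 ∧ q = 1)) (r : ℤ →₀ ℕ)
    (hA : (r.sum fun i n => (n : ℚ) * Aco p q i) = 0)
    (hC : (r.sum fun i n => (n : ℚ) * Cco p q i) = 0) : r = 0 := by
  ext i
  by_contra hi
  exact hi (kill hp hq h r.support r hA hC i (Finsupp.mem_support_iff.2 hi))

end Crest.Agent.X212.Sw87
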