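import Crest.Agent.X212.Bor5.Th
import Crest.Agent.X212.Rod53.Fill

/-!
# Row 212, layer S (helper87): standard words and the cobordism of a rod manifold

* `v1 a b`, `v2 a b e` : the words with vertices at `0`, and at `0`, `1`;
* `Tm r x y` : the realisation `r` respects the time and the ends exactly;
* `cob`, `rz`, `tm_rz` : the rod manifold as a cobordism.
-/

set_option autoImplicit false
set_option linter.unusedSectionVars false

open Set Filter Topology Function
open scoped ContDiff Manifold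
open Crest.Agent.X212.Bor5.T Crest.Agent.X212.Orx52
open Crest.Agent.X212.Dr59 (HZ)
open Crest.Agent.X212.Rod53 (E4 Z2 Tb Loc Jv Jr Uni PM vx Jv_vx Jv_of_eq)

noncomputable section

namespace Crest.Agent.X212.Sw87

/-- one vertex at `0` -/
def v1 (a b : Z2) : ℝ → Z2 := vx a b 0

open Classical in
/-- vertices at `0` and `1` -/
def v2 (a b e : Z2) (t : ℝ) : Z2 := if t < 1 / 2 then vx a b 0 t else vx b e 1 t

section words

variable {a b e : Z2} {t x y : ℝ} {v : ℝ → Z2}

theorem v1_V1 (a b : Z2) : V1 (v1 a b) a b 0 := Jv_vx a b 0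

theorem v1_left (h : t < 1) : v1 a b t = v2 a b e t := by
  unfold v1 v2
  split_ifs with k
  · rfl
  · simp only [vx]
    rw [if_neg (by linarith), if_neg (by linarith), if_pos h]

theorem v1_right (h : 0 < t) : v1 b e (t - 1) = v2 a b e t := by
  unfold v1 v2
  split_ifs with k
  · simp only [vx]
    rw [if_pos (by linarith), if_neg h.not_gt, if_neg h.ne']
  · simp only [vx, sub_neg, sub_eq_zero]

theorem v1_out (h : t ∉ Icc (0 : ℝ) 1) : v1 a e t = v2 a b e t := by
  rw [mem_Icc, not_and_or, not_le, not_le] at h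
  unfold v1 v2
  rcases h with h | h
  · rw [if_pos (by linarith)]
    simp only [vx, if_pos h]
  · rw [if_neg (by linarith)]
    simp only [vx]
    rw [if_neg (by linarith), if_neg (by linarith), if_neg h.not_gt, if_neg h.ne']

theorem v2_right (h : 0 < t) : vx b e 1 t = v2 a b e t := by
  rw [← v1_right h]
  simp only [v1, vx, sub_neg, sub_eq_zero]

theorem v2_V2 (a b e : Z2) : V2 (v2 a b e) a b e 0 1 :=
  ⟨one_pos, fun _ h => Jv_of_eq (v1_V1 a b _) (interior_maximal (fun _ => v1_left) isOpen_Iio h),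
    fun _ h => Jv_of_eq (Jv_vx b e 1 _) (interior_maximal (fun _ => v2_right) isOpen_Ioi h)⟩

theorem V1.loc (h : V1 v a b x) (hu : Uni a b) : Loc v := fun t => ⟨a, b, x, hu, h t⟩

theorem V2.loc (h : V2 v a b e x y) (hu : Uni a b) (hu' : Uni b e) : Loc v := fun t =>
  (lt_or_ge t y).elim (fun k => ⟨a, b, x, hu, h.2.1 t k⟩) fun k => ⟨b, e, y, hu', h.2.2 t (h.1.trans_le k)⟩

theorem loc1 (hu : Uni a b) : Loc (v1 a b) := V1.loc (v1_V1 a b) hu

theorem loc2 (hu : Uni a b) (hu' : Uni b e) : Loc (v2 a b e) := V2.loc (v2_V2 a b e) hu hu'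

theorem V1.left (h : V1 v a b x) : Iio x ⊆ Jr v a := fun t k => Rod53.Jv.left (h t) k

theorem V1.right (h : V1 v a b x) : Ioi x ⊆ Jr v b := fun t k => Rod53.Jv.right (h t) k

theorem V2.left (h : V2 v a b e x y) : Iio x ⊆ Jr v a := fun t k => Rod53.Jv.left (h.2.1 t (k.trans h.1)) k

theorem V2.right (h : V2 v a b e x y) : Ioi y ⊆ Jr v e := fun t k => Rod53.Jv.right (h.2.2 t (h.1.trans k)) k

end words

variable {τ : Tub} {A B : Q3} {a b : Z2} {v : ℝ → Z2}

/-- the realisation respects the time and the ends -/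
structure Tm {C : Cob A B} {hv : Loc v} {f : Fo τ A.toO3 a} {g : Fo τ B.toO3 b} (r : Rz C hv f g) (x y : ℝ) :
    Prop where
  tm : ∀ p, C.X.τ (r.φ p) = τ.T.time v p
  a : C.a = x
  b : C.b = y
  ki : ∀ q : A.Y.M × ℝ, q.2 < x → C.ki q = r.φ (f.cy v q)
  ko : ∀ q : B.Y.M × ℝ, y < q.2 → C.ko q = r.φ (g.cy v q)

/-- the rod manifold -/
def w4 (τ : Tub) [ConnectedSpace τ.N.M] (hv : Loc v) : W4 where
  X := τ.T.tp hv
  mE := borel _
  bE := @BorelSpace.mk _ _ (borel _) rfl
  ms := borel _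
  bs := @BorelSpace.mk _ _ (borel _) rfl
  con := inferInstanceAs (ConnectedSpace (τ.X v))
  o := oX hv τ.ori
  ori := (oX_spec hv τ.ori).ori

variable [ConnectedSpace τ.N.M] (hv : Loc v) (f : Fo τ A.toO3 a) (g : Fo τ B.toO3 b) {x y : ℝ}
  (hx : Iio x ⊆ Jr v a) (hy : Ioi y ⊆ Jr v b) (h1 : HZ (𝓡 4) 1 (univ : Set (τ.X v)))

/-- the rod manifold as a cobordism -/
def cob : Cob A B where
  toW4 := w4 τ hv
  h1 := h1
  a := x
  b := y
  ki := f.F.tiso (Y := A.Y.pc) hv f.hu isOpen_Iio hx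
  ko := g.F.tiso (Y := B.Y.pc) hv g.hu isOpen_Ioi hy
  pi := (oX_spec hv τ.ori).tiso (Y := A.Y.pc) f.F hv f.hu isOpen_Iio hx A.ori f.pos
  po := (oX_spec hv τ.ori).tiso (Y := B.Y.pc) g.F hv g.hu isOpen_Ioi hy B.ori g.pos

/-- its realisation -/
def rz : Rz (cob hv f g hx hy h1) hv f g where
  φ := Diffeomorph.refl (𝓡 4) (τ.X v) ∞
  pos := (pos_id (I := 𝓡 4) (M := τ.X v)).2 (oriOn (oX_spec hv τ.ori).ori univ).same
  ki := ⟨0, .of_forall fun _ _ => by rw [add_zero]; rfl⟩
  ko := ⟨0, .of_forall fun _ _ => by rw [add_zero]; rfl⟩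

theorem tm_rz : Tm (rz hv f g hx hy h1) x y := ⟨fun _ => rfl, rfl, rfl, fun _ _ => rfl, fun _ _ => rfl⟩

include hx hy h1 in
theorem exists_cob : ∃ (C : Cob A B) (r : Rz C hv f g), Tm r x y := ⟨_, _, tm_rz hv f g hx hy h1⟩

end Crest.Agent.X212.Sw87
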