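import Crest.Agent.X212.Flo2.Gm
import Crest.Agent.X212.Geo28.Tp
import Crest.Agent.X212.Gm56.Nck
import Crest.Agent.X212.Met55.Fam
import Crest.Agent.X212.Met55.Eng
import Crest.Agent.X212.Spn45.Cc
import Crest.Agent.X212.Int54.Link

/-!
# Row 212, GEO engine (helper87), part A: bands

A band is a chart of a neck (`Geo28.Nc`) with the geometry of the cross-section.  Its core is
`1 < σ`, `σ < -1` or `1 < σ < 3`; the core of a finite band is stretched to the length `len v`.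
-/

set_option autoImplicit false
set_option linter.unusedSectionVars false
noncomputable section
open scoped Manifold ContDiff Topology InnerProductSpace
open MeasureTheory Set Function Filter

namespace Crest.Agent.X212.Sw87.Mo
open An Cyf70 Sw Flo2 Geo28 Met55
open Crest.Agent.R208.F (Ext)
open Bor5.T (O3)
open Nd18 (YD Jv)
open Orx52 (pr oR)
open Int54 (oc volF cf)
open Line51 (iL)

/-! ### time -/

/-- the transition function -/
abbrev sT : ℝ → ℝ := Real.smoothTransition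

/-- the length of a neck with the switch `v` -/
def len (v : ℝ) : ℝ := 2 + (v - 2) * sT (v - 2)

/-- the profile of the stretch -/
def bt (σ : ℝ) : ℝ := sT (σ - 3 / 2)

/-- the stretch -/
def st (v σ : ℝ) : ℝ := σ + (len v - 2) * bt σ

/-- its derivative -/
def sd (v σ : ℝ) : ℝ := 1 + (len v - 2) * deriv bt σ

/-- the weight of the mass -/
def wt (v : ℝ) : ℝ := sT (2 * v - 2)

theorem len_ge (v : ℝ) : 0 ≤ len v - 2 := by
  rw [len, add_sub_cancel_left]
  rcases le_total v 2 with h | h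
  · rw [show sT (v - 2) = 0 from Real.smoothTransition.zero_of_nonpos (by linarith), mul_zero]
  · exact mul_nonneg (by linarith) (Real.smoothTransition.nonneg _)

theorem len_lo {v : ℝ} (h : v ≤ 2) : len v = 2 := by
  rw [len, show sT (v - 2) = 0 from Real.smoothTransition.zero_of_nonpos (by linarith)]; ring

theorem len_hi {v : ℝ} (h : 3 ≤ v) : len v = v := by
  rw [len, show sT (v - 2) = 1 from Real.smoothTransition.one_of_one_le (by linarith)]; ring

theorem len_le {v : ℝ} (h : v ≤ 3) : len v ≤ 3 := by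
  rcases le_total v 2 with h' | h'
  · rw [len_lo h']; norm_num
  · have := mul_le_mul_of_nonneg_left (Real.smoothTransition.le_one (v - 2)) (sub_nonneg.2 h')
    rw [len]; linarith

theorem len_sm : ContDiff ℝ ∞ len := contDiff_const.add ((contDiff_id.sub contDiff_const).mul
  (Real.smoothTransition.contDiff.comp (contDiff_id.sub contDiff_const)))

theorem bt_sm : ContDiff ℝ ∞ bt :=
  Real.smoothTransition.contDiff.comp (contDiff_id.sub contDiff_const)

theorem bt_mono : Monotone bt := fun _ _ h => Real.smoothTransition.monotone (by linarith)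

theorem bt_lo {σ : ℝ} (h : σ ≤ 3 / 2) : bt σ = 0 := Real.smoothTransition.zero_of_nonpos (by linarith)

theorem bt_hi {σ : ℝ} (h : 5 / 2 ≤ σ) : bt σ = 1 := Real.smoothTransition.one_of_one_le (by linarith)

theorem wt_lo {v : ℝ} (h : v ≤ 1) : wt v = 0 := Real.smoothTransition.zero_of_nonpos (by linarith)

theorem wt_hi {v : ℝ} (h : 3 / 2 ≤ v) : wt v = 1 := Real.smoothTransition.one_of_one_le (by linarith)

theorem st_lo (v : ℝ) {σ : ℝ} (h : σ ≤ 3 / 2) : st v σ = σ := by rw [st, bt_lo h]; ring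

theorem st_hi (v : ℝ) {σ : ℝ} (h : 5 / 2 ≤ σ) : st v σ = σ + (len v - 2) := by rw [st, bt_hi h]; ring

theorem st_two {v : ℝ} (h : v ≤ 2) (σ : ℝ) : st v σ = σ := by rw [st, len_lo h]; ring

theorem sd_two {v : ℝ} (h : v ≤ 2) (σ : ℝ) : sd v σ = 1 := by rw [sd, len_lo h]; ring

theorem st_sm (v : ℝ) : ContDiff ℝ ∞ (st v) := contDiff_id.add (contDiff_const.mul bt_sm)

theorem st_der (v σ : ℝ) : HasDerivAt (st v) (sd v σ) σ :=
  (hasDerivAt_id σ).add ((bt_sm.differentiable (by simp) σ).hasDerivAt.const_mul _)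

theorem sd_pos (v σ : ℝ) : 0 < sd v σ :=
  lt_of_lt_of_le one_pos (le_add_of_nonneg_right (mul_nonneg (len_ge v) bt_mono.deriv_nonneg))

theorem st_mono (v : ℝ) : StrictMono (st v) := fun _ _ h =>
  add_lt_add_of_lt_of_le h (mul_le_mul_of_nonneg_left (bt_mono h.le) (len_ge v))

theorem st_surj (v : ℝ) : Surjective (st v) := (st_sm v).continuous.surjective
  (tendsto_atTop_mono (fun _ => le_add_of_nonneg_right
    (mul_nonneg (len_ge v) (Real.smoothTransition.nonneg _))) tendsto_id)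
  (tendsto_id.congr' ((eventually_le_atBot (3 / 2)).mono fun _ h => (st_lo v h).symm))

/-- the stretch as a homeomorphism -/
def stH (v : ℝ) : ℝ ≃ₜ ℝ := ((st_mono v).orderIsoOfSurjective _ (st_surj v)).toHomeomorph

theorem stH_apply (v σ : ℝ) : stH v σ = st v σ := rfl

theorem st_symm (v τ : ℝ) : st v ((stH v).symm τ) = τ := (stH v).apply_symm_apply τ

theorem symm_st (v σ : ℝ) : (stH v).symm (st v σ) = σ := (stH v).symm_apply_apply σ

theorem stH_sm (v : ℝ) : ContDiff ℝ ∞ (stH v).symm :=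
  (stH v).contDiff_symm_deriv (fun σ => (sd_pos v σ).ne') (st_der v) (st_sm v)

theorem stH_der (v τ : ℝ) : HasDerivAt (stH v).symm (sd v ((stH v).symm τ))⁻¹ τ :=
  (stH v).toOpenPartialHomeomorph.hasDerivAt_symm (mem_univ _) (sd_pos _ _).ne' (st_der _ _)

/-- the times of a chart: finite, outgoing, incoming -/
def Jk : Option Bool → Set ℝ
  | none => Ioo 0 4
  | some true => Ioi 0
  | some false => Iio 0

/-- the start of a neck -/
def pa : Option Bool → Option ℝ
  | some false => none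
  | _ => some 1

/-- the end of a neck -/
def qa (v : ℝ) : Option Bool → Option ℝ
  | none => some (len v + 1)
  | some true => none
  | some false => some (-1)

/-- the core with the margin `d` -/
def Jm (s : Option Bool) (d : ℝ) : Set ℝ := Jv ((pa s).map (· - d)) ((qa 2 s).map (· + d))

/-- one on the core, zero off the margin `1 / 4` -/
def cu (s : Option Bool) (σ : ℝ) : ℝ :=
  ((pa s).elim 1 fun a => sT (4 * (σ - a) + 1)) * (qa 2 s).elim 1 fun b => sT (4 * (b - σ) + 1)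

theorem jm_none {d σ : ℝ} : σ ∈ Jm none d ↔ 1 - d < σ ∧ σ < 3 + d := by
  simp [Jm, Jv, pa, qa, len_lo]; norm_num

theorem jm_out {d σ : ℝ} : σ ∈ Jm (some true) d ↔ 1 - d < σ := by simp [Jm, Jv, pa, qa]

theorem jm_in {d σ : ℝ} : σ ∈ Jm (some false) d ↔ σ < -1 + d := by simp [Jm, Jv, pa, qa]

theorem jm_mono (s : Option Bool) {d d' : ℝ} (h : d ≤ d') : Jm s d ⊆ Jm s d' := fun σ => by
  rcases s with _ | _ | _
  · simp only [jm_none]; exact fun k => ⟨by linarith [k.1], by linarith [k.2]⟩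
  · simp only [jm_in]; exact fun k => by linarith
  · simp only [jm_out]; exact fun k => by linarith

theorem jm_one (s : Option Bool) : Jm s 1 = Jk s := by
  ext σ
  rcases s with _ | _ | _
  · rw [jm_none]; norm_num [Jk]
  · rw [jm_in]; norm_num [Jk]
  · rw [jm_out]; norm_num [Jk]

theorem jm_sub (s : Option Bool) {d : ℝ} (h : d ≤ 1) : Jm s d ⊆ Jk s := jm_one s ▸ jm_mono s h

theorem jv_open (p q : Option ℝ) : IsOpen (Jv p q) := by
  rcases p with _ | p <;> rcases q with _ | q <;> simp only [Jv, Option.mem_def, Option.some.injEq,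
    forall_eq', reduceCtorEq, false_imp_iff, implies_true, true_and, and_true]
  exacts [isOpen_univ, isOpen_Iio, isOpen_Ioi, isOpen_Ioo]

theorem jm_open (s : Option Bool) (d : ℝ) : IsOpen (Jm s d) := jv_open _ _

theorem st_mem (s : Option Bool) (v σ : ℝ) : st v σ ∈ Jv (pa s) (qa v s) ↔ σ ∈ Jm s 0 := by
  have h1 : 1 < st v σ ↔ 1 < σ := by
    conv_lhs => rw [← st_lo v (σ := 1) (by norm_num)]
    exact (st_mono v).lt_iff_lt
  have h2 : st v σ < len v + 1 ↔ σ < 3 := by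
    rw [show len v + 1 = st v 3 by rw [st_hi v (by norm_num)]; ring]
    exact (st_mono v).lt_iff_lt
  have h3 : st v σ < -1 ↔ σ < -1 := by
    conv_lhs => rw [← st_lo v (σ := -1) (by norm_num)]
    exact (st_mono v).lt_iff_lt
  rcases s with _ | _ | _
  · rw [jm_none]; simp [Jv, pa, qa, h1, h2]
  · rw [jm_in]; simp [Jv, pa, qa, h3]
  · rw [jm_out]; simp [Jv, pa, qa, h1]

theorem cu_one {s : Option Bool} {σ : ℝ} (h : σ ∈ Jm s 0) : cu s σ = 1 := by
  have k : ∀ x : ℝ, 0 ≤ x → sT (4 * x + 1) = 1 := fun x hx =>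
    Real.smoothTransition.one_of_one_le (by linarith)
  rcases s with _ | _ | _
  · rw [jm_none] at h
    simp only [cu, pa, qa, Option.elim, len_lo (le_refl (2 : ℝ))]
    rw [k _ (by linarith [h.1]), k _ (by linarith [h.2]), mul_one]
  · rw [jm_in] at h
    simp only [cu, pa, qa, Option.elim]
    rw [k _ (by linarith), mul_one]
  · rw [jm_out] at h
    simp only [cu, pa, qa, Option.elim]
    rw [k _ (by linarith), mul_one]

theorem cu_zero {s : Option Bool} {σ : ℝ} (h : σ ∉ Jm s (1 / 4)) : cu s σ = 0 := by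
  have k : ∀ x : ℝ, x ≤ -1 / 4 → sT (4 * x + 1) = 0 := fun x hx =>
    Real.smoothTransition.zero_of_nonpos (by linarith)
  rcases s with _ | _ | _
  · rw [jm_none, not_and_or, not_lt, not_lt] at h
    simp only [cu, pa, qa, Option.elim, len_lo (le_refl (2 : ℝ))]
    rcases h with h | h
    · rw [k _ (by linarith), zero_mul]
    · rw [k (2 + 1 - σ) (by linarith), mul_zero]
  · rw [jm_in, not_lt] at h
    simp only [cu, pa, qa, Option.elim]
    rw [k _ (by linarith), mul_zero]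
  · rw [jm_out, not_lt] at h
    simp only [cu, pa, qa, Option.elim]
    rw [k _ (by linarith), zero_mul]

theorem cu_sm (s : Option Bool) : ContDiff ℝ ∞ (cu s) := by
  have k : ∀ f : ℝ → ℝ, ContDiff ℝ ∞ f → ContDiff ℝ ∞ fun σ => sT (4 * f σ + 1) := fun f hf =>
    Real.smoothTransition.contDiff.comp ((contDiff_const.mul hf).add contDiff_const)
  rcases s with _ | _ | _
  · exact (k _ (contDiff_id.sub contDiff_const)).mul (k _ (contDiff_const.sub contDiff_id))
  · exact contDiff_const.mul (k _ (contDiff_const.sub contDiff_id))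
  · exact (k _ (contDiff_id.sub contDiff_const)).mul contDiff_const

/-! ### bands -/

/-- the index set of the trivial line -/
abbrev L0 : Type := Unit ⊕ Unit

variable (κ : Type) [Fintype κ] [DecidableEq κ]

/-- an oriented cross-section with its geometry -/
structure ET : Type 1 where
  A : O3
  D : YD A.Y.I A.Y.M κ L0
  ζ : A.Y.M → F2 κ

/-- a band -/
structure NB (X : M4) : Type 1 where
  e : ET κ
  s : Option Bool
  n : Nc e.A X (Jk s)

variable {κ}

/-- the geometry in the format of `Flo2` -/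
abbrev ET.eg (e : ET κ) : EG κ L0 := { Y := e.A.Y, D := e.D, ζ := e.ζ }

/-- the line is trivial, the orientation is the given one -/
structure ET.Std (e : ET κ) : Prop where
  ok : e.D.OK
  l : ∀ y, e.D.l y = 1
  il : e.D.il = iL Unit
  a : e.D.a = 0
  o : ∀ a b c d x, e.D.o a b c d x.1 = oc (I := IC e.A.Y.I) (ce e.D.F.e)
    (volF (I := IC e.A.Y.I) (pr e.A.o oR) (ce e.D.F.e)) a b c d x

/-- the stretched frame of the cylinder -/
def ET.nf (e : ET κ) (v : ℝ) : Option κ → VF (IC e.A.Y.I) (e.A.Y.M × ℝ)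
  | none, x => ((0 : e.A.Y.E), (sd v x.2)⁻¹)
  | some a, x => (e.D.F.e a x.1, (0 : ℝ))

theorem ET.nf_two (e : ET κ) {v : ℝ} (h : v ≤ 2) : e.nf v = ce e.D.F.e := by
  funext a x
  cases a with
  | none => simp only [ET.nf, sd_two h, inv_one]; rfl
  | some a => rfl

/-- the stretch of the cylinder -/
def cyH (Y : Type) [TopologicalSpace Y] (v : ℝ) : Y × ℝ ≃ₜ Y × ℝ :=
  (Homeomorph.refl Y).prodCongr (stH v).symm

theorem cyH_sm (e : ET κ) (v : ℝ) : ContMDiff (IC e.A.Y.I) (IC e.A.Y.I) ∞ (cyH e.A.Y.M v) :=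
  contMDiff_id.prodMap (stH_sm v).contMDiff

theorem cyH_sm' (e : ET κ) (v : ℝ) : ContMDiff (IC e.A.Y.I) (IC e.A.Y.I) ∞ (cyH e.A.Y.M v).symm :=
  contMDiff_id.prodMap (st_sm v).contMDiff

theorem cyH_e (e : ET κ) (v : ℝ) (a : Option κ) (x : e.A.Y.M × ℝ) :
    mfderiv (IC e.A.Y.I) (IC e.A.Y.I) (cyH e.A.Y.M v) x (ce e.D.F.e a x) =
      e.nf v a (cyH e.A.Y.M v x) := by
  have h := (hasMFDerivAt_id (I := e.A.Y.I) x.1).prodMap (stH_der v x.2).hasFDerivAt.hasMFDerivAt
  have h' : mfderiv (IC e.A.Y.I) (IC e.A.Y.I) (cyH e.A.Y.M v) x = _ := h.mfderiv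
  rw [h', mfderiv_id, (stH_der v x.2).hasFDerivAt.hasMFDerivAt.mfderiv]
  cases a with
  | none => exact Prod.ext rfl (one_smul ℝ _)
  | some a => exact Prod.ext rfl (zero_smul ℝ _)

namespace NB
variable {X X' : M4} (b : NB κ X)

/-- the chart -/
abbrev k : OpenPartialHomeomorph (b.e.A.Y.M × ℝ) X.M := b.n.k.toOpenPartialHomeomorph

/-- the core with the margin `d` in the chart -/
abbrev V (d : ℝ) : Set (b.e.A.Y.M × ℝ) := univ ×ˢ Jm b.s d

/-- the core with the margin `d` -/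
def U (d : ℝ) : Set X.M := b.n.tm ⁻¹' Jm b.s d

/-- the frame `e` is the stretched frame of the cylinder up to the margin `d` -/
def Rl (e : Option κ → VF X.I X.M) (v d : ℝ) : Prop :=
  ∀ a, ∀ x ∈ b.V d, mfderiv (IC b.e.A.Y.I) X.I b.k x (b.e.nf v a x) = e a (b.k x)

/-- `φ` maps the band `b` to the band `b'`, up to the margin `1 / 2` -/
def Cor (b' : NB κ X') (φ : X.M → X'.M) : Prop := ∃ n' : Nc b.e.A X' (Jk b.s), b' = ⟨b.e, b.s, n'⟩ ∧
  ∀ y, ∀ σ ∈ Jm b.s (1 / 2), n'.k (y, σ) = φ (b.n.k (y, σ))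

/-- the chart of the neck -/
def ψ (v : ℝ) : OpenPartialHomeomorph (b.e.A.Y.M × ℝ) X.M :=
  ((cyH _ v).toOpenPartialHomeomorph ≫ₕ b.k).restrOpen (univ ×ˢ Jv (pa b.s) (qa v b.s))
    (isOpen_univ.prod (jv_open _ _))

/-- the time of the neck -/
def tm (v : ℝ) (x : X.M) : ℝ := st v (b.n.tm x)

/-- the geometry of the neck -/
def ng (v : ℝ) : NG b.e.eg X.X := (pa b.s, qa v b.s, b.ψ v, b.tm v)

/-- extension of a field on the cross-section -/
def ext {W : Type} [AddCommGroup W] [Module ℝ W] (f : b.e.A.Y.M → W) (x : X.M) : W :=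
  cu b.s (b.n.tm x) • f (b.k.symm x).1

theorem src : b.k.source = univ ×ˢ Jk b.s := b.n.src

theorem tgt : b.k.target = b.n.tm ⁻¹' Jk b.s := b.n.tgt

theorem V_sub {d : ℝ} (h : d ≤ 1) : b.V d ⊆ b.k.source := b.src ▸ prod_mono_right (jm_sub _ h)

theorem U_sub {d : ℝ} (h : d ≤ 1) : b.U d ⊆ b.k.target := b.tgt ▸ preimage_mono (jm_sub _ h)

theorem U_mono {d d' : ℝ} (h : d ≤ d') : b.U d ⊆ b.U d' := preimage_mono (jm_mono _ h)

theorem U_open (d : ℝ) : IsOpen (b.U d) := (jm_open _ _).preimage b.n.cont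

theorem V_open (d : ℝ) : IsOpen (b.V d) := isOpen_univ.prod (jm_open _ _)

theorem sm : ContMDiffOn (IC b.e.A.Y.I) X.I ∞ b.k b.k.source := b.n.k.contMDiffOn_toFun

theorem sm' : ContMDiffOn X.I (IC b.e.A.Y.I) ∞ b.k.symm b.k.target := b.n.k.contMDiffOn_invFun

variable {b}

theorem tm_k {x : b.e.A.Y.M × ℝ} (h : x ∈ b.k.source) : b.n.tm (b.k x) = x.2 := b.n.tmk x h

theorem k_mem {d : ℝ} (hd : d ≤ 1) {x : b.e.A.Y.M × ℝ} (h : x ∈ b.V d) : b.k x ∈ b.U d := by
  show b.n.tm (b.k x) ∈ Jm b.s d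
  rw [tm_k (b.V_sub hd h)]; exact h.2

theorem symm_snd {x : X.M} (h : x ∈ b.k.target) : (b.k.symm x).2 = b.n.tm x := by
  rw [← tm_k (b.k.map_target h), b.k.right_inv h]

theorem symm_mem {d : ℝ} (hd : d ≤ 1) {x : X.M} (h : x ∈ b.U d) : b.k.symm x ∈ b.V d :=
  ⟨trivial, by rw [symm_snd (b.U_sub hd h)]; exact h⟩

theorem Rl.mono {e : Option κ → VF X.I X.M} {v d d' : ℝ} (h : b.Rl e v d) (hd : d' ≤ d) :
    b.Rl e v d' := fun a x hx => h a x ⟨trivial, jm_mono _ hd hx.2⟩

theorem ψ_apply (v : ℝ) (x : b.e.A.Y.M × ℝ) : b.ψ v x = b.k (x.1, (stH v).symm x.2) := rfl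

theorem cy_mem {v : ℝ} {x : b.e.A.Y.M × ℝ} (h : x.2 ∈ Jv (pa b.s) (qa v b.s)) :
    cyH _ v x ∈ b.V 0 := ⟨trivial, (st_mem _ v _).1 (by
      show st v ((stH v).symm x.2) ∈ _
      rw [st_symm]; exact h)⟩

theorem ψ_src (v : ℝ) : (b.ψ v).source = univ ×ˢ Jv (pa b.s) (qa v b.s) :=
  inter_eq_right.2 fun _ hx => ⟨trivial, b.V_sub zero_le_one (cy_mem hx.2)⟩

theorem ψ_tgt (v : ℝ) : (b.ψ v).target = b.U 0 := by
  ext x
  refine ⟨fun h => ?_, fun h => ⟨⟨b.U_sub zero_le_one h, trivial⟩, trivial, ?_⟩⟩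
  · have h2 : st v (b.k.symm x).2 ∈ _ := h.2.2
    rwa [symm_snd h.1.1, st_mem] at h2
  · show st v (b.k.symm x).2 ∈ _
    rw [symm_snd (b.U_sub zero_le_one h), st_mem]; exact h

theorem ψ_sm (v : ℝ) : ContMDiffOn (IC b.e.A.Y.I) X.I ∞ (b.ψ v) (b.ψ v).source :=
  b.sm.comp (cyH_sm b.e v).contMDiffOn fun _ hx => hx.1.2

theorem ψ_sm' (v : ℝ) : ContMDiffOn X.I (IC b.e.A.Y.I) ∞ (b.ψ v).symm (b.ψ v).target :=
  (cyH_sm' b.e v).comp_contMDiffOn (b.sm'.mono fun _ hx => hx.1.1)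

theorem Rl.rel {e : Option κ → VF X.I X.M} {v : ℝ} (h : b.Rl e v 0) :
    Gm56.Rel (I' := IC b.e.A.Y.I) (ce b.e.D.F.e) e (b.ψ v) := ⟨ψ_sm v, ψ_sm' v, fun a x hx => by
  have hx' : cyH _ v x ∈ b.V 0 := cy_mem hx.2.2
  have h1 := ((b.sm _ hx.1.2).contMDiffAt (b.k.open_source.mem_nhds hx.1.2)).mdifferentiableAt
    (by simp)
  have h2 := mfderiv_comp x h1 ((cyH_sm b.e v x).mdifferentiableAt (by simp))
  refine (DFunLike.congr_fun h2 _).trans ?_
  exact (congrArg _ (cyH_e b.e v a x)).trans (h a _ hx')⟩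

theorem ext_k {W : Type} [AddCommGroup W] [Module ℝ W] (f : b.e.A.Y.M → W) {x : b.e.A.Y.M × ℝ}
    (h : x ∈ b.k.source) : b.ext f (b.k x) = cu b.s x.2 • f x.1 := by
  rw [ext, tm_k h, b.k.left_inv h]

theorem ext_zero {W : Type} [AddCommGroup W] [Module ℝ W] (f : b.e.A.Y.M → W) {x : X.M}
    (h : x ∉ b.U (1 / 4)) : b.ext f x = 0 := by rw [ext, cu_zero h, zero_smul]

end NB

end Crest.Agent.X212.Sw87.Mo
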