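import Crest.Agent.X212.Sw87.MoA
import Crest.Agent.X212.Gm56.Cnn

/-!
# Row 212, GEO engine (helper87), part B: models

`MT` : a manifold with bands, boxes and ports.  `MB` : a family of frames over a cube.  `MC` : a
module with forms, masses and test spinors.  `MC.gc` : the family in the format of `Flo2`.
-/

set_option autoImplicit false
set_option linter.unusedSectionVars false
noncomputable section
open scoped Manifold ContDiff Topology InnerProductSpace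
open MeasureTheory Set Function Filter

namespace Crest.Agent.X212.Sw87.Mo
open An Cyf70 Sw Flo2 Geo28 Met55
open Crest.Agent.R208.F (Ext)
open Lab56 (C8 M8 CI)
open Prm93 (JS)
open Int54 (oc volF)
open Line51 (iL rl)
open Dr59 (Cs)
open Gm56 (cn cnY)

variable (κ : Type) [Fintype κ] [DecidableEq κ] (μ : Type) [Fintype μ] [DecidableEq μ]

/-- bands, boxes and ports on `X` -/
structure MT (X : M4) : Type 1 where
  N : Type
  [fN : Fintype N]
  [dN : DecidableEq N]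
  nb : N → NB κ X
  std : ∀ i, (nb i).e.Std
  dj : Pairwise fun i j => Disjoint (nb i).k.target (nb j).k.target
  cpt : ∀ T : ℝ, IsCompact {x | ∀ i, ((nb i).s = some true → (nb i).n.tm x ≤ T) ∧
    ((nb i).s = some false → -T ≤ (nb i).n.tm x)}
  nc : ℕ
  bx : Fin nc → PartialDiffeomorph (𝓡 4) X.I R4 X.M ∞
  src : ∀ j, (bx j).source = univ
  off : ∀ j y i, bx j y ∉ (nb i).k.target
  pin : Option N
  pout : Option N
  p3 : Option N
  inn : ∀ i, (nb i).s = some false ↔ pin = some i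
  out : ∀ i, (nb i).s = some true ↔ pout = some i ∨ p3 = some i
  ne3 : ∀ i, p3 = some i → pout ≠ some i

attribute [instance] MT.fN MT.dN

variable {κ μ} {X X' X₁ X₂ : M4} {k k' k₁ k₂ : ℕ}

/-- the retraction onto the cube -/
def clp {N : Type} (wl : Fin k → Option N) (t : Tk k) : Tk k :=
  fun c => (wl c).elim (max 0 (min 1 (t c))) fun _ => max 0 (t c)

/-- the cube -/
def dom {N : Type} (wl : Fin k → Option N) : Set (Tk k) := {t | ∀ c, 0 ≤ t c ∧ (wl c = none → t c ≤ 1)}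

/-- the switch of the band `i`: two at an end, the coordinate at a wall, else zero -/
def MT.sw (τ : MT κ X) (wl : Fin k → Option τ.N) (t : Tk k) (i : τ.N) : ℝ :=
  if (τ.nb i).s = none then ∑ c, if wl c = some i then t c else 0 else 2

/-- `f` does not depend on the lengths of long necks -/
def Lng {N α : Type} (wl : Fin k → Option N) (f : Tk k → α) : Prop :=
  ∀ c, wl c ≠ none → ∀ t v, 3 ≤ t c → 3 ≤ v → f (update t c v) = f t

/-- a family of frames with one projector and one orientation -/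
structure MB (τ : MT κ X) (k : ℕ) where
  e : Tk k → Option κ → VF X.I X.M
  wl : Fin k → Option τ.N
  sm : ∀ a t x, VJ X.I (fun s => e s a) t x
  sp : ∀ t x, Sp (atx (e t) x)
  P : ∀ t x, fP (e t) x = fP (e 0) x
  o : ∀ t, oc (e t) (volF X.o (e t)) = oc (e 0) (volF X.o (e 0))
  inj : ∀ c c' i, wl c = some i → wl c' = some i → c = c'
  fin : ∀ c, ∀ i ∈ wl c, (τ.nb i).s = none
  lit : ∀ t i, 1 < τ.sw wl t i → (τ.nb i).Rl (e t) (τ.sw wl t i) (1 / 2)
  loc : ∀ c, ∀ i ∈ wl c, ∀ t v, 3 ≤ t c → 3 ≤ v → ∀ x, (τ.nb i).n.tm x ∉ Icc (3 / 2 : ℝ) (5 / 2) →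
    ∀ a, e (update t c v) a x = e t a x
  ret : ∀ t, e t = e (clp wl t)

/-- the components of a two-form -/
def cmp (e : Option κ → VF X.I X.M) (f : X.Fm) (x : X.M) : F2 κ :=
  WithLp.toLp 2 fun s => Int54.cf e 2 f ![s.1, s.2] x

/-- the density of a box -/
def rho0 : R4 → ℝ := (⟨1, 2, one_pos, one_lt_two⟩ : ContDiffBump (0 : R4)).normed (leb R4)

/-- the frame components of the vectors of a box -/
def tht (e : Option κ → VF X.I X.M) (Ξ : R4 → X.M) (y : R4) : CL R4 (Eu (Option κ)) :=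
  LinearMap.toContinuousLinearMap ((WithLp.linearEquiv 2 ℝ (Option κ → ℝ)).symm.toLinearMap ∘ₗ
    (ri (Module.finBasis ℝ X.X.E) (atx e (Ξ y))).mulVecLin ∘ₗ
      (Module.finBasis ℝ X.X.E).equivFun.toLinearMap ∘ₗ dmp (𝓡 4) X.I Ξ y)

namespace MB
variable {τ : MT κ X} (β : MB τ k)

/-- the switch -/
abbrev v (t : Tk k) (i : τ.N) : ℝ := τ.sw β.wl t i

theorem fr (t : Tk k) (x : X.M) : FAt (β.e t) x := ⟨fun a => (β.sm a t x).right, β.sp t x⟩

/-- the frame -/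
def F (t : Tk k) : Fr X.I X.M (Option κ) := rFr (β.e t) (β.fr t)

/-- the base -/
def B : Base X.M (Option κ) L0 := Int54.base (β.F 0) (volF X.o (β.e 0)) 1 (iL Unit)

/-- the geometry -/
def G (t : Tk k) : Geo X.I X.M (Option κ) L0 := ⟨β.F t, 0⟩

/-- the class-free part -/
abbrev bs (ens : ∀ i, Set (EC (μ ⊕ μ) (τ.nb i).e.eg)) (C : ℕ → ℝ) : Bs κ L0 (μ ⊕ μ) where
  X := X.X
  nc := τ.nc
  k := k
  N := τ.N
  eg i := (τ.nb i).e.eg
  ens := ens
  wl := β.wl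
  B := β.B
  G := β.G
  ng t i := if 3 / 2 < β.v t i then some ((τ.nb i).ng (β.v t i)) else none
  C := C

end MB

/-- the connection is the canonical one twisted by `θ` -/
def Twp (T : Ty κ L0 (μ ⊕ μ)) (θ : κ → T.en.Y.M → ℝ) : Prop := (∀ k, Sm T.en.Y.I (θ k)) ∧
  (∀ k y, ∑ j, T.en.D.F.P k j y * θ j y = θ k y) ∧
    T.en.A = fun k y => cnY T.en.D.F T.en.m k y + θ k y • (T.en.m.J * T.en.m.p y)

/-- the twist -/
def tw (T : Ty κ L0 (μ ⊕ μ)) : κ → T.en.Y.M → ℝ := Classical.epsilon (Twp T)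

/-- a standard type: no forcing form, the twisted canonical connection -/
structure StdT (T : Ty κ L0 (μ ⊕ μ)) : Prop where
  ok : T.en.OK
  om : T.en.om = 0
  J : T.en.m.J = iL μ
  A : ∃ θ, Twp T θ

theorem StdT.tw {T : Ty κ L0 (μ ⊕ μ)} (h : StdT T) : Twp T (tw T) := Classical.epsilon_spec h.A

/-- the background without mass, forms and cuts -/
def MB.bg0 {τ : MT κ X} (β : MB τ k) (m : C8 X.M (Option κ) μ) : Bg X.I X.M κ L0 (μ ⊕ μ) 0 :=
  ⟨β.B, β.G 0, m.re, 0, 0, 0, 1, Fin.elim0⟩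

variable (μ) in
/-- a module that is literal on the bands -/
structure MM (τ : MT κ X) : Type 1 where
  ec : ∀ i, EC (μ ⊕ μ) (τ.nb i).e.eg
  cl : ∀ i, (ec i).L
  std : ∀ i, StdT ⟨⟨(τ.nb i).e.eg, ec i⟩, cl i⟩
  m : C8 X.M (Option κ) μ
  lit : ∀ i, ∀ x ∈ (τ.nb i).V (1 / 2), m.re.p ((τ.nb i).k x) = ((ec i).m (cl i)).p x.1 ∧
    ∀ a, m.re.ρ a ((τ.nb i).k x) = ((ec i).m (cl i)).ρ a x.1

/-- the types of the bands -/
abbrev MM.ty {τ : MT κ X} (M : MM μ τ) (i : τ.N) : Ty κ L0 (μ ⊕ μ) :=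
  ⟨⟨(τ.nb i).e.eg, M.ec i⟩, M.cl i⟩

variable (μ) in
/-- a module with forms `fo`, core masses `mc` and test spinors `η` -/
structure MC {τ : MT κ X} (β : MB τ k) : Type 1 extends MM μ τ where
  mon : m.On X.I (fP (β.e 0)) univ
  fo : Tk k → X.Fm
  cs : ∀ t, Cs X.I 2 univ (fo t)
  sf : JS X.I univ fun t => cmp (β.e 0) (fo t)
  f0 : ∀ t i, 1 < β.v t i → ∀ x ∈ (τ.nb i).U 0, fo t x = 0
  mc : Tk k → X.M → En (μ ⊕ μ)
  smc : JS X.I univ mc
  mJ : ∀ t x, iL μ * mc t x = mc t x * iL μ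
  mp : ∀ t x, (β.bg0 m).pm x * mc t x * (β.bg0 m).pp x = mc t x
  m0 : ∀ t i, 1 < β.v t i → ∀ x ∈ (τ.nb i).U 0, mc t x = 0
  η : Tk k → Fin τ.nc → R4 → Eu (μ ⊕ μ)
  jc : ∀ j, JC univ fun t => η t j
  tst : ∀ t j, (β.bg0 m).Tst (τ.bx j) (η t j)

namespace MC
variable {τ : MT κ X} {β : MB τ k} (c : MC μ β)

/-- the masses of the bands with the switches `v` -/
def ms (v : τ.N → ℝ) (x : X.M) : En (μ ⊕ μ) :=
  ∑ i, wt (v i) • (τ.nb i).ext (fun y => (c.ty i).en.cyl.ms (y, 0)) x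

/-- the twists of the bands with the switches `v` -/
def al (v : τ.N → ℝ) (a : Option κ) (x : X.M) : ℝ :=
  ∑ i, wt (v i) • (τ.nb i).ext (fun y => a.elim 0 fun k => tw (c.ty i) k y) x

/-- the background at `t` with the switches `v` -/
def bg (t : Tk k) (v : τ.N → ℝ) {n : ℕ} (ct : Fin n → Cut X.M κ (μ ⊕ μ)) :
    Bg X.I X.M κ L0 (μ ⊕ μ) n :=
  ⟨β.B, β.G t, c.m.re, fun a x => cn (β.F t) c.m.re a x + c.al v a x • (c.m.re.J * c.m.re.p x),
    fun x => c.ms v x + c.mc t x,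
    fun x => (β.bg0 c.m).p2 x (cmp (β.e t) (c.fo t) x), 1, ct⟩

open Classical in
/-- the piece at `t` with the switches `v` -/
def pz (t : Tk k) (v : τ.N → ℝ) {n : ℕ} (ct : Fin n → Cut X.M κ (μ ⊕ μ)) :
    Pz X.X n fun i => (c.ty i).en :=
  ⟨c.bg t v ct, fun i => if h : 3 / 2 < v i ∧
    ∃ K : Nk (X := X.X) (c.ty i).en (c.bg t v ct), K.ng = (τ.nb i).ng (v i) then some h.2.choose else none⟩

/-- the cuts -/
def ct (t : Tk k) (j : Fin τ.nc) : Cut X.M κ (μ ⊕ μ) :=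
  ⟨(τ.bx j).toOpenPartialHomeomorph, tht (β.e t) (τ.bx j), rho0, c.η t j⟩

/-- the piece at `t` -/
abbrev P (t : Tk k) : Pz X.X τ.nc fun i => (c.ty i).en := c.pz t (β.v t) (c.ct t)

/-- **the family** -/
abbrev gc (ens : ∀ i, Set (EC (μ ⊕ μ) (τ.nb i).e.eg)) (C : ℕ → ℝ) : Gc κ L0 (μ ⊕ μ) where
  toBs := β.bs ens C
  ec := c.ec
  cl := c.cl
  s := c.pz 0 (β.v 0) Fin.elim0
  𝓕 := ⟨fun t => ⟨c.P t, fun w => w.elim, fun w => w.elim⟩, univ,
    fun t (x : X.M) => trS (β.F 0) (β.F t) x, fun t (x : X.M) => trS (β.F t) (β.F 0) x⟩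
  pin := τ.pin
  pout := τ.pout
  p3 := τ.p3

/-- the module has the class `d` -/
def Cl (d : X.L) : Prop := Gm56.Rp (β.e 0) c.m d

/-- the bounds `C` hold -/
def Bnd (C : ℕ → ℝ) : Prop := ∀ t ∈ dom β.wl, (c.P t).bg.Bd C ∧
  (c.P t).bg.F.μ ((c.P t).thick 3) ≤ ENNReal.ofReal (C 0)

end MC

end Crest.Agent.X212.Sw87.Mo
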