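import Crest.Agent.X212.Geo28.As4

/-!
# Row 212, GEO engine (helper87), part P: the data of a pentagon
-/

set_option autoImplicit false
set_option linter.unusedSectionVars false
noncomputable section
open scoped Manifold ContDiff Topology InnerProductSpace
open MeasureTheory Set Function Filter

namespace Crest.Agent.X212.Sw87.Mo
open An Cyf70 Sw Flo2 Geo28 Met55 Pen22
open Bor5.T (O3 Q3 Pb Cur)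
open Dr59 (Cs pm mf HZ)

/-- types -/
abbrev TY : Type 1 := Ty κ0 L0 ν0

variable {mk : Mk κ0 L0 ν0} {X X' X₁ X₂ : M4} {τ : MT κ0 X} {τ' : MT κ0 X'} {τ₁ : MT κ0 X₁}
  {τ₂ : MT κ0 X₂} {k k' k₁ k₂ : ℕ} {β : MB τ k} {β' : MB τ' k'} {𝒯 : Set TY}

/-! ### families -/

variable (mk) in
/-- allowed types -/
structure TS (𝒯 : Set TY) : Prop where
  ok : ∀ T ∈ 𝒯, T.1.OK mk
  bd : ∃ K, ∀ T ∈ 𝒯, EBd K T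
  zc : ∀ T ∈ 𝒯, T.1.kd = .tor → Zc T
  fin : ∀ (g : EG κ0 L0) C, {e : EC ν0 g | (∃ c, (⟨⟨g, e⟩, c⟩ : TY) ∈ 𝒯) ∧ (e.kd ≠ .dead ∨
    ∃ c, ∃ v : (End.en ⟨g, e⟩ c).YC, (End.en ⟨g, e⟩ c).cyl.Adm (En3.fz v) ∧ v.Φ = 0 ∧
      En3.gn v ≤ C)}.Finite

/-- allowed classes -/
def ens0 (𝒯 : Set TY) (τ : MT κ0 X) : Ens μ0 τ := fun _ => {e | ∃ c, (⟨⟨_, e⟩, c⟩ : TY) ∈ 𝒯}

/-- a family of classes without masses -/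
structure FM (𝒯 : Set TY) (β : MB τ k) (I : Type) : Type 1 where
  c : I → MC μ0 β
  d : I → X.L
  cl : ∀ i, (c i).Cl (d i)
  mc : ∀ i, (c i).mc = 0
  ty : ∀ i j, (c i).ty j ∈ 𝒯

variable (mk) in
/-- a family with good roots -/
structure RF (𝒯 : Set TY) (β : MB τ k) (I : Type) : Type 1 extends FM 𝒯 β I where
  C : ℕ → ℝ
  ro : ∀ i, Ro mk ((c i).gc (ens0 𝒯 τ) C)

/-- the roots -/
abbrev RF.g {I} (F : RF mk 𝒯 β I) (i : I) : Gc κ0 L0 ν0 := (F.c i).gc (ens0 𝒯 τ) F.C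

/-- properness of the members `e j` with the lifts `n j` -/
def RF.Prp {I J} (F : RF mk 𝒯 β I) (e : J → I) (n : J → ℤ) : Prop :=
  ∃ D : Finset (β.bs (ens0 𝒯 τ) F.C).Tf, ∀ R : ℝ, {j | ∀ f ∈ D, |(F.g (e j)).pr (n j) f| ≤ R}.Finite

/-- a family of points -/
structure PF (𝒯 : Set TY) (A B D : EE mk) (β : MB τ 0) (I : Type) : Type 1 extends RF mk 𝒯 β I where
  s : I → A.L
  t : I → B.L
  u : I → D.L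
  hs : ∀ i, τ.pin.map (c i).ty = A.ty (s i)
  ht : ∀ i, τ.pout.map (c i).ty = B.ty (t i)
  hu : ∀ i, τ.p3.map (c i).ty = D.ty (u i)

/-- the points -/
def PF.pt {A B D : EE mk} {β : MB τ 0} {I} (F : PF 𝒯 A B D β I) (i : I) : C3 A B D :=
  C3.pt (F.ro i) rfl (F.s i) (F.t i) (F.u i) (F.hs i) (F.ht i) (F.hu i)

theorem PF.p0 {A B D : EE mk} {β : MB τ 0} {I} (F : PF 𝒯 A B D β I) (i : I) : (F.pt i).P0 := C3.pt_p0 ..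

/-- the labels are those of the classes -/
def PF.Lb {𝓔 : Ends mk} {a b : Option Q3} {x D} (T : Pm (vo a) (vo b) x) {τ : MT κ0 T.X} {β : MB τ 0} {I}
    (F : PF 𝒯 (𝓔.en a) (𝓔.en b) D β I) : Prop :=
  ∀ i, (∀ s, T.ki.Cl (F.d i) s → 𝓔.Lab a s (F.s i)) ∧ ∀ s, T.ko.Cl (F.d i) s → 𝓔.Lab b s (F.t i)

/-- a family of intervals from `i` to the pull-back of `r i` -/
structure IF {A B : EE mk} {β : MB τ 0} {I} (F : PF 𝒯 A B none β I) (r : I → I) (φ : X.Dif X)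
    (β₁ : MB τ 1) : Type 1 extends RF mk 𝒯 β₁ I where
  n : I → ℤ
  im : ∀ i, IM (F.c i) (F.c (r i)) φ (c i) (n i)
  hd : d = F.d

/-- the intervals -/
def IF.itv {A B : EE mk} {β : MB τ 0} {I} {F : PF 𝒯 A B none β I} {r φ β₁} (G : IF F r φ β₁) (i : I) :
    Itv (F.pt i) (F.pt (r i)) :=
  ⟨⟨G.g i, G.ro i, 0, fun _ => Subsingleton.elim _ _⟩, (G.im i).F _ _ (F.pt i).τ (F.pt (r i)).τ,
    F.p0 _, F.p0 _⟩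

/-- `c'` is the facet `t a = s` of `c` -/
def FcM (c : MC μ0 β) (c' : MC μ0 β') (a : Fin k) (s : ℝ) (ι : Fin k' → Fin k)
    (φ : OpenPartialHomeomorph X'.M X.M) : Prop :=
  ∃ n, ∀ ens ens' C C', (c.gc ens C).Fc (c'.gc ens' C') {t ∈ dom β.wl | t a = s} ι φ n

/-- `c₁`, `c₂` are the pieces of `c` at the wall `a` -/
def WlM (γ : TG τ τ₁ τ₂) (Λ : γ.LR) {β₁ : MB τ₁ k₁} {β₂ : MB τ₂ k₂} (c : MC μ0 β) (c₁ : MC μ0 β₁)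
    (c₂ : MC μ0 β₂) (a : Fin k) (ι₁ : Fin k₁ → Fin k) (ι₂ : Fin k₂ → Fin k) : Prop :=
  β.wl a = some γ.i ∧ ∀ ens ens₁ ens₂ C C₁ C₂,
    (c.gc ens C).Wl (c₁.gc ens₁ C₁) (c₂.gc ens₂ C₂) a γ.i γ.cap ι₁ ι₂ Λ.l Λ.r

/-- the three facets of a square: `w`, `w'` at `t 0 = 0, 1` and `Γ` at `t 1 = 0` -/
structure SqM {τ τ' : MT κ0 X} {β : MB τ 2} {βw : MB τ 1} {βΓ : MB τ' 1} (c : MC μ0 β) (w w' : MC μ0 βw)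
    (Γ : MC μ0 βΓ) (φ : X.Dif X) : Prop where
  wl : β.wl 0 = none
  e0 : FcM c w 0 0 ![1] (.refl _)
  e1 : FcM c w' 0 1 ![1] (oph φ.symm)
  f0 : FcM c Γ 1 0 ![0] (.refl _)

/-- the embeddings commute with the reflections -/
structure TG.LR.Rf {γ : TG τ τ₁ τ₂} (Λ : γ.LR) (φ : X.M → X.M) (φ₁ : X₁.M → X₁.M) (φ₂ : X₂.M → X₂.M) :
    Prop where
  l : ∀ v, ∀ x ∈ (Λ.l v).source, φ (Λ.l v x) = Λ.l v (φ₁ x)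
  r : ∀ v, ∀ x ∈ (Λ.r v).source, φ (Λ.r v x) = Λ.r v (φ₂ x)

/-! ### blends at a wall -/

/-- `β` is `β₀` for `1 ≤ t a` and isometric to `β'` for `t a ≤ 0` -/
structure Bw {τ τ' : MT κ0 X} (β₀ : MB τ k) (β' : MB τ' k') (a : Fin k) (ι : Fin k' → Fin k)
    (β : MB τ k) : Prop where
  wl : β.wl = β₀.wl
  e1 : ∀ t, 1 ≤ t a → β.e t = β₀.e t
  co : ∀ t x, ∀ p q : X.X.E →ₗ[ℝ] ℝ, ∑ b, p (β.e t b x) * q (β.e t b x) =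
    sT (t a) * ∑ b, p (β₀.e t b x) * q (β₀.e t b x) +
      (1 - sT (t a)) * ∑ b, p (β'.e (t ∘ ι) b x) * q (β'.e (t ∘ ι) b x)

/-- the same for classes -/
structure BwC {τ τ' : MT κ0 X} {β₀ β : MB τ k} {β' : MB τ' k'} (c₀ : MC μ0 β₀) (c' : MC μ0 β') (a : Fin k)
    (ι : Fin k' → Fin k) (c : MC μ0 β) : Prop where
  M : c.toMM = c₀.toMM
  cl : ∀ d, c₀.Cl d → c.Cl d
  fo : ∀ t, c.fo t = sT (t a) • c₀.fo t + (1 - sT (t a)) • c'.fo (t ∘ ι)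
  mc : c₀.mc = 0 → c.mc = 0

theorem Bw.fi {τ τ' : MT κ0 X} {σ σ' : MT κ0 X'} {β₀ β : MB τ k} {β' : MB τ' k'} {δ₀ δ : MB σ k₁}
    {δ' : MB σ' k₂} {a ι a' ι'} (h : Bw β₀ β' a ι β) (h' : Bw δ₀ δ' a' ι' δ) {φ : X'.M → X.M} {t t'}
    (e : t' a' = t a) (k₀ : FI φ (δ₀.e t') (β₀.e t)) (k₁ : FI φ (δ'.e (t' ∘ ι')) (β'.e (t ∘ ι))) :
    FI φ (δ.e t') (β.e t) := fun x p q =>
  (h'.co t' x (p ∘ₗ (mf X'.I X.I φ x).toLinearMap) (q ∘ₗ (mf X'.I X.I φ x).toLinearMap)).trans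
    ((congrArg₂ (· + ·) (congrArg₂ (· * ·) (congrArg sT e) (k₀ x p q))
      (congrArg₂ (· * ·) (congrArg (1 - sT ·) e) (k₁ x p q))).trans (h.co t (φ x) p q).symm)

theorem Bw.fi0 {τ τ' : MT κ0 X} {β₀ β : MB τ k} {β' : MB τ' k'} {a ι} (h : Bw β₀ β' a ι β) {t}
    (e : t a ≤ 0) : FI (M4.Dif.refl X).φ (β'.e (t ∘ ι)) (β.e t) := fun x p q => by
  have := h.co t x p q
  rw [show sT (t a) = 0 from Real.smoothTransition.zero_of_nonpos e, zero_mul, zero_add, sub_zero,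
    one_mul] at this
  exact (Finset.sum_congr rfl fun b _ => congrArg₂ (fun u v => p u * q v) (mf_refl x _) (mf_refl x _)).trans
    this.symm

/-! ### gluings -/

section
variable {a b c : Option O3} {B : O3} (ga : EO κ0 a) (gB : EO κ0 (some B)) (gb : EO κ0 b) (gc : EO κ0 c)

/-- models for a composition -/
structure CT {T₁ : Pm a (some B) none} {T₂ : Pm (some B) c none} {T : Pm a c none} (g : Cm T₁ T₂ T)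
    (τ₁ : MT κ0 T₁.X) (τ₂ : MT κ0 T₂.X) (τ : MT κ0 T.X) : Type where
  o₁ : On T₁ τ₁ ga gB ()
  o₂ : On T₂ τ₂ gB gc ()
  o : On T τ ga gc ()
  i : τ.N
  hi : τ.nb i = ⟨gB.et, none, g.n⟩
  fin : ∀ i' ≠ i, (τ.nb i').s = none → (∃ j, (τ₁.nb j).Cor (τ.nb i') g.l) ∨ ∃ j, (τ₂.nb j).Cor (τ.nb i') g.r

/-- models for a cap -/
structure PT {L : Pm a b (some B)} {Q : Pm (some B) none none} {T : Pm a b none} (g : Cp3 L Q T)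
    (τ₁ : MT κ0 L.X) (τ₂ : MT κ0 Q.X) (τ : MT κ0 T.X) : Type where
  o₁ : On L τ₁ ga gb gB
  o₂ : OnP Q τ₂ gB () ()
  n₂ : τ₂.nc = 0
  o : On T τ ga gb ()
  i : τ.N
  hi : τ.nb i = ⟨gB.et, none, g.n⟩
  fin : ∀ i', (τ.nb i').s = none → i' = i

variable {ga gB gb gc}

/-- the gluing `γ` with the data `e`, `k₁`, `k₂`, `g` put in literally -/
def TG.Is.lit {γ : TG τ τ₁ τ₂} {cap e k₁ k₂} {g : Gl3 (A := ET.A e) k₁ k₂ X} {i} (h : γ.Is cap g i) :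
    TG τ τ₁ τ₂ where
  cap := cap
  e := e
  k₁ := k₁
  k₂ := k₂
  g := g
  i := i
  j₁ := γ.j₁
  j₂ := γ.j₂
  h := h.i ▸ (h.of (p := fun g => τ.nb γ.i = ⟨g.1, none, g.2.2.2.n⟩)).1 γ.h
  h₁ := (h.of (p := fun g => τ₁.nb γ.j₁ = ⟨g.1, some true, g.2.1⟩)).1 γ.h₁
  h₂ := (h.of (p := fun g => τ₂.nb γ.j₂ = ⟨g.1, some false, g.2.2.1⟩)).1 γ.h₂
  r₁ := Crr τ₁ τ γ.j₁ i g.l
  r₂ := Crr τ₂ τ γ.j₂ i g.r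
  c₁ _ _ := id
  c₂ _ _ := id
  inj₁ := h.i ▸ (h.of (p := fun g => ∀ i i' j j', Crr τ₁ τ γ.j₁ γ.i g.2.2.2.l i i' →
    Crr τ₁ τ γ.j₁ γ.i g.2.2.2.l j j' → (i = j ↔ i' = j'))).1 (h.r₁ ▸ γ.inj₁)
  inj₂ := h.i ▸ (h.of (p := fun g => ∀ i i' j j', Crr τ₂ τ γ.j₂ γ.i g.2.2.2.r i i' →
    Crr τ₂ τ γ.j₂ γ.i g.2.2.2.r j j' → (i = j ↔ i' = j'))).1 (h.r₂ ▸ γ.inj₂)
  dj := h.i ▸ (h.of (p := fun g => ∀ i' j j', Crr τ₁ τ γ.j₁ γ.i g.2.2.2.l j i' →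
    ¬Crr τ₂ τ γ.j₂ γ.i g.2.2.2.r j' i')).1 (h.r₁ ▸ h.r₂ ▸ γ.dj)
  sur := h.i ▸ (h.of (p := fun g => ∀ i', i' = γ.i ∨ (∃ j, Crr τ₁ τ γ.j₁ γ.i g.2.2.2.l j i') ∨
    ∃ j, Crr τ₂ τ γ.j₂ γ.i g.2.2.2.r j i')).1 (h.r₁ ▸ h.r₂ ▸ γ.sur)
  ec := γ.ec
  b₁ := (h.of (p := fun g => ∀ j y, τ.bx (γ.ec (.inl j)) y = g.2.2.2.l (τ₁.bx j y))).1 γ.b₁
  b₂ := (h.of (p := fun g => ∀ j y, τ.bx (γ.ec (.inr j)) y = g.2.2.2.r (τ₂.bx j y))).1 γ.b₂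
  pin := h.i ▸ (h.of (p := fun g => Option.Rel (Crr τ₁ τ γ.j₁ γ.i g.2.2.2.l) τ₁.pin τ.pin)).1 (h.r₁ ▸ γ.pin)
  p3 := γ.p3
  port := h.cap ▸ h.i ▸ (h.of (p := fun g => bif γ.cap then τ₁.p3 = some γ.j₁ ∧
    Option.Rel (Crr τ₁ τ γ.j₁ γ.i g.2.2.2.l) τ₁.pout τ.pout ∧ τ₂.pout = none else τ₁.pout = some γ.j₁ ∧
    Option.Rel (Crr τ₂ τ γ.j₂ γ.i g.2.2.2.r) τ₂.pout τ.pout ∧ τ₁.p3 = none)).1 (h.r₁ ▸ h.r₂ ▸ γ.port)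

/-- the gluing: `γ.g` is `g`, `γ.i` is `i`, `γ.cap` is `false`, `γ.r₁`, `γ.r₂` are `Crr`, all by `rfl` -/
def CT.γ {T₁ : Pm a (some B) none} {T₂ : Pm (some B) c none} {T : Pm a c none} {g : Cm T₁ T₂ T} {τ₁ τ₂ τ}
    (D : CT ga gB gc g τ₁ τ₂ τ) : TG τ τ₁ τ₂ :=
  (exists_tgC g D.o₁ D.o₂ D.o D.hi D.fin).choose_spec.lit

/-- the same for a cap -/
def PT.γ {L : Pm a b (some B)} {Q : Pm (some B) none none} {T : Pm a b none} {g : Cp3 L Q T} {τ₁ τ₂ τ}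
    (D : PT ga gB gb g τ₁ τ₂ τ) : TG τ τ₁ τ₂ :=
  (exists_tgP g D.o₁.toOnP D.o₂ D.o.toOnP (D.o₁.nc.trans g.nL) D.n₂ (D.o.nc.trans g.nT) D.hi
    D.fin).choose_spec.lit

end

/-! ### classes -/

/-- the classes of a double composite -/
structure JJ {a c : Option O3} {B : O3} {T₁ : Pm a (some B) none} {T₂ : Pm (some B) c none}
    {T : Pm a c none} (g : Cm T₁ T₂ T) (I₁ : Set T₁.L) (I₂ : Set T₂.L) : Type where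
  j : T.L
  d₁ : I₁
  d₂ : I₂
  l : g.Rl j d₁
  r : g.Rr j d₂

theorem JJ.ext {a c : Option O3} {B : O3} {T₁ : Pm a (some B) none} {T₂ : Pm (some B) c none}
    {T : Pm a c none} {g : Cm T₁ T₂ T} {I₁ I₂} {x y : JJ g I₁ I₂} (h : x.j = y.j) : x = y := by
  obtain ⟨j, ⟨d₁, _⟩, ⟨d₂, _⟩, l, r⟩ := x
  obtain ⟨_, ⟨_, _⟩, ⟨_, _⟩, l', r'⟩ := y
  cases h
  cases (rl_eq _ l).symm.trans (rl_eq _ l')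
  cases (rr_eq _ r).symm.trans (rr_eq _ r')
  rfl

/-- the classes of the plumbing over `s` -/
abbrev XS (G : CG) (s : G.R.L) : Type := {x : G.N.L // G.N.ki.Cl x s}

/-- the reflection -/
def XS.r {G : CG} {s : G.R.L} (b : Bool) (x : XS G s) : XS G s := ⟨(G.ρ b).r x, (rf_ki _ _ _).1 x.2⟩

variable {G : CG} {a : Option Q3} {B C : Q3} (P : PG G a B C)

/-- the classes of `L` over `s` -/
abbrev LS (s : G.R.L) : Type := {l : P.L.L // P.L.k3.Cl l s ∧ (a = none → l ∈ P.IL)}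

/-- the classes of the first double -/
abbrev J0 : Type := JJ P.g12 P.I1 P.I2

/-- the classes of the second double -/
abbrev J1 : Type := JJ P.g23 P.I2 P.I3

theorem ex_r0 (x : J0 P) : ∃ y : J0 P, y.j = P.ρ12.r x.j :=
  let ⟨_, a, _, b, l, r⟩ := P.r12 _ _ _ x.l x.r x.d₁.2 x.d₂.2
  ⟨⟨_, ⟨_, a⟩, ⟨_, b⟩, l, r⟩, rfl⟩

theorem ex_r1 (x : J1 P) : ∃ y : J1 P, y.j = P.ρ23.r x.j :=
  let ⟨_, a, _, b, l, r⟩ := P.r23 _ _ _ x.l x.r x.d₁.2 x.d₂.2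
  ⟨⟨_, ⟨_, a⟩, ⟨_, b⟩, l, r⟩, rfl⟩

/-- the reflection -/
def rj0 (x : J0 P) : J0 P := (ex_r0 P x).choose

/-- the reflection -/
def rj1 (x : J1 P) : J1 P := (ex_r1 P x).choose

theorem rj0_j (x : J0 P) : (rj0 P x).j = P.ρ12.r x.j := (ex_r0 P x).choose_spec

theorem rj1_j (x : J1 P) : (rj1 P x).j = P.ρ23.r x.j := (ex_r1 P x).choose_spec

/-- a class of the pentagon with all its restrictions -/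
structure PM : Type where
  k : P.X.L
  hk : k ∈ P.M
  d1 : P.I1
  d2 : P.I2
  d3 : P.I3
  j : P.X12.L
  j' : P.X23.L
  l12 : P.g12.Rl j d1
  r12 : P.g12.Rr j d2
  l23 : P.g23.Rl j' d2
  r23 : P.g23.Rr j' d3
  lC : P.gC.Rl k j
  rB : P.gB.Rr k j'
  s : G.R.L
  l : LS P s
  x : XS G s
  lN : P.gN.Rl k l
  rN : P.gN.Rr k x

namespace PM
variable {P} (θ : PM P)

/-- the class on `X12` -/
def j0 : J0 P := ⟨θ.j, θ.d1, θ.d2, θ.l12, θ.r12⟩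

/-- the class on `X23` -/
def j1 : J1 P := ⟨θ.j', θ.d2, θ.d3, θ.l23, θ.r23⟩

theorem lB : P.gB.Rl θ.k θ.d1 := as1 P.toPG0 θ.lC θ.l12

theorem rC : P.gC.Rr θ.k θ.d3 := as3 P.toPG0 θ.rB θ.r23

theorem lC0 : P.gC.Rl ((P.ρ false).r θ.k) (rj0 P θ.j0).j := (rj0_j P θ.j0).symm ▸ ρ0_l P.toPG0 θ.lC

theorem rB1 : P.gB.Rr ((P.ρ true).r θ.k) (rj1 P θ.j1).j := (rj1_j P θ.j1).symm ▸ ρ1_r P.toPG0 θ.rB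

theorem ext {θ θ' : PM P} (h : θ.k = θ'.k) : θ = θ' := by
  obtain ⟨k, _, ⟨d1, _⟩, ⟨d2, _⟩, ⟨d3, _⟩, j, j', a, b, c, d, e, f, s, ⟨l, m, _⟩, ⟨x, _⟩, g, h⟩ := θ
  obtain ⟨_, _, ⟨_, _⟩, ⟨_, _⟩, ⟨_, _⟩, _, _, a', b', c', d', e', f', _, ⟨_, m', _⟩, ⟨_, _⟩, g', h'⟩ := θ'
  cases h
  cases (rl_eq _ e).symm.trans (rl_eq _ e')
  cases (rr_eq _ f).symm.trans (rr_eq _ f')
  cases (rl_eq _ a).symm.trans (rl_eq _ a')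
  cases (rr_eq _ b).symm.trans (rr_eq _ b')
  cases (rr_eq _ d).symm.trans (rr_eq _ d')
  cases (rl_eq _ g).symm.trans (rl_eq _ g')
  cases (rr_eq _ h).symm.trans (rr_eq _ h')
  cases (jk_cl (s := some true) P.L.k3 _).unique m m'
  rfl

theorem ex {k : P.X.L} (hk : k ∈ P.M) : ∃ θ : PM P, θ.k = k := by
  obtain ⟨j, d1, h1, d2, h2, d3, h3, e, f, a, b, -⟩ := (P.hM k).1 hk
  obtain ⟨s, hs⟩ := (jk_cl (s := some false) G.N.ki (rr P.gN.toGl3 k)).exists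
  have rc := r_C P.toPG0 e a b f
  refine ⟨⟨k, hk, ⟨_, h1⟩, ⟨_, h2⟩, ⟨_, h3⟩, j, _, a, b, rc.2.1 ▸ r2_B P.toPG0 (rr_spec _ k),
    rc.2.2 ▸ r3_B P.toPG0 (rr_spec _ k), e, rr_spec _ k, s, ⟨_, (cl_lr P.gN.toGl3 (rl_spec _ k)
      (rr_spec _ k)).2 hs, fun e => ?_⟩, ⟨_, hs⟩, rl_spec _ k, rr_spec _ k⟩, rfl⟩
  exact ((P.sat k _ _ (rl_spec _ k) (rr_spec _ k) (P.al e k hk _ (rr_spec _ k))).1 hk).1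

/-- the reflections; `s`, `l`, `x`, and `j0`, `d3` (`false`) or `d1`, `j1` (`true`) compute by `rfl` -/
def rs (b : Bool) : PM P where
  k := (P.ρ b).r θ.k
  hk := P.rM b _ θ.hk
  d1 := bif b then θ.d1 else (rj0 P θ.j0).d₁
  d2 := bif b then (rj1 P θ.j1).d₁ else (rj0 P θ.j0).d₂
  d3 := bif b then (rj1 P θ.j1).d₂ else θ.d3
  j := bif b then rl P.gC.toGl3 ((P.ρ b).r θ.k) else (rj0 P θ.j0).j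
  j' := bif b then (rj1 P θ.j1).j else rr P.gB.toGl3 ((P.ρ b).r θ.k)
  l12 := by
    cases b
    · exact (rj0 P θ.j0).l
    · exact ((rl_eq _ (r1_B P.toPG0 _)).symm.trans (rl_eq _ (ρ1_l P.toPG0 θ.lB)) :) ▸ rl_spec _ _
  r12 := by
    cases b
    · exact (rj0 P θ.j0).r
    · exact (as2 P.toPG0 (rl_spec _ _) (rr_spec _ _) θ.rB1 (rj1 P θ.j1).l :) ▸
        rr_spec _ _
  l23 := by
    cases b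
    · exact (as2 P.toPG0 θ.lC0 (rj0 P θ.j0).r (rr_spec _ _) (rl_spec _ _) :).symm ▸
        rl_spec _ _
    · exact (rj1 P θ.j1).l
  r23 := by
    cases b
    · exact (rr_eq _ (ρ0_r P.toPG0 θ.rC) :) ▸ r3_B P.toPG0 (rr_spec _ _)
    · exact (rj1 P θ.j1).r
  lC := by
    cases b
    · exact θ.lC0
    · exact rl_spec _ _
  rB := by
    cases b
    · exact rr_spec _ _
    · exact θ.rB1
  s := θ.s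
  l := θ.l
  x := θ.x.r b
  lN := ρ_L P.toPG0 b θ.lN
  rN := ρ_N P.toPG0 b θ.rN

end PM

/-! ### the data -/

namespace Ends
variable (𝓔 : Ends mk)

/-- the type of `S² × S¹` with the class `s` -/
def rty (G : CG) (s : G.R.L) : TY := ⟨⟨_, (𝓔.r G).ec s⟩, (𝓔.r G).cl s⟩

/-- the types of the spheres in `S` and of `S² × S¹` -/
def TT (G : CG) (S : Set Q3) : Set TY :=
  {T | (∃ A ∈ S, ∃ c, T = ⟨⟨_, (𝓔.q A).ec⟩, c⟩) ∨ ∃ s, T = 𝓔.rty G s}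

/-- the types of a pentagon -/
abbrev TP (G : CG) (a : Option Q3) (B C : Q3) : Set TY := 𝓔.TT G {A | A = B ∨ A = C ∨ a = some A}

end Ends

/-- no coordinates -/
abbrev e0 {n : ℕ} : Fin 0 → Fin n := Fin.elim0

/-- **caps**: points and intervals on `N` with all twists, the point on `B` -/
structure CapD (𝓔 : Ends mk) (G : CG) : Type 1 where
  τN : MT κ0 G.N.X
  oN : OnP G.N τN (𝓔.r G).g () ()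
  nN : τN.nc = 0
  βN : MB τN 0
  N : ∀ s, PF (𝓔.TT G ∅) (𝓔.obR G s) none none βN (XS G s × ℤ)
  Nd : ∀ s p, (N s).d p = p.1
  Nf : ∀ s p, ((N s).c p).fo = 0
  Ns : ∀ s p, (N s).s p = (𝓔.r G).cl s
  tw : ∀ s x, ∀ j ∈ τN.pin, Tw (fun n => ((N s).c (x, n)).toMM) j
  Nt : ∀ s x n, ((N s).g (x, n)).Fc ((N s).g (x, 0)) (dom βN.wl) id (.refl _) (-n)
  βG : Bool → MB τN 1
  bl : ∀ b, Bl μ0 βN βN (G.ρ b).toDif (βG b)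
  I : ∀ b s, IF (N s) (fun p => (p.1.r b, 0)) (G.ρ b).toDif (βG b)
  It : ∀ b s x n, ((I b s).g (x, n)).Fc ((I b s).g (x, 0)) (dom (βG b).wl) id (.refl _) (-n)
  prp : ∀ b, (I b G.c0).Prp (fun p : XS G G.c0 × ℤ => (p.1, 0)) Prod.snd
  τB : MT κ0 G.B.X
  oB : OnP G.B τB (𝓔.r G).g () ()
  nB : τB.nc = 0
  βB : MB τB 0
  B : PF (𝓔.TT G ∅) (𝓔.obR G G.c0) none none βB Unit
  Bf : (B.c ()).fo = 0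
  Bs : B.s () = (𝓔.r G).cl G.c0
  Bt : ∀ n, (B.g ()).Fc (B.g ()) (dom βB.wl) id (.refl _) n

/-- **points** on a piece -/
structure PP (𝓔 : Ends mk) (𝒯 : Set TY) {a b : Option Q3} (T : Pm (vo a) (vo b) none) (S : Set T.L)
    (η : T.L → T.Fm) : Type 1 where
  τ : MT κ0 T.X
  o : On T τ (𝓔.go a) (𝓔.go b) ()
  fe : ∀ i, (τ.nb i).s ≠ none
  β : MB τ 0
  F : PF 𝒯 (𝓔.en a) (𝓔.en b) none β S
  hd : ∀ i, F.d i = i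
  fo : ∀ i t, (F.c i).fo t = (1 / 2 : ℝ) • η i
  lb : F.Lb T
  prp : F.Prp id 0

/-- **points** on `L` -/
structure LP (𝓔 : Ends mk) (P : PG G a B C) : Type 1 where
  τ : MT κ0 P.L.X
  o : On P.L τ (𝓔.go a) (𝓔.go a) (𝓔.r G).g
  β : MB τ 0
  F : ∀ s, PF (𝓔.TP G a B C) (𝓔.en a) (𝓔.en a) (𝓔.obR G s) β (LS P s)
  hd : ∀ s l, (F s).d l = l
  fo : ∀ s l t, ((F s).c l).fo t = (1 / 2 : ℝ) • P.ηL l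
  lb : ∀ s, (F s).Lb P.L
  hu : ∀ s l, (F s).u l = (𝓔.r G).cl s

/-- **a double**: points `p`, walls `H`, intervals `γ` -/
structure DD {𝓔 : Ends mk} {a c : Option Q3} {B : Q3} {T₁ : Pm (vo a) (some B.toO3) none}
    {T₂ : Pm (some B.toO3) (vo c) none} {T : Pm (vo a) (vo c) none} (g : Cm T₁ T₂ T) (ρ : Rf T)
    (η : T.L → T.Fm) {I₁ I₂ η₁ η₂} (F₁ : PP 𝓔 𝒯 (b := some B) T₁ I₁ η₁) (F₂ : PP 𝓔 𝒯 (a := some B) T₂ I₂ η₂)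
    (r : JJ g I₁ I₂ → JJ g I₁ I₂) : Type 1 where
  τ : MT κ0 T.X
  t : CT (𝓔.go a) (𝓔.q B).g (𝓔.go c) g F₁.τ F₂.τ τ
  Λ : t.γ.LR
  βp : MB τ 0
  βH : MB τ 1
  βγ : MB τ 1
  gb : t.γ.GB βH F₁.β F₂.β 0 e0 e0
  gf : ∀ u, t.γ.GF βH F₁.β F₂.β 0 e0 e0 u
  ep : βp.e 0 = βH.e 0
  bl : Bl μ0 βp βp ρ.toDif βγ
  p : PF 𝒯 (𝓔.en a) (𝓔.en c) none βp (JJ g I₁ I₂)
  H : RF mk 𝒯 βH (JJ g I₁ I₂)
  γ : IF p r ρ.toDif βγ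
  hd : ∀ x, p.d x = x.j ∧ H.d x = x.j
  lb : p.Lb T
  pM : ∀ x, (p.c x).toMM = (H.c x).toMM
  gm : ∀ x, t.γ.GM (H.c x).toMM (F₁.F.c x.d₁).toMM (F₂.F.c x.d₂).toMM
  fo : ∀ x, (∀ u, (p.c x).fo u = (1 / 2 : ℝ) • η x.j) ∧ ∀ u, (H.c x).fo u = (1 / 2 : ℝ) • η x.j
  h0 : ∀ x, FcM (H.c x) (p.c x) 0 0 e0 (.refl _)
  hw : ∀ x, WlM t.γ Λ (H.c x) (F₁.F.c x.d₁) (F₂.F.c x.d₂) 0 e0 e0
  prp : p.Prp id 0 ∧ H.Prp id 0 ∧ γ.Prp id 0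

/-- **the base of a pentagon** -/
structure BD {𝓔 : Ends mk} (D : CapD 𝓔 G) : Type 1 where
  F1 : PP 𝓔 (𝓔.TP G a B C) (b := some B) P.X1 P.I1 P.η1
  F2 : PP 𝓔 (𝓔.TP G a B C) (a := some B) (b := some C) P.X2 P.I2 P.η2
  F3 : PP 𝓔 (𝓔.TP G a B C) (a := some C) P.X3 P.I3 P.η3
  L : LP 𝓔 P
  D0 : DD (c := some C) P.g12 P.ρ12 P.η12 F1 F2 (rj0 P)
  D1 : DD (a := some B) P.g23 P.ρ23 P.η23 F2 F3 (rj1 P)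

variable {P} {𝓔 : Ends mk} {D : CapD 𝓔 G}

/-- **the double wall** `Q`, its facets `A`, `B` and the points `P` -/
structure QD (Z : BD P D) : Type 1 where
  τ : MT κ0 P.X.X
  tC : CT (𝓔.go a) (𝓔.q C).g (𝓔.go a) P.gC Z.D0.τ Z.F3.τ τ
  tB : CT (𝓔.go a) (𝓔.q B).g (𝓔.go a) P.gB Z.F1.τ Z.D1.τ τ
  ΛC : tC.γ.LR
  ΛB : tB.γ.LR
  βQ : MB τ 2
  βA : MB τ 1
  βB : MB τ 1
  βP : MB τ 0
  gA : tB.γ.GB βA Z.F1.β Z.D1.βp 0 e0 e0 ∧ ∀ u, tB.γ.GF βA Z.F1.β Z.D1.βp 0 e0 e0 u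
  gB : tC.γ.GB βB Z.D0.βp Z.F3.β 0 e0 e0 ∧ ∀ u, tC.γ.GF βB Z.D0.βp Z.F3.β 0 e0 e0 u
  ep : βP.e 0 = βA.e 0 ∧ βP.e 0 = βB.e 0
  cQ : RF mk (𝓔.TP G a B C) βQ (PM P)
  cA : RF mk (𝓔.TP G a B C) βA (PM P)
  cB : RF mk (𝓔.TP G a B C) βB (PM P)
  cP : PF (𝓔.TP G a B C) (𝓔.en a) (𝓔.en a) none βP (PM P)
  hd : ∀ θ, cP.d θ = θ.k ∧ cA.d θ = θ.k ∧ cB.d θ = θ.k
  lb : cP.Lb P.X
  gmA : ∀ θ, tB.γ.GM (cA.c θ).toMM (Z.F1.F.c θ.d1).toMM (Z.D1.p.c θ.j1).toMM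
  gmB : ∀ θ, tC.γ.GM (cB.c θ).toMM (Z.D0.p.c θ.j0).toMM (Z.F3.F.c θ.d3).toMM
  fo : ∀ θ, (∀ u, (cP.c θ).fo u = (1 / 2 : ℝ) • P.η θ.k) ∧ (∀ u, (cA.c θ).fo u = (1 / 2 : ℝ) • P.η θ.k) ∧
    ∀ u, (cB.c θ).fo u = (1 / 2 : ℝ) • P.η θ.k
  a0 : ∀ θ, FcM (cA.c θ) (cP.c θ) 0 0 e0 (.refl _)
  aw : ∀ θ, WlM tB.γ ΛB (cA.c θ) (Z.F1.F.c θ.d1) (Z.D1.p.c θ.j1) 0 e0 e0
  b0 : ∀ θ, FcM (cB.c θ) (cP.c θ) 0 0 e0 (.refl _)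
  bw : ∀ θ, WlM tC.γ ΛC (cB.c θ) (Z.D0.p.c θ.j0) (Z.F3.F.c θ.d3) 0 e0 e0
  q0 : ∀ θ, FcM (cQ.c θ) (cB.c θ) 0 0 ![1] (.refl _)
  qB : ∀ θ, WlM tB.γ ΛB (cQ.c θ) (Z.F1.F.c θ.d1) (Z.D1.H.c θ.j1) 0 e0 ![1]
  q1 : ∀ θ, FcM (cQ.c θ) (cA.c θ) 1 0 ![0] (.refl _)
  qC : ∀ θ, WlM tC.γ ΛC (cQ.c θ) (Z.D0.H.c θ.j0) (Z.F3.F.c θ.d3) 1 ![0] e0
  ll : ∀ v ≥ 3, ∀ w ≥ 3, Same (ΛB.l v) ((Z.D0.Λ.l v).trans (ΛC.l w))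
  lr : ∀ v ≥ 3, ∀ w ≥ 3, Same ((Z.D1.Λ.l w).trans (ΛB.r v)) ((Z.D0.Λ.r v).trans (ΛC.l w))
  rr : ∀ v ≥ 3, ∀ w ≥ 3, Same ((Z.D1.Λ.r w).trans (ΛB.r v)) (ΛC.r w)
  prp : cQ.Prp id 0 ∧ cA.Prp id 0 ∧ cB.Prp id 0

variable {Z : BD P D}

/-- **the reflection paths** -/
structure GD (Q : QD Z) : Type 1 where
  β : Bool → MB Q.τ 1
  bl : ∀ b, Bl μ0 Q.βP Q.βP (P.ρ b).toDif (β b)
  Γ : ∀ b, IF Q.cP (·.rs b) (P.ρ b).toDif (β b)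
  prp : ∀ b, (Γ b).Prp id 0

variable {Q : QD Z}

/-- **the squares at the necks** -/
structure SD (Γ : GD Q) : Type 1 where
  β1 : MB Q.τ 2
  β2 : MB Q.τ 2
  S1 : RF mk (𝓔.TP G a B C) β1 (PM P)
  S2 : RF mk (𝓔.TP G a B C) β2 (PM P)
  q1 : ∀ θ, SqM (S1.c θ) (Q.cB.c θ) (Q.cB.c (θ.rs false)) ((Γ.Γ false).c θ) (P.ρ false).toDif
  w1 : ∀ θ, WlM Q.tC.γ Q.ΛC (S1.c θ) (Z.D0.γ.c θ.j0) (Z.F3.F.c θ.d3) 1 ![0] e0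
  q2 : ∀ θ, SqM (S2.c θ) (Q.cA.c θ) (Q.cA.c (θ.rs true)) ((Γ.Γ true).c θ) (P.ρ true).toDif
  w2 : ∀ θ, WlM Q.tB.γ Q.ΛB (S2.c θ) (Z.F1.F.c θ.d1) (Z.D1.γ.c θ.j1) 1 e0 ![0]
  r1 : Q.ΛC.Rf (P.ρ false).φ.symm P.ρ12.φ.symm id
  r2 : Q.ΛB.Rf (P.ρ true).φ.symm id P.ρ23.φ.symm
  prp : S1.Prp id 0 ∧ S2.Prp id 0

/-- **the cells at the cap `N`** -/
structure RD (Γ : GD Q) : Type 1 where
  τ : MT κ0 P.X.X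
  t : PT (𝓔.go a) (𝓔.r G).g (𝓔.go a) P.gN Z.L.τ D.τN τ
  Λ : t.γ.LR
  βρ : MB τ 1
  βR : Bool → MB τ 2
  n : PM P → ℤ
  ρ : RF mk (𝓔.TP G a B C) βρ (PM P)
  R : ∀ b, RF mk (𝓔.TP G a B C) (βR b) (PM P)
  r0 : ∀ θ, FcM (ρ.c θ) (Q.cP.c θ) 0 0 e0 (.refl _)
  rw : ∀ θ, WlM t.γ Λ (ρ.c θ) ((Z.L.F θ.s).c θ.l) ((D.N θ.s).c (θ.x, n θ)) 0 e0 e0
  q : ∀ b θ, SqM ((R b).c θ) (ρ.c θ) (ρ.c (θ.rs b)) ((Γ.Γ b).c θ) (P.ρ b).toDif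
  w : ∀ b θ, WlM t.γ Λ ((R b).c θ) ((Z.L.F θ.s).c θ.l) ((D.I b θ.s).c (θ.x, n θ)) 1 e0 ![0]
  rf : ∀ b, Λ.Rf (P.ρ b).φ.symm id (G.ρ b).φ.symm
  inj : ∀ θ θ' : PM P, θ.l.1 = θ'.l.1 → θ.x.1 = θ'.x.1 → n θ = n θ' → θ = θ'
  sur : ∀ l ∈ P.IL, ∀ x ∈ P.IN, G.N.ki.Cl x G.c0 → ∀ m, ∃ θ : PM P, θ.l.1 = l ∧ θ.x.1 = x ∧ n θ = m
  prp : ρ.Prp id 0 ∧ ∀ b, (R b).Prp id 0

/-- **the cells at the cap `B`** -/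
structure KD (Z : BD P D) : Type 1 where
  τ : MT κ0 P.X0.X
  t : PT (𝓔.go a) (𝓔.r G).g (𝓔.go a) P.g0 Z.L.τ D.τB τ
  Λ : t.γ.LR
  βκ : MB τ 1
  βι : MB τ 0
  κ : RF mk (𝓔.TP G a B C) βκ P.IL
  ι : PF (𝓔.TP G a B C) (𝓔.en a) (𝓔.en a) none βι P.IL
  lb : ι.Lb P.X0
  rl : ∀ l, P.g0.Rl (ι.d l) l
  fo : ∀ l, (ι.c l).fo 0 = (1 / 2 : ℝ) • P.η0 (ι.d l)
  k0 : ∀ l, FcM (κ.c l) (ι.c l) 0 0 e0 (.refl _)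
  kw : ∀ l, WlM t.γ Λ (κ.c l) ((Z.L.F G.c0).c ⟨l, P.clL _ l.2, fun _ => l.2⟩) (D.B.c ()) 0 e0 e0

/-! ### the leaves -/

/-- P-BW -/
def BwStmt : Prop := ∀ {X : M4} {τ τ' : MT κ0 X} {k k'} (β₀ : MB τ k) (β' : MB τ' k') a (ι : Fin k' → Fin k)
  r, EI τ' τ id r → (∀ c, β'.wl c = none) → (∀ c ≠ a, β₀.wl c = none) → (∀ c, ι c ≠ a) →
  ∃ β, Bw β₀ β' a ι β ∧ ∀ (c₀ : MC μ0 β₀) (c' : MC μ0 β'), ∃ c : MC μ0 β, BwC c₀ c' a ι c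

variable (mk) in
/-- P-FM: roots -/
def FmStmt : Prop := ∀ {X : M4} {τ : MT κ0 X} {k} {β : MB τ k} {𝒯 I} (F : FM 𝒯 β I) (S : I → Set X.Fm),
  TS mk 𝒯 → k ≤ 2 → τ.nc = 0 → (τ.p3 ≠ none → k = 0) → (∀ i, ∀ j ∈ τ.pout, ((F.c i).ec j).kd = .qhs) →
  ((∀ i, ∀ j ∈ τ.pin, ((F.c i).ec j).kd = .qhs) ∨ (τ.pout = none ∧ τ.p3 = none ∧ ∀ a, β.wl a = none)) →
  (∀ i a, ∀ j ∈ β.wl a, ((F.c i).ec j).kd ≠ .qhs → ∀ ens C, ((F.c i).gc ens C).Hol j) →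
  (∀ i, ∀ j ∈ τ.p3, ((F.c i).ec j).kd = .tor → ∀ ens C, ∃ e : (β.bs (μ := μ0) ens C).Tf, e.r j = 1) →
  (⋃ i, S i).Finite → (∀ i, Hl (F.c i) (S i)) →
  (τ.pin = none → ∀ i, (∀ f ∈ convexHull ℝ (S i), X.Ps (F.d i) ((2 : ℝ) • f)) ∧
    ∀ j, β.Act j → ((F.c i).ec j).kd = .tor → ∃ s, (τ.nb j).n.Cl (F.d i) s ∧ Tor s) →
  ∃ R : RF mk 𝒯 β I, R.toFM = F

variable (mk) in
/-- P-TS -/
def TsStmt : Prop := ∀ (𝓔 : Ends mk) G (S : Set Q3), S.Finite → TS mk (𝓔.TT G S)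

variable (mk) in
/-- P-PRP -/
def PrpStmt : Prop := ∀ {a b : Option Q3} (T : Pm (vo a) (vo b) none) {τ : MT κ0 T.X} {ga gb k}
  {β : MB τ k} {𝒯 I} (F : RF mk 𝒯 β I), OnP T τ ga gb () → (∀ c, ∀ i ∈ β.wl c, (τ.nb i).e.H2) →
  Injective F.d → F.Prp id 0

/-- P-LRF -/
def LrfStmt : Prop := ∀ {X X₁ X₂ : M4} {τ : MT κ0 X} {τ₁ : MT κ0 X₁} {τ₂ : MT κ0 X₂} (γ : TG τ τ₁ τ₂)
  (Λ : γ.LR) (φ : X.Dif X) (φ₁ : X₁.Dif X₁) (φ₂ : X₂.Dif X₂), γ.g.Mp φ.φ φ₁.φ φ₂.φ →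
  (∀ p, 0 < γ.k₁.tm p → φ₁.φ p = p) → (∀ p, γ.k₂.tm p < 0 → φ₂.φ p = p) →
  γ.g.Mp φ.φ.symm φ₁.φ.symm φ₂.φ.symm ∧ Λ.Rf φ.φ.symm φ₁.φ.symm φ₂.φ.symm

section
variable (Z : PG0 G a B C) {ga : EO κ0 (vo a)} {gB : EO κ0 (some B.toO3)} {gC : EO κ0 (some C.toO3)}
  {τ1 τ2 τ3 τ12 τ23} (c12 : CT ga gB gC Z.g12 τ1 τ2 τ12) (c23 : CT gB gC ga Z.g23 τ2 τ3 τ23)

/-- associativity -/
structure As {τ} (cC : CT ga gC ga Z.gC τ12 τ3 τ) (cB : CT ga gB ga Z.gB τ1 τ23 τ) : Prop where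
  r₁ : cC.γ.r₁ c12.i cB.i
  r₂ : cB.γ.r₂ c23.i cC.i
  b : ∀ {β1 : MB τ1 0} {β2 : MB τ2 0} {β3 : MB τ3 0} {βH βH' βQ}, c12.γ.GB βH β1 β2 0 e0 e0 →
    (∀ u, c12.γ.GF βH β1 β2 0 e0 e0 u) → c23.γ.GB βH' β2 β3 0 e0 e0 → (∀ u, c23.γ.GF βH' β2 β3 0 e0 e0 u) →
    cC.γ.GB βQ βH β3 (1 : Fin 2) ![0] e0 → (∀ u, cC.γ.GF βQ βH β3 (1 : Fin 2) ![0] e0 u) →
    cB.γ.GB βQ β1 βH' 0 e0 ![1] ∧ ∀ u, cB.γ.GF βQ β1 βH' 0 e0 ![1] u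
  m : ∀ {M1 M2 M3 M12 M23} {M : MM μ0 τ}, c12.γ.GM M12 M1 M2 → c23.γ.GM M23 M2 M3 → cC.γ.GM M M12 M3 →
    cB.γ.GM M M1 M23
  f : ∀ {f1 f2 f3 f12 f23 f}, Z.g12.Fm f12 f1 f2 → Z.g23.Fm f23 f2 f3 → Z.gC.Fm f f12 f3 → Z.gB.Fm f f1 f23
  s : ∀ (Λ12 : c12.γ.LR) (Λ23 : c23.γ.LR) (ΛC : cC.γ.LR) (ΛB : cB.γ.LR), ∀ v ≥ 3, ∀ w ≥ 3,
    Same (ΛB.l v) ((Λ12.l v).trans (ΛC.l w)) ∧ Same ((Λ23.l w).trans (ΛB.r v)) ((Λ12.r v).trans (ΛC.l w)) ∧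
      Same ((Λ23.r w).trans (ΛB.r v)) (ΛC.r w)

end

/-- P-AS -/
def AsStmt : Prop := ∀ {G a B C} (Z : PG0 G a B C) {ga gB gC τ1 τ2 τ3 τ12 τ23}
  (c12 : CT ga gB gC Z.g12 τ1 τ2 τ12) (c23 : CT gB gC ga Z.g23 τ2 τ3 τ23), ga.Std →
  (∀ i, (τ1.nb i).s ≠ none) → (∀ i, (τ2.nb i).s ≠ none) → (∀ i, (τ3.nb i).s ≠ none) →
  ∃ τ cC cB, As Z c12 c23 (τ := τ) cC cB

variable (mk) in
/-- the generic leaves -/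
structure Gn : Prop where
  lf : Lf
  lv : Lvs
  bw : BwStmt
  fm : FmStmt mk
  ts : TsStmt mk
  prp : PrpStmt mk
  lrf : LrfStmt
  as : AsStmt

variable (mk)

/-- P-CAP -/
def CapStmt : Prop := Gn mk → ∀ (𝓔 : Ends mk) G, Nonempty (CapD 𝓔 G)

/-- P-PP -/
def PpStmt : Prop := Gn mk → ∀ (𝓔 : Ends mk) G (S : Set Q3) {a b : Option Q3} (T : Pm (vo a) (vo b) none)
  I η, S.Finite → (∀ A ∈ a, A ∈ S) → (∀ A ∈ b, A ∈ S) → T.nb = 0 → (∀ d, T.Fo (η d)) → (range η).Finite →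
  (a = none → ∀ d ∈ I, T.X.Ps d (η d)) → Nonempty (PP 𝓔 (𝓔.TT G S) T I η)

/-- P-LP -/
def LpStmt : Prop := Gn mk → ∀ (𝓔 : Ends mk) {G a B C} (P : PG G a B C), Nonempty (LP 𝓔 P)

/-- P-DD -/
def DdStmt : Prop := Gn mk → ∀ {𝓔 : Ends mk} {𝒯} {a c : Option Q3} {B : Q3}
  {T₁ : Pm (vo a) (some B.toO3) none} {T₂ : Pm (some B.toO3) (vo c) none} {T : Pm (vo a) (vo c) none}
  (g : Cm T₁ T₂ T) (ρ : Rf T) (η : T.L → T.Fm) {I₁ I₂ η₁ η₂} (F₁ : PP 𝓔 𝒯 (b := some B) T₁ I₁ η₁)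
  (F₂ : PP 𝓔 𝒯 (a := some B) T₂ I₂ η₂) (r : JJ g I₁ I₂ → JJ g I₁ I₂), TS mk 𝒯 → T.nb = 0 →
  (∀ x, (r x).j = ρ.r x.j) → (range η₁).Finite → (range η₂).Finite →
  (∀ x : JJ g I₁ I₂, g.Fm (η x.j) (η₁ x.d₁) (η₂ x.d₂)) →
  (a = none → ∀ x : JJ g I₁ I₂, T.X.Seg x.j (η x.j) (ρ.fm η x.j)) → Nonempty (DD g ρ η F₁ F₂ r)

/-- P-QD -/
def QdStmt : Prop := Gn mk → ∀ {𝓔 : Ends mk} {G a B C} {P : PG G a B C} {D : CapD 𝓔 G}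
  (Z : BD P D), Nonempty (QD Z)

/-- P-GD -/
def GdStmt : Prop := Gn mk → ∀ {𝓔 : Ends mk} {G a B C} {P : PG G a B C} {D : CapD 𝓔 G}
  {Z : BD P D} (Q : QD Z),
  Nonempty (GD Q)

/-- P-SD -/
def SdStmt : Prop := Gn mk → ∀ {𝓔 : Ends mk} {G a B C} {P : PG G a B C} {D : CapD 𝓔 G}
  {Z : BD P D} {Q : QD Z} (Γ : GD Q),
  Nonempty (SD Γ)

/-- P-RD -/
def RdStmt : Prop := Gn mk → ∀ {𝓔 : Ends mk} {G a B C} {P : PG G a B C} {D : CapD 𝓔 G}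
  {Z : BD P D} {Q : QD Z} (Γ : GD Q),
  Nonempty (RD Γ)

/-- P-KD -/
def KdStmt : Prop := Gn mk → ∀ {𝓔 : Ends mk} {G a B C} {P : PG G a B C} {D : CapD 𝓔 G}
  (Z : BD P D), Nonempty (KD Z)

/-- P-MK -/
def MkStmt : Prop := Gn mk → Marks mk → ∀ {𝓔 : Ends mk} {G a B C} {P : PG G a B C} {D : CapD 𝓔 G}
  {Z : BD P D} {Q : QD Z}
  (Γ : GD Q) cap b θ, Mrk (𝓔.pre cap) P b θ.k ((Γ.Γ b).itv θ).cell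

/-- P-ASM -/
def AsmStmt : Prop := Gn mk → ∀ (𝓔 : Ends mk) (D : ∀ G, CapD 𝓔 G), ∃ cap, ∀ {G a B C} {P : PG G a B C}
  {Z : BD P (D G)} {Q : QD Z} (Γ : GD Q), SD Γ → RD Γ → KD Z →
  (∀ b θ, Mrk (𝓔.pre cap) P b θ.k ((Γ.Γ b).itv θ).cell) → ∀ T : P.I1 → P.I2 → P.I3 → Prop,
  (∀ d₁ d₂ d₃, T d₁ d₂ d₃ ↔ P.T d₁ d₂ d₃) → Nonempty (PO (𝓔.pre cap) P T)

variable {mk}

theorem tp_fin (a : Option Q3) (B C : Q3) : {A | A = B ∨ A = C ∨ a = some A}.Finite :=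
  (((finite_singleton B).union (finite_singleton C)).union (s := {B} ∪ {C}) (t := {A | a = some A})
    (Set.Subsingleton.finite fun _ h _ h' => Option.some.inj (h.symm.trans h'))).subset
    fun _ h => h.elim (fun h => .inl (.inl h)) fun h => h.elim (fun h => .inl (.inr h)) .inr

theorem nb0 (P : PG0 G a B C) : P.X.nb = 0 ∧ P.X12.nb = 0 ∧ P.X23.nb = 0 ∧ P.X1.nb = 0 ∧ P.X2.nb = 0 ∧
    P.X3.nb = 0 := by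
  have := P.gN.nT
  have := P.gC.nb
  have := P.gB.nb
  have := P.g12.nb
  omega

/-- **the pentagons** -/
theorem pen (g : Gn mk) (m : Marks mk) (cap : CapStmt mk) (pp : PpStmt mk) (lp : LpStmt mk) (dd : DdStmt mk)
    (qd : QdStmt mk) (gd : GdStmt mk) (sd : SdStmt mk) (rd : RdStmt mk) (kd : KdStmt mk) (mr : MkStmt mk)
    (as : AsmStmt mk) : PenStmt mk := fun 𝓔 => by
  obtain ⟨D⟩ := Classical.nonempty_pi.2 (cap g 𝓔)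
  obtain ⟨c, h⟩ := as g 𝓔 D
  refine ⟨c, fun G a B C P => ?_⟩
  have f := tp_fin a B C
  have n := nb0 P.toPG0
  obtain ⟨F1⟩ := pp g 𝓔 G _ (b := some B) P.X1 P.I1 P.η1 f (fun _ e => .inr (.inr e))
    (fun _ e => .inl (Option.some.inj e).symm) n.2.2.2.1 P.fo.1 P.fin.1 P.p1
  obtain ⟨F2⟩ := pp g 𝓔 G _ (a := some B) (b := some C) P.X2 P.I2 P.η2 f
    (fun _ e => .inl (Option.some.inj e).symm) (fun _ e => .inr (.inl (Option.some.inj e).symm))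
    n.2.2.2.2.1 P.fo.2.1 P.fin.2.1 nofun
  obtain ⟨F3⟩ := pp g 𝓔 G _ (a := some C) P.X3 P.I3 P.η3 f (fun _ e => .inr (.inl (Option.some.inj e).symm))
    (fun _ e => .inr (.inr e)) n.2.2.2.2.2 P.fo.2.2.1 P.fin.2.2.1 nofun
  obtain ⟨L⟩ := lp g 𝓔 P
  obtain ⟨D0⟩ := dd g (c := some C) P.g12 P.ρ12 P.η12 F1 F2 (rj0 P) (g.ts _ _ _ f) n.2.1 (rj0_j P) P.fin.1
    P.fin.2.1 (fun x => P.e12 _ _ _ x.l x.r) fun e x => P.p12 e _ _ _ x.l x.r x.d₁.2 x.d₂.2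
  obtain ⟨D1⟩ := dd g (a := some B) P.g23 P.ρ23 P.η23 F2 F3 (rj1 P) (g.ts _ _ _ f) n.2.2.1 (rj1_j P) P.fin.2.1
    P.fin.2.2.1 (fun x => P.e23 _ _ _ x.l x.r) nofun
  let Z : BD P (D G) := ⟨F1, F2, F3, L, D0, D1⟩
  obtain ⟨Q⟩ := qd g Z
  obtain ⟨Γ⟩ := gd g Q
  obtain ⟨S⟩ := sd g Γ
  obtain ⟨R⟩ := rd g Γ
  obtain ⟨K⟩ := kd g Z
  exact h Γ S R K (mr g m Γ c)

end Crest.Agent.X212.Sw87.Mo
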