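import Crest.Agent.X212.Sw87.MoX

/-!
# Row 212, GEO engine (helper87), part R: the cells at the cap `N`
-/

set_option autoImplicit false
set_option linter.unusedSectionVars false
noncomputable section
open scoped Manifold ContDiff Topology InnerProductSpace
open MeasureTheory Set Function Filter

namespace Crest.Agent.X212.Sw87.Mo
open An Cyf70 Sw Flo2 Geo28 Met55 Pen22
open Bor5.T (O3 Q3 Pb Cur)
open Dr59 (Cs pm mf HZ)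
open Mv17 (clsStmt)

variable {mk : Mk κ0 L0 ν0} {G : CG} {a : Option Q3} {B C : Q3} {P : PG G a B C} {𝓔 : Ends mk}
  {D : CapD 𝓔 G} {Z : BD P D} {Q : QD Z}

theorem LP.ext (L : LP 𝓔 P) {j₁} (h : L.τ.p3 = some j₁) : Ext2 (A := G.R.toO3) P.L.k3
    {x | ∃ j ≠ j₁, (L.τ.nb j).s ≠ none ∧ x ∈ (L.τ.nb j).k.target} := by
  obtain ⟨e, h1, h2, h3⟩ := P.ext
  refine ⟨e, h1, fun p ⟨j, ne, s, m⟩ => h2 p ?_, h3⟩
  rcases L.τ.port s with k | k | k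
  · obtain ⟨k1, k2, -⟩ := EO.mem (L.o.pin.symm.trans (congrArg _ k))
    exact .inl (k2 ▸ (NB.mem_tgt k1).1 m)
  · obtain ⟨k1, k2, -⟩ := EO.mem (L.o.pout.symm.trans (congrArg _ k))
    exact .inr (k2 ▸ (NB.mem_tgt k1).1 m)
  · exact (ne (Option.some.inj (k.symm.trans h))).elim

theorem LP.ty (L : LP 𝓔 P) {j} (h : L.τ.p3 = some j) (s l) : ((L.F s).c l).ty j = 𝓔.rty G s :=
  Option.some.inj (((congrArg _ h).symm.trans ((L.F s).hu l)).trans (congrArg _ (L.hu s l)))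

theorem LP.cl (L : LP 𝓔 P) (s l) : ((L.F s).c l).Cl l.1 := L.hd s l ▸ (L.F s).cl l

theorem CapD.ty (D : CapD 𝓔 G) {j} (h : D.τN.pin = some j) (s p) : ((D.N s).c p).ty j = 𝓔.rty G s :=
  Option.some.inj (((congrArg _ h).symm.trans ((D.N s).hs p)).trans (congrArg _ (D.Ns s p)))

theorem CapD.cl (D : CapD 𝓔 G) (s p) : ((D.N s).c p).Cl p.1.1 := D.Nd s p ▸ (D.N s).cl p

theorem Ends.TT_mono {S S' : Set Q3} (h : S ⊆ S') : 𝓔.TT G S ⊆ 𝓔.TT G S' :=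
  fun _ k => k.imp_left fun ⟨A, e, k⟩ => ⟨A, h e, k⟩

theorem hull_sT {X : M4} {S : Set X.Fm} {f f' : X.Fm} (h : f ∈ convexHull ℝ S) (h' : f' ∈ convexHull ℝ S)
    (x : ℝ) : sT x • f + (1 - sT x) • f' ∈ convexHull ℝ S :=
  convex_convexHull ℝ S h h' (Real.smoothTransition.nonneg _) (sub_nonneg.2 (Real.smoothTransition.le_one _))
    (add_sub_cancel _ _)

/-- **P-RD** -/
theorem rdStmt : RdStmt mk := fun g 𝓔 G a B C P D Z Q Γ => by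
  have H := g.lf
  obtain ⟨τ, ι, o, hι, sj⟩ := exists_mt P.X (𝓔.go a) (𝓔.go a) () (Ends.go_std a) (Ends.go_std a) trivial
    (fun _ : Unit => ⟨(𝓔.r G).g.et, none, P.gN.n⟩) (fun _ => rfl) (fun _ => (𝓔.r G).std)
    Subsingleton.pairwise (fun _ => Cp3.core P.gN) fun j => (j.cast P.gN.nT).elim0
  let t : PT (𝓔.go a) (𝓔.r G).g (𝓔.go a) P.gN Z.L.τ D.τN τ :=
    ⟨Z.L.o, D.oN, D.nN, o, ι (), hι (), fun i k => (sj i k).choose_spec⟩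
  obtain ⟨Λ⟩ := H.lr t.γ
  have n : τ.nc = 0 := o.nc.trans P.gN.nT
  have E := ei_iso o Q.tC.o (isoId _)
  have j₁ : Z.L.τ.p3 = some t.γ.j₁ := t.γ.port.1
  have j₂ : D.τN.pin = some t.γ.j₂ := (D.τN.inn _).1 t.γ.s_2
  obtain ⟨w₀, b, f⟩ := H.glu.b t.γ Z.L.β D.βN (0 : Fin 1) _ _ bij0 (fun a => a.elim0) fun a => a.elim0
  have z : ∀ c ≠ (0 : Fin 1), w₀.wl c = none := fun c e => (e (Subsingleton.elim _ _)).elim
  obtain ⟨βρ, Bρ, hρ⟩ := g.bw w₀ Q.βP 0 e0 _ E (fun c => c.elim0) z fun c => c.elim0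
  choose c M Cc using fun s l p => H.glu.c t.γ _ _ _ ((Z.L.F s).c l) ((D.N s).c p) b f
    ((Z.L.ty j₁ s l).trans (D.ty j₂ s p).symm)
  have ti : ∀ s l p, (c s l p).ty t.γ.i = 𝓔.rty G s := fun s l p => (M s l p).t₁.symm.trans (Z.L.ty j₁ s l)
  have tw := fun s l (x : XS G s) d => H.tw t.γ (fun n => c s l (x, n)) _ (fun n => (D.N s).c (x, n)) d _ _ (f 0)
    (fun _ => M _ _ _) (D.tw s x _ j₂) (lgE (((Z.L.F s).ro l).en _)) (Z.L.cl s l) (D.cl s (x, 0))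
  choose n₀ cl using fun θ : PM P => (tw θ.s θ.l θ.x θ.k θ.lN θ.rN).1
  have tr : ∀ {s s'} {l : LS P s} {l' : LS P s'} {x : XS G s} {x' : XS G s'} {m k}, l.1 = l'.1 → x.1 = x'.1 →
      (c s l (x, m)).Cl k → (c s' l' (x', m)).Cl k := by
    rintro s s' ⟨l, ⟨h, _⟩⟩ ⟨_, ⟨h', _⟩⟩ ⟨x, _⟩ ⟨_, _⟩ m k ⟨⟩ ⟨⟩
    cases (jk_cl (s := some true) P.L.k3 l).unique h h'
    exact id
  have fm : ∀ (θ : PM P) p u, t.γ.g.Fm ((c θ.s θ.l p).fo u) (((Z.L.F θ.s).c θ.l).fo 0) (((D.N θ.s).c p).fo 0) :=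
    fun θ p u => by simpa only [t0 (u ∘ _)] using (Cc θ.s θ.l p u).fo
  have fN : ∀ (θ : PM P) {f}, t.γ.g.Fm f (((Z.L.F θ.s).c θ.l).fo 0) 0 → f = (1 / 2 : ℝ) • P.ηN θ.k :=
    fun θ f k => H.cgl.fm _ _ _ _ _ k (by
      have := fm_smul (P.eN _ _ θ.lN) (1 / 2)
      rw [smul_zero, ← Z.L.fo _ _ 0] at this
      exact this)
  have pe : ∀ (θ : PM P) p, Pe (Q.cP.c θ).toMM (c θ.s θ.l p).toMM := by
    rintro θ p (_ | _ | _)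
    · exact (congrArg _ Q.tC.γ.p3.2).trans (congrArg (Option.map (c θ.s θ.l p).ty) t.γ.p3.2).symm
    · obtain ⟨s, k⟩ := ex_cl (s := false) P.L.ki θ.l.1
      refine (Q.cP.hs θ).trans (.trans ?_ (((Z.L.F _).hs _).symm.trans (rel_map (M _ _ _).r₁ t.γ.pin)))
      exact congrArg _ (((Q.lb θ).1 s ((Q.hd θ).1 ▸ (cl_i P.gN.ki P.gN.l.open_source (fun p k =>
        (mem_l P.gN.toGl3).2 ((P.L.i3 p k).trans_lt four_pos)) θ.lN s).1 k)).uq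
          ((Z.L.lb _ _).1 s (Z.L.hd _ _ ▸ k)))
    · obtain ⟨s, k⟩ := ex_cl (s := true) P.L.ko θ.l.1
      refine (Q.cP.ht θ).trans (.trans ?_ (((Z.L.F _).ht _).symm.trans (rel_map (M _ _ _).r₁ t.γ.port.2.1)))
      exact congrArg _ (((Q.lb θ).2 s ((Q.hd θ).1 ▸ (cl_o P.gN.ko P.gN.l.open_source (fun p k =>
        (mem_l P.gN.toGl3).2 ((P.L.o3 p k).trans_lt four_pos)) θ.lN s).1 k)).uq
          ((Z.L.lb _ _).2 s (Z.L.hd _ _ ▸ k)))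
  have mc := fun s l p => TG.GC.mc0 (Cc s l p) ((Z.L.F s).mc l) ((D.N s).mc p)
  have ty := fun s l p => (M s l p).all (p := (· ∈ 𝓔.TP G a B C)) ((Z.L.F s).ty l)
    fun j => Ends.TT_mono (empty_subset _) ((D.N s).ty p j)
  have ts := g.ts 𝓔 G _ (tp_fin a B C)
  choose ρ hρ using fun θ : PM P => hρ (c θ.s θ.l (θ.x, n₀ θ)) (Q.cP.c θ)
  have W : ∀ θ, Wc mk t.γ w₀ (ρ θ) (Q.cP.c θ) ((Z.L.F θ.s).c θ.l) ((D.N θ.s).c (θ.x, n₀ θ)) θ.k := fun θ =>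
    ⟨⟨_, hρ θ, cl θ, fm θ _⟩, (hρ θ).mc (mc ..), (hρ θ).M ▸ M .., (hρ θ).M ▸ pe θ _, Q.pk θ,
      fun i => (hρ θ).M ▸ ts.ok _ (ty _ _ _ i), nofun⟩
  have kρ := fun θ => bwc H Λ E n b f Bρ (fun c => c.elim0) z (fun c => c.elim0) (fun c => c.elim0) (M ..)
    (fun u => (Cc _ _ _ u).fo) (hρ θ) (cl θ) (Q.cl θ) (mc ..) (Q.cP.mc θ) ((Z.L.F _).mc _) ((D.N _).mc _)
    (pe θ _) (Q.pk θ) nofun
  have fρ : ∀ θ u, (c (PM.s θ) θ.l (θ.x, n₀ θ)).fo u = (1 / 2 : ℝ) • P.ηN θ.k := fun θ u =>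
    fN θ (by simpa [D.Nf] using fm θ (θ.x, n₀ θ) u)
  have fam : ∀ {k} {β : MB τ k}, k ≤ 2 → (∀ a, ∀ i ∈ β.wl a, i = t.γ.i) → ∀ b {p : PM P → MC μ0 β → Prop},
      (∀ θ, ∃ c : MC μ0 β, c.toMM = (ρ θ).toMM ∧ c.Cl θ.k ∧ c.mc = 0 ∧
        (∀ u, c.fo u ∈ convexHull ℝ (tri P b θ.k)) ∧ p θ c) →
      ∃ R : RF mk (𝓔.TP G a B C) β (PM P), (∀ θ, p θ (R.c θ)) ∧ R.Prp id 0 := fun k2 wl b p h => by
    choose c' M' cl' mc' fo hp using h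
    have e := fun θ => (M' θ).trans (hρ θ).M
    obtain ⟨R, e, k⟩ := fmX g o k2 ⟨c', _, cl', mc', fun θ j => e θ ▸ ty _ _ _ j⟩ (fun _ => rfl) b _
      (fun _ => Subset.rfl) (fun θ => ⟨((finite_singleton _).insert _).insert _, by
        rintro _ (rfl | rfl | rfl)
        exacts [(Γ.hl b θ).1 _ (.inl rfl), (Γ.hl b θ).1 _ (.inr rfl), fρ θ 0 ▸ (c ..).cs 0], fun u _ => fo θ u⟩)
      (fun θ => M' θ ▸ (W θ).pe.pk (W θ).pk (W θ).ok) (fun a j e => wl a j e ▸ t.γ.h ▸ (𝓔.r G).h2)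
      fun θ a j k _ => by
        have y : (c' θ).ty t.γ.i = 𝓔.rty G θ.s := (congrArg (MM.ty · _) (e θ)).trans (ti ..)
        rw [wl a j k]
        exact ⟨fun _ _ => H.hol t.γ _ _ _ wl (𝓔.r G).h2 (y ▸ (𝓔.r G).per _) (y ▸ lgE ((𝓔.r G).ok _))
          (Z.L.ext j₁), fun e => t.γ.h ▸ ⟨_, (clsStmt.nr _ _ _ _ θ.rN).1 (P.al e _ θ.hk _ θ.rN), G.tor⟩⟩
    exact ⟨R, fun θ => by rw [e]; exact hp θ, k⟩
  obtain ⟨Rρ, eρ, pρ⟩ := fam one_le_two (fun a i e => Option.some.inj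
    (e.symm.trans (Subsingleton.elim a 0 ▸ Bρ.wl ▸ b.wl))) false (p := fun θ c => c = ρ θ) fun θ =>
      ⟨_, rfl, (hρ θ).cl _ (cl θ), (W θ).mc, fun u => by
        rw [(hρ θ).fo, fρ, (Q.fo θ).1]
        exact hull_sT (subset_convexHull _ _ (.inr (.inr rfl))) (subset_convexHull _ _ (.inl rfl)) _, rfl⟩
  have i₂ : ∀ b p, t.γ.k₂.tm p < 0 → (G.ρ b).φ p = p := fun b p h => (G.ρ b).id p fun k => k.1.not_gt h
  choose βR wR hR using fun s => sq g Λ (φ₁ := .refl _) (P.mN s) (fun _ _ => rfl) (i₂ s) E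
    (ei_iso o o (rfIso (P.ρ s) P.gN.nT)) n b f Bρ (Γ.bl s) bij_r (mv_pt _) (D.bl s).mv
  choose R hR pR using fun b => fam le_rfl (wR b) b fun θ => by
    have I := (D.I b θ.s).im (θ.x, n₀ θ)
    obtain ⟨c, a1, a2, a3, a4, a5, a6⟩ := hR b (mvc_pt ((Z.L.F _).mc _)) (I.mvc ((D.I ..).mc _)
      (c'' := (D.N θ.s).c (θ.x.r b, n₀ (θ.rs b))) (by rw [D.Nf, D.Nf])) (W θ) (W (θ.rs b)) ((Γ.Γ b).im θ)
      ((Γ.Γ b).mc θ) (Γ.cl b θ) ((P.ρ b).pb _) ((W (θ.rs b)).gm.t₁.symm.trans (W θ).gm.t₁)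
    refine ⟨c, a1, a2, a3, fun u => ?_, And.intro a4 a5⟩
    obtain ⟨f, k, e⟩ := a6 u
    rw [e, fN θ (f := f) (by simpa [I.fo, D.Nf, t0 (u ∘ e0), Dr59.pm_zero] using k)]
    exact hull_sT (subset_convexHull _ _ (.inr (.inr rfl))) (convexHull_mono
      (insert_subset_insert (singleton_subset_iff.2 (.inl rfl))) ((Γ.hl b θ).2 _)) _
  refine ⟨⟨τ, t, Λ, βρ, βR, n₀, Rρ, R, fun θ => eρ θ ▸ (kρ θ).1, fun θ => eρ θ ▸ (kρ θ).2,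
    fun b θ => eρ θ ▸ eρ (θ.rs b) ▸ (hR b θ).1, fun b θ => (hR b θ).2,
    fun b => (g.lrf _ _ _ (.refl _) _ (P.mN b) (fun _ _ => rfl) (i₂ b)).2,
    fun θ θ' l x e => PM.ext (Gm56.Rp.uniq (tr l x (cl θ)) (e ▸ cl θ')), fun l hl x hx k m => ?_, pρ, pR⟩⟩
  obtain ⟨d, hd⟩ := Gm56.rp_cls (w₀.fr 0) (c G.c0 ⟨l, P.clL l hl, fun _ => hl⟩ (⟨x, k⟩, m)).mon
  obtain ⟨r, r'⟩ := H.cgl.cl t.γ _ _ _ _ _ _ 0 d _ _ (f 0) (M ..) hd (Z.L.cl ..) (D.cl ..)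
  obtain ⟨θ, rfl⟩ := PM.ex ((P.sat d l x r r' k).2 ⟨hl, hx⟩)
  have e := (rl_eq _ θ.lN).symm.trans (rl_eq _ r)
  have e' := (rr_eq _ θ.rN).symm.trans (rr_eq _ r')
  exact ⟨θ, e, e', (tw θ.s θ.l θ.x θ.k θ.lN θ.rN).2 (𝓔.r G).h2 (Z.L.ty j₁ _ _ ▸ (𝓔.r G).per _) (Z.L.ext j₁)
    t.γ.port.2.2 G.ext _ _ (cl θ) (tr e.symm e'.symm hd)⟩

end Crest.Agent.X212.Sw87.Mo
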