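import Crest.Agent.X212.Sw87.MoP

/-!
# Row 212, GEO engine (helper87), part S: blended walls and squares
-/

set_option autoImplicit false
set_option linter.unusedSectionVars false
noncomputable section
open scoped Manifold ContDiff Topology InnerProductSpace
open MeasureTheory Set Function Filter

namespace Crest.Agent.X212.Sw87.Mo
open An Cyf70 Sw Flo2 Geo28 Met55 Pen22
open Bor5.T (O3 Q3 Pb Cur)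
open Dr59 (Cs pm mf HZ)

variable {mk : Mk κ0 L0 ν0} {X X' X₁ X₂ : M4} {τ τP : MT κ0 X} {τ' : MT κ0 X'} {τ₁ : MT κ0 X₁}
  {τ₂ : MT κ0 X₂} {k k' k₁ k₂ : ℕ}

/-- equal types at the ports -/
def Pe (M' : MM μ0 τ') (M : MM μ0 τ) : Prop :=
  ∀ u, (τ'.po u).map M'.ty = (τ.po u).map M.ty

theorem Pe.ty {M' : MM μ0 τ'} {M : MM μ0 τ} (h : Pe M' M) {i' i} : rP τ' τ i' i → M'.ty i' = M.ty i
  | ⟨u, k, k'⟩ => Option.some.inj (((congrArg _ k).symm.trans (h u)).trans (congrArg _ k'))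

theorem pe_of {β : MB τ k} {β' : MB τ' k'} {c : MC μ0 β} {c' : MC μ0 β'} {ens ens' C C' D ι φ n}
    (h : (c.gc ens C).Fc (c'.gc ens' C') D ι φ n) : Pe c'.toMM c.toMM
  | some false => h.ports.1
  | some true => h.ports.2.1
  | none => h.ports.2.2

theorem FcM.pe {β : MB τ k} {β' : MB τ' k'} {c : MC μ0 β} {c' : MC μ0 β'} {a s ι φ}
    (h : FcM c c' a s ι φ) : Pe c'.toMM c.toMM := pe_of (h.choose_spec c.en1 c'.en1 0 0)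

variable (mk) in
/-- good types, rational homology spheres at the ports -/
structure Pk (M : MM μ0 τ) : Prop where
  ok : ∀ i, (M.ty i).1.OK mk
  q : ∀ i, (τ.nb i).s ≠ none → (M.ec i).kd = .qhs

theorem MT.ex_po {i} (h : (τ.nb i).s ≠ none) : ∃ u, τ.po u = some i :=
  (τ.port h).elim (fun e => ⟨some false, e⟩) fun e => e.elim (fun e => ⟨some true, e⟩) fun e => ⟨none, e⟩

theorem MT.po_ne {i u} (h : τ.po u = some i) : (τ.nb i).s ≠ none := by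
  rcases u with _ | _ | _
  exacts [τ.of_port (.inr (.inr h)), τ.of_port (.inl h), τ.of_port (.inr (.inl h))]

theorem Pe.pk {M' : MM μ0 τ'} {M : MM μ0 τ} (h : Pe M' M) (k : Pk mk M') (ok : ∀ i, (M.ty i).1.OK mk) :
    Pk mk M := ⟨ok, fun i e => by
  obtain ⟨u, e⟩ := MT.ex_po e
  obtain ⟨i', e', -⟩ := Option.map_eq_some_iff.1 ((h u).trans (congrArg _ e))
  exact (congrArg (fun T : TY => T.1.kd) (h.ty ⟨u, e', e⟩)).symm.trans (k.q _ (MT.po_ne e'))⟩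

theorem PF.pk {𝒯 I} {A B : EE mk} {β : MB τ 0} (F : PF 𝒯 A B none β I) (a : A.Q) (b : B.Q) (i : I) :
    Pk mk (F.c i).toMM := ⟨(F.ro i).en, fun _ e => (τ.port e).elim (kd_of (F.hs i) a) fun e =>
      e.elim (kd_of (F.ht i) b) (kd_of (F.hu i) q_none)⟩

/-- facets at rational homology spheres -/
theorem fcm (H : Lf) {β : MB τ k} {β' : MB τ' k'} {c' : MC μ0 β'} {c : MC μ0 β} {φ : M4.Dif X' X} {r ι d' d a s}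
    (h : EI τ' τ φ.φ r) (w : EW β' β r ι) (hι : Injective ι) (ty : ∀ i' i, r i' i → c'.ty i' = c.ty i)
    (hd' : c'.Cl d') (hd : c.Cl d) (hp : Pb φ.φ univ d d') (pk : Pk mk c'.toMM) (n : τ'.nc = 0)
    (m : c.mc = 0) (m' : c'.mc = 0) (z : ∀ b ∉ range ι, β.wl b ≠ none → b = a ∧ s = 0)
    (hD : ∀ t, t a = s → FI φ.φ (β'.e (t ∘ ι)) (β.e t) ∧ pm X'.I X.I φ.φ (c.fo t) = c'.fo (t ∘ ι)) :
    FcM c c' a s ι (oph φ) :=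
  ⟨0, ft0 H.iso (D := {t ∈ dom β.wl | t a = s}) h w hι ty hd' hd hp (fun i => lgE (pk.ok i)) (fun i e => ((pk.ok i).qhs (pk.q i e)).2.1) n
    fun t ht => ⟨fun b e e' => (z b e e').1 ▸ ht.2.trans (z b e e').2, (hD t ht.2).1, (hD t ht.2).2,
      congrFun m _, congrFun m' _⟩⟩

namespace TG
variable {γ : TG τ τ₁ τ₂} {β β₀ : MB τ k} {β₁ : MB τ₁ k₁} {β₂ : MB τ₂ k₂} {a : Fin k}
  {ι₁ : Fin k₁ → Fin k} {ι₂ : Fin k₂ → Fin k} {c₁ : MC μ0 β₁} {c₂ : MC μ0 β₂}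

theorem GC.mc0 {c : MC μ0 β} (h : ∀ t, γ.GC ι₁ ι₂ c c₁ c₂ t) (m₁ : c₁.mc = 0) (m₂ : c₂.mc = 0) :
    c.mc = 0 := funext₂ fun t x => by
  rcases lt_or_ge (γ.g.n.tm x) (3 / 2) with a | a
  · obtain ⟨p, hp, rfl⟩ := (img_l γ.g (by norm_num) (by norm_num)).ge a
    rw [(h t).l p hp, m₁]; rfl
  rcases lt_or_ge (4 - 3 / 2) (γ.g.n.tm x) with b | b
  · obtain ⟨p, hp, rfl⟩ := (img_r γ.g (by norm_num) (by norm_num)).ge b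
    rw [(h t).r p hp, m₂]; rfl
  refine (h t).n x ?_
  rw [NB.U, γ.tm_i, γ.s_i]
  exact jm_none.2 ⟨by linarith, by linarith⟩

/-- walls without masses and boxes -/
theorem wlm (H : Lf) (Λ : γ.LR) {c : MC μ0 β} (b : γ.GB β β₁ β₂ a ι₁ ι₂) (M : γ.GM c.toMM c₁.toMM c₂.toMM)
    (n : τ.nc = 0) (m : c.mc = 0) (m₁ : c₁.mc = 0) (m₂ : c₂.mc = 0)
    (h : ∀ t, 3 ≤ t a → γ.GF β β₁ β₂ a ι₁ ι₂ t ∧ γ.g.Fm (c.fo t) (c₁.fo (t ∘ ι₁)) (c₂.fo (t ∘ ι₂)))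
    (q : γ.cap = false → (c.ec γ.i).kd = .qhs) : WlM γ Λ c c₁ c₂ a ι₁ ι₂ :=
  ⟨b.wl, H.wal γ Λ a ι₁ ι₂ c c₁ c₂ b M (fun t ht => ⟨(h t ht).1, (h t ht).2, by simp [m, m₁], by simp [m, m₂],
    by simp [m], fun j => ((γ.ec (.inl j)).cast n).elim0, fun j => ((γ.ec (.inr j)).cast n).elim0⟩) q⟩

theorem fix {φ : X.M → X.M} {φ₁ φ₂} (m : γ.g.Mp φ φ₁ φ₂) (i₁ : ∀ p, 0 < γ.k₁.tm p → φ₁ p = p) :
    (τ.nb γ.i).Cor (τ.nb γ.i) φ := ⟨(τ.nb γ.i).n, rfl, fun y σ hσ => by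
  have u := (NB.mem_tgt γ.s_i).1 ((τ.nb γ.i).k.map_source (NB.V_sub _ half_le (a := (y, σ)) ⟨trivial, hσ⟩))
  rw [γ.tm_i] at u
  have l := (mem_lt γ.g).2 u.2
  have s := γ.g.l.map_target l
  have r := γ.g.l.right_inv l
  have := m.1 _ s
  rw [i₁ _ (u.1.trans_eq ((congrArg _ r).symm.trans (tm_l γ.g s (.inr (r.symm ▸ u.1))))), r] at this
  exact this.symm⟩

theorem GB.wl_eq (b : γ.GB β₀ β₁ β₂ a ι₁ ι₂) (e : β.wl = β₀.wl) : γ.GB β β₁ β₂ a ι₁ ι₂ :=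
  ⟨b.bij, e ▸ b.wl, e ▸ b.w₁, e ▸ b.w₂⟩

theorem GB.none (b : γ.GB β β₁ β₂ a ι₁ ι₂) (w₁ : ∀ c, β₁.wl c = none) (w₂ : ∀ c, β₂.wl c = none) :
    ∀ c ≠ a, β.wl c = none := fun c ne => by
  obtain ⟨(c | c) | _, rfl⟩ := b.bij.2 c
  · exact ((b.w₁ c).resolve_right fun ⟨_, e, _⟩ => nomatch (w₁ c).symm.trans e).2
  · exact ((b.w₂ c).resolve_right fun ⟨_, e, _⟩ => nomatch (w₂ c).symm.trans e).2
  · exact (ne rfl).elim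

end TG

theorem fm_pm {A : O3} {k₁ : Nc A X₁ (Ioi 0)} {k₂ : Nc A X₂ (Iio 0)} {g : Gl3 k₁ k₂ X} {φ : X.Dif X}
    {φ₁ : X₁.Dif X₁} {φ₂ : X₂.Dif X₂} (m : g.Mp φ.φ φ₁.φ φ₂.φ) (i₁ : ∀ p, 0 < k₁.tm p → φ₁.φ p = p)
    (i₂ : ∀ p, k₂.tm p < 0 → φ₂.φ p = p) {f f₁ f₂} (h : g.Fm f f₁ f₂) :
    g.Fm (pm X.I X.I φ.φ f) (pm X₁.I X₁.I φ₁.φ f₁) (pm X₂.I X₂.I φ₂.φ f₂) := by
  have a : ∀ r > 0, ∀ p, k₁.tm p < r → k₁.tm (φ₁.φ p) < r := fun r hr p hp => lt_of_not_ge fun k => by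
    rw [show φ₁.φ p = p from φ₁.φ.injective (i₁ (φ₁.φ p) (by linarith))] at k
    exact k.not_gt hp
  have b : ∀ r < 0, ∀ p, r < k₂.tm p → r < k₂.tm (φ₂.φ p) := fun r hr p hp => lt_of_not_ge fun k => by
    rw [show φ₂.φ p = p from φ₂.φ.injective (i₂ (φ₂.φ p) (by linarith))] at k
    exact k.not_gt hp
  refine ⟨fun p hp => ?_, fun p hp => ?_⟩
  · rw [pm_eqv g.l m.1 (fun q hq => (mem_l g).2 (a 4 four_pos q ((mem_l g).1 hq))) f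
      ((mem_l g).2 (by linarith)), Dr59.pm_apply, h.1 _ (a 3 three_pos p hp), Dr59.pm_apply]
  · rw [pm_eqv g.r m.2 (fun q hq => (mem_r g).2 (b (-4) (by norm_num) q ((mem_r g).1 hq))) f
      ((mem_r g).2 (by linarith)), Dr59.pm_apply, h.2 _ (b (-3) (by norm_num) p hp), Dr59.pm_apply]

theorem sT0 : sT 0 = 0 := Real.smoothTransition.zero

theorem sT1 {x : ℝ} (h : 1 ≤ x) : sT x = 1 := Real.smoothTransition.one_of_one_le h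

/-- **the facet and the wall of a blend** -/
theorem bwc (H : Lf) {γ : TG τ τ₁ τ₂} (Λ : γ.LR) {β β₀ : MB τ k} {β' : MB τP k'} {β₁ : MB τ₁ k₁}
    {β₂ : MB τ₂ k₂} {a ι ι₁ ι₂} (E : EI τP τ id (rP τP τ)) (n : τ.nc = 0) (b : γ.GB β₀ β₁ β₂ a ι₁ ι₂)
    (f : ∀ t, γ.GF β₀ β₁ β₂ a ι₁ ι₂ t) (B : Bw β₀ β' a ι β) (w : ∀ c, β'.wl c = none)
    (w₀ : ∀ c ≠ a, β₀.wl c = none) (hι : Injective ι) (ne : ∀ c, ι c ≠ a) {c₀ : MC μ0 β₀} {c' : MC μ0 β'}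
    {c : MC μ0 β} {c₁ : MC μ0 β₁} {c₂ : MC μ0 β₂} (M : γ.GM c₀.toMM c₁.toMM c₂.toMM)
    (F : ∀ t, γ.g.Fm (c₀.fo t) (c₁.fo (t ∘ ι₁)) (c₂.fo (t ∘ ι₂))) (h : BwC c₀ c' a ι c) {d} (d₀ : c₀.Cl d)
    (d' : c'.Cl d) (m₀ : c₀.mc = 0) (m' : c'.mc = 0) (m₁ : c₁.mc = 0) (m₂ : c₂.mc = 0)
    (pe : Pe c'.toMM c₀.toMM) (pk : Pk mk c'.toMM) (q : γ.cap = false → (c₀.ec γ.i).kd = .qhs) :
    FcM c c' a 0 ι (.refl _) ∧ WlM γ Λ c c₁ c₂ a ι₁ ι₂ :=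
  ⟨fcm H (φ := .refl X) E (fun b => .inl ⟨w b, B.wl ▸ w₀ _ (ne b)⟩) hι (fun _ _ r => h.M ▸ pe.ty r) d'
    (h.cl d d₀) Rfl19.pb_id pk (E.nc.symm.trans n) (h.mc m₀) m'
    (fun b _ e => ⟨by_contra fun k => e (B.wl ▸ w₀ b k), rfl⟩)
    fun t e => ⟨B.fi0 e.le, by rw [pm_refl, h.fo, e, sT0]; simp⟩,
  TG.wlm H Λ (b.wl_eq B.wl) (h.M ▸ M) n (h.mc m₀) m₁ m₂ (fun t ht =>
    have e := B.e1 t (by linarith)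
    ⟨⟨e ▸ (f t).l, e ▸ (f t).r, e ▸ (f t).n⟩, by simpa [h.fo, sT1 (show 1 ≤ t a by linarith)] using F t⟩)
    (h.M ▸ q)⟩

/-- `β'` moves from the point `β` to its pull-back along the coordinate `0` -/
structure Mv (β' : MB τ k) (β : MB τ 0) (ι : Fin k → Fin 2) (φ : X.Dif X) : Prop where
  wl : ∀ c, β'.wl c = none
  e0 : ∀ t : Tk 2, t 0 = 0 → β'.e (t ∘ ι) = β.e 0
  e1 : ∀ t : Tk 2, t 0 = 1 → FI φ.symm.φ (β.e 0) (β'.e (t ∘ ι))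

/-- the same for classes -/
structure MvC {β' : MB τ k} {β : MB τ 0} (c' : MC μ0 β') (c c'' : MC μ0 β) (ι : Fin k → Fin 2)
    (φ : X.Dif X) : Prop where
  M : c'.toMM = c.toMM
  mc : c'.mc = 0
  f0 : ∀ t : Tk 2, t 0 = 0 → c'.fo (t ∘ ι) = c.fo 0
  f1 : ∀ t : Tk 2, t 0 = 1 → pm X.I X.I φ.symm.φ (c'.fo (t ∘ ι)) = c''.fo 0

theorem fi_eq {e e' : Option κ0 → VF X.I X.M} (h : e' = e) : FI (M4.Dif.refl X).φ e' e := fun x p q =>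
  h ▸ Finset.sum_congr rfl fun _ _ => congrArg₂ (fun u v => p u * q v) (mf_refl x _) (mf_refl x _)

theorem mv_pt (β : MB τ 0) : Mv β β e0 (.refl X) :=
  ⟨fun c => c.elim0, fun _ _ => congrArg _ (t0 _), fun _ _ => fi_eq (congrArg _ (t0 _).symm)⟩

theorem mvc_pt {β : MB τ 0} {c : MC μ0 β} (m : c.mc = 0) : MvC c c c e0 (.refl X) :=
  ⟨rfl, m, fun _ _ => congrArg _ (t0 _), fun _ _ => (pm_refl _).trans (congrArg _ (t0 _))⟩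

theorem Bl.mv {β : MB τ 0} {φ β₁} (h : Bl μ0 β β φ β₁) : Mv β₁ β ![0] φ :=
  ⟨h.wl, fun _ e => h.e0 _ e, fun t e x => by
    simpa only [show φ.symm.φ (φ.φ _) = _ from φ.φ.symm_apply_apply _] using h.co (t ∘ ![0]) e x⟩

theorem IM.mvc {β : MB τ 0} {β₁ : MB τ 1} {c c' c'' : MC μ0 β} {φ : X.Dif X} {c₁ : MC μ0 β₁} {n}
    (h : IM c c' φ c₁ n) (m : c₁.mc = 0) (e : c'.fo 0 = c''.fo 0) : MvC c₁ c c'' ![0] φ :=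
  ⟨h.M, m, fun t k => by rw [h.fo, show s1 (t ∘ ![0]) = 0 from (congrArg sT k).trans sT0]; simp,
    fun t k => by
      rw [h.fo, show s1 (t ∘ ![0]) = 1 from (congrArg sT k).trans (sT1 le_rfl), ← e]; simp [pm_symm]⟩

variable (mk) in
/-- `w` is a blended wall with the facet `p` and the pieces `c₁`, `c₂` -/
structure Wc (γ : TG τ τ₁ τ₂) (β₀ : MB τ 1) {β : MB τ 1} {βP : MB τP 0} {β₁ : MB τ₁ 0} {β₂ : MB τ₂ 0}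
    (w : MC μ0 β) (p : MC μ0 βP) (c₁ : MC μ0 β₁) (c₂ : MC μ0 β₂) (d : X.L) : Prop where
  ex : ∃ w₀ : MC μ0 β₀, BwC w₀ p 0 e0 w ∧ w₀.Cl d ∧ ∀ u, γ.g.Fm (w₀.fo u) (c₁.fo 0) (c₂.fo 0)
  mc : w.mc = 0
  gm : γ.GM w.toMM c₁.toMM c₂.toMM
  pe : Pe p.toMM w.toMM
  pk : Pk mk p.toMM
  ok : ∀ i, (w.ty i).1.OK mk
  q : γ.cap = false → (w.ec γ.i).kd = .qhs

theorem EI.add {φ : X.M → X.M} (h : EI τ τ φ (rP τ τ)) {i} (s : (τ.nb i).s = none)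
    (c : (τ.nb i).Cor (τ.nb i) φ) : EI τ τ φ fun j' j => rP τ τ j' j ∨ j' = i ∧ j = i := by
  refine ⟨?_, ?_, rel_mono h.pin fun _ _ => .inl, rel_mono h.pout fun _ _ => .inl,
    rel_mono h.p3 fun _ _ => .inl, h.nc, h.bx⟩
  · rintro _ _ (r | ⟨rfl, rfl⟩)
    exacts [h.cor _ _ r, c]
  · have e : ∀ j' j, (rP τ τ j' j ∨ j' = i ∧ j = i) → j' = j := by
      rintro _ _ (⟨u, k, k'⟩ | ⟨rfl, rfl⟩)
      exacts [Option.some.inj (k.symm.trans k'), rfl]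
    exact fun _ _ _ _ r r' => by rw [e _ _ r, e _ _ r']

/-- **interval times wall** -/
theorem sq (g : Gn mk) {γ : TG τ τ₁ τ₂} (Λ : γ.LR) {φ : X.Dif X} {φ₁ : X₁.Dif X₁} {φ₂ : X₂.Dif X₂}
    (m : γ.g.Mp φ.φ φ₁.φ φ₂.φ) (i₁ : ∀ p, 0 < γ.k₁.tm p → φ₁.φ p = p) (i₂ : ∀ p, γ.k₂.tm p < 0 → φ₂.φ p = p)
    (E : EI τP τ id (rP τP τ)) (E' : EI τ τ φ.symm.φ (rP τ τ)) (n : τ.nc = 0) {β₁ : MB τ₁ 0} {β₂ : MB τ₂ 0}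
    {w₀ βw : MB τ 1} {βP : MB τP 0} {βΓ : MB τP 1} (b : γ.GB w₀ β₁ β₂ 0 e0 e0)
    (f : ∀ u, γ.GF w₀ β₁ β₂ 0 e0 e0 u) (B : Bw w₀ βP 0 e0 βw) (L : Bl μ0 βP βP φ βΓ) {β₁' : MB τ₁ k₁}
    {β₂' : MB τ₂ k₂} {ι₁ ι₂} (bij : Bijective (Sum.elim (Sum.elim ι₁ ι₂) fun _ : Unit => (1 : Fin 2)))
    (v₁ : Mv β₁' β₁ ι₁ φ₁) (v₂ : Mv β₂' β₂ ι₂ φ₂) :
    ∃ β : MB τ 2, (∀ a, ∀ i ∈ β.wl a, i = γ.i) ∧ ∀ {c₁' : MC μ0 β₁'} {c₂' : MC μ0 β₂'} {c₁ c₁'' : MC μ0 β₁}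
      {c₂ c₂'' : MC μ0 β₂} {w w' : MC μ0 βw} {p p' : MC μ0 βP} {Γ : MC μ0 βΓ} {d d' l}, MvC c₁' c₁ c₁'' ι₁ φ₁ →
      MvC c₂' c₂ c₂'' ι₂ φ₂ → Wc mk γ w₀ w p c₁ c₂ d → Wc mk γ w₀ w' p' c₁'' c₂'' d' → IM p p' φ Γ l →
      Γ.mc = 0 → Γ.Cl d → Pb φ.φ univ d' d → w'.ty γ.i = w.ty γ.i → ∃ c : MC μ0 β, c.toMM = w.toMM ∧
        c.Cl d ∧ c.mc = 0 ∧ SqM c w w' Γ φ ∧ WlM γ Λ c c₁' c₂' 1 ι₁ ι₂ ∧ ∀ t, ∃ f,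
          γ.g.Fm f (c₁'.fo (t ∘ ι₁)) (c₂'.fo (t ∘ ι₂)) ∧
            c.fo t = sT (t 1) • f + (1 - sT (t 1)) • Γ.fo (t ∘ ![0]) := by
  have H := g.lf
  obtain ⟨β₀, b₀, f₀⟩ := H.glu.b γ β₁' β₂' 1 ι₁ ι₂ bij (fun c _ e => nomatch (v₁.wl c).symm.trans e)
    fun c _ e => nomatch (v₂.wl c).symm.trans e
  have z := b₀.none v₁.wl v₂.wl
  have ne : ∀ c : Fin 1, ![(0 : Fin 2)] c ≠ 1 := by decide
  obtain ⟨β, B₀, h⟩ := g.bw β₀ βΓ 1 ![0] _ E L.wl z ne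
  have w0 : β.wl 0 = none := B₀.wl ▸ z 0 (by decide)
  have w1 : β.wl 1 = some γ.i := B₀.wl ▸ b₀.wl
  have ww : βw.wl 0 = some γ.i := B.wl ▸ b.wl
  refine ⟨β, Fin.forall_fin_two.2 ⟨fun _ e => (nomatch w0.symm.trans e), fun _ e =>
    Option.some.inj (e.symm.trans w1)⟩, ?_⟩
  rintro c₁' c₂' c₁ c₁'' c₂ c₂'' w w' p p' Γ d d' l u₁ u₂ W W' I mΓ dΓ pb ty
  obtain ⟨x, Bx, dx, fx⟩ := W.ex
  obtain ⟨x', Bx', dx', fx'⟩ := W'.ex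
  have gm : γ.GM w.toMM c₁'.toMM c₂'.toMM := u₁.M ▸ u₂.M ▸ W.gm
  obtain ⟨c₀, M, C⟩ := H.glu.c γ 1 ι₁ ι₂ c₁' c₂' b₀ f₀ (gm.t₁.trans gm.t₂.symm)
  obtain ⟨c, h⟩ := h c₀ Γ
  have eM : c₀.toMM = w.toMM := gm.uq M
  have e0 : ∀ t : Tk 2, t 0 = 0 → w₀.e (t ∘ ![1]) = β₀.e t := fun t e =>
    (f₀ t).ue (f _) (by rw [t0 (_ ∘ _), v₁.e0 t e]) (by rw [t0 (_ ∘ _), v₂.e0 t e]) rfl
  have d₀ : c₀.Cl d := by
    rw [MC.Cl, eM, Bx.M, ← e0 0 rfl]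
    exact dx
  have m₀ := TG.GC.mc0 C u₁.mc u₂.mc
  have k := bwc H Λ E n b₀ f₀ B₀ L.wl z (fun _ _ _ => Subsingleton.elim _ _) ne M (fun t => (C t).fo) h d₀ dΓ
    m₀ mΓ u₁.mc u₂.mc (I.M ▸ eM ▸ W.pe) (I.M ▸ W.pk) (eM ▸ W.q)
  have zz : ∀ {s : ℝ}, ∀ b ∉ range ![(1 : Fin 2)], β.wl b ≠ none → b = 0 ∧ s = 0 := Fin.forall_fin_two.2
    ⟨fun _ e => (e w0).elim, fun e => (e ⟨0, rfl⟩).elim⟩
  have m' : γ.g.Mp φ.symm.φ φ₁.symm.φ φ₂.symm.φ := (g.lrf γ Λ φ φ₁ φ₂ m i₁ i₂).1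
  have j₁ : ∀ p, 0 < γ.k₁.tm p → φ₁.symm.φ p = p := fun p k => φ₁.φ.symm_apply_eq.2 (i₁ p k).symm
  have j₂ : ∀ p, γ.k₂.tm p < 0 → φ₂.symm.φ p = p := fun p k => φ₂.φ.symm_apply_eq.2 (i₂ p k).symm
  have vΓ := L.mv
  have uΓ := I.mvc mΓ rfl
  refine ⟨c, h.M.trans eM, h.cl d d₀, h.mc m₀, ⟨w0, ?_, ?_, k.1⟩, k.2, fun t => ⟨_, (C t).fo, h.fo t⟩⟩
  · refine fcm H (φ := .refl X) (EI.refl τ) (fun a => .inr ⟨_, Subsingleton.elim a 0 ▸ ww, _,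
      Subsingleton.elim a 0 ▸ w1, rfl⟩) (fun _ _ _ => Subsingleton.elim _ _)
      (fun _ _ e => e ▸ congrArg (MM.ty · _) (h.M.trans eM).symm) (Bx.cl d dx) (h.cl d d₀) Rfl19.pb_id
      (W.pe.pk W.pk W.ok) n (h.mc m₀) W.mc zz fun t e => ⟨B₀.fi B rfl (fi_eq (e0 t e))
        (fi_eq ((congrArg _ (t0 _)).trans (vΓ.e0 t e).symm)), ?_⟩
    rw [pm_refl, h.fo, Bx.fo, uΓ.f0 t e, t0 (_ ∘ Mo.e0), H.cgl.fm _ _ _ _ _ (fx (t ∘ ![1]))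
      (u₁.f0 t e ▸ u₂.f0 t e ▸ (C t).fo)]
    rfl
  · refine fcm H (φ := φ.symm) (E'.add γ.s_i (TG.fix m' j₁)) (fun a => .inr ⟨_, Subsingleton.elim a 0 ▸ ww, _,
      Subsingleton.elim a 0 ▸ w1, .inr ⟨rfl, rfl⟩⟩) (fun _ _ _ => Subsingleton.elim _ _) ?_ (Bx'.cl d' dx')
      (h.cl d d₀) (Rfl19.pb_symm pb) (W'.pe.pk W'.pk W'.ok) n (h.mc m₀) W'.mc zz fun t e =>
      ⟨B₀.fi B rfl ((f₀ t).fi (f _) m' j₁ j₂ (by rw [t0 (_ ∘ _)]; exact v₁.e1 t e)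
        (by rw [t0 (_ ∘ _)]; exact v₂.e1 t e) rfl) (by rw [t0 (_ ∘ Mo.e0)]; exact vΓ.e1 t e), ?_⟩
    · rw [h.M, eM]
      rintro _ _ (r | ⟨rfl, rfl⟩)
      · exact Pe.ty (fun u => (W'.pe u).symm.trans ((pe_of (I.f1 Γ.en1 p'.en1 0 0) u).trans
          ((pe_of (I.f0 Γ.en1 p.en1 0 0) u).symm.trans (W.pe u)))) r
      · exact ty
    · rw [h.fo, Bx'.fo, Dr59.pm_add, Dr59.pm_smul, Dr59.pm_smul, uΓ.f1 t e, t0 (_ ∘ Mo.e0),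
        H.cgl.fm _ _ _ _ _ (fx' (t ∘ ![1])) (u₁.f1 t e ▸ u₂.f1 t e ▸ fm_pm m' j₁ j₂ (C t).fo)]
      rfl

end Crest.Agent.X212.Sw87.Mo
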