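import Crest.Agent.X212.Sw87.SbD
import Crest.Agent.X212.Pat85.Vol
import Crest.Agent.X212.Mp86.Ps
import Crest.Agent.X212.M.Geq

/-!
# Row 212, SB-GEO (helper87): scene-free bounds of the geometry of the head and the tail
-/

set_option autoImplicit false
set_option linter.unusedSectionVars false
noncomputable section
open Set Function Filter Topology MeasureTheory
open scoped ContDiff Manifold

namespace Crest.Agent.X212.Sb87
open An M G75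
open Dr59 (mf)
open Met55 (atx Co dmp ext ext_f ext_out)
open Line51 (Ln)
open Mp86 (scF Rp)
open Cht98 (hZ)
open Pat85 (Tk)

section gen
variable {X X' : Mf 4} {A A' A₀ κ lam : Type} [Fintype A] [Fintype A'] [Fintype A₀] [Fintype κ]
  [Fintype lam] [DecidableEq lam] {M : Mark X A κ} {M' : Mark X' A' κ} {W : World M} {W' : World M'}
  {N : ML M lam} {N' : ML M' lam} (Λ : Lns W N) (Λ' : Lns W' N') {I : MId M M' A₀} {V : Set X.M}
  {w : X.M → Matrix lam lam ℂ} {m c : M.Cl} {m' c' : M'.Cl} {p : Prm A} {p' : Prm A'} {x : X.M}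

theorem s_ψ (I : MId M M' A₀) (b : A₀) (hx : x ∈ I.ψ.source) :
    (M'.bn (I.f' b)).s (I.ψ x) = (M.bn (I.f b)).s x := by
  by_cases k : x ∈ range (M.bn (I.f b)).j
  · obtain ⟨q, rfl⟩ := k
    rw [I.jj, Band.s_j, Band.s_j]
  · rw [Band.s_off _ fun h => k (Band.slab_subset _ _ h), Band.s_off _ fun h =>
      k ((Met55.mem_band I b hx).1 (Band.slab_subset _ _ h))]
    exact if_congr (by simpa [Mark.sys, Band.wall, X212.M.pm] using I.sd b true x hx) rfl rfl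

theorem rp_φ (hp : p ∈ M.Br c.1) (ho : p ∈ M.O c.1) (hx : x ∉ M.sys.cores c.1) :
    Rp (W.Z c).I X.I (W.k p) (W.φ c) (W.F m c p).e x :=
  ⟨W.ld hx, eventually_of_mem ((M.sys.isClosed_cores _).isOpen_compl.mem_nhds hx) fun y hy =>
    Ps86.F_e W m ho ▸ W.co m c p hp y (Mark.inf_eq hp ho ▸ hy)⟩

theorem f2_φ (hp : p ∈ M.Br c.1) (ho : p ∈ M.O c.1) (hx : x ∉ M.sys.cores c.1) :
    ∑ s, Wz78.fL (Λ.B m c) (Λ.G m c p) (W.φ c x) s ^ 2 =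
      Ps86.f2 (Ln.F X.I ⟨N.p, Λ.a0 p⟩ x) (W.k p x) := by
  have hs := (W.mem_src c).2 hx
  have o := (W.φ c).open_source
  rw [Ps86.fL_eq W Λ ho, ← (Λ.iso m c p hp).F_eq o ((Λ.ok0 p).mono (subset_univ _)) hs,
    ((Λ.Λ m c).ln_on p).F_pull isOpen_univ o ⟨fun y hy => (W.ld ((W.mem_src c).1 hy)).contMDiffAt,
      mapsTo_univ _ _⟩ hs, Dr59.pm_apply, Ps86.f2_pb,
    ← Ps86.f2_co (W.co m c p hp x (Mark.inf_eq hp ho ▸ hx))]
  rfl

theorem pt1 (hW : WId W W' I V p.1 p'.1) (hL : LId N N' I V w)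
    (hR : I.Rel V p.2 p'.2) (hp : p ∈ M.Br c.1) (ho : p ∈ M.O c.1) (hp' : p' ∈ M'.Br c'.1)
    (ho' : p' ∈ M'.O c'.1) (hV : x ∈ V) (k : x ∉ M.sys.cores c.1) (hx : I.ψ x ∉ M'.sys.cores c'.1) :
    scF (W'.F m' c' p') (W'.φ c' (I.ψ x)) = scF (W.F m c p) (W.φ c x) := by
  have o : IsOpen (V \ M.sys.cores c.1) := hL.op.sdiff (M.sys.isClosed_cores _)
  have r : Rp X'.I X.I (W.k p) I.ψ (fun i y => W'.k p' y i) x :=
    ⟨Orx52.ldp _ (hL.sub hV), eventually_of_mem (o.mem_nhds ⟨hV, k⟩) fun y hy =>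
      hW _ _ hR y hy.1 (Mark.inf_eq hp ho ▸ hy.2)⟩
  exact (rp_φ (m := m) hp ho k).sc_eq (f' := W'.φ c' ∘ I.ψ) (r.comp (rp_φ (m := m') hp' ho' hx))

theorem pt2 (hW : WId W W' I V p.1 p'.1) (hL : LId N N' I V w) (hC : CId Λ Λ' I V w p.1 p'.1)
    (hR : I.Rel V p.2 p'.2) (hp : p ∈ M.Br c.1) (ho : p ∈ M.O c.1) (hp' : p' ∈ M'.Br c'.1)
    (ho' : p' ∈ M'.O c'.1) (hV : x ∈ V) (k : x ∉ M.sys.cores c.1) (hx : I.ψ x ∉ M'.sys.cores c'.1) :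
    ∑ s, Wz78.fL (Λ'.B m' c') (Λ'.G m' c' p') (W'.φ c' (I.ψ x)) s ^ 2 =
      ∑ s, Wz78.fL (Λ.B m c) (Λ.G m c p) (W.φ c x) s ^ 2 := by
  refine (f2_φ Λ' hp' ho' hx).trans (Eq.trans ?_ (f2_φ Λ hp ho k).symm)
  have e := (hC _ _ hR).F_eq hL.op ((Λ.ok0 p).mono (subset_univ _)) hV
  have e' := (Λ'.ok0 p').F_pull isOpen_univ hL.op
    ⟨fun y hy => (Orx52.ldp _ (hL.sub hy)).contMDiffAt, mapsTo_univ _ _⟩ hV
  rw [← e, e', Dr59.pm_apply, Ps86.f2_pb]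
  exact (Ps86.f2_co (hW _ _ hR x hV (Mark.inf_eq hp ho ▸ k)) _).symm

variable (I V m' c' p') in
/-- the active walls that meet `V` are matched -/
structure Mat : Prop where
  br : p' ∈ M'.Br c'.1
  o : p' ∈ M'.O c'.1
  act : ∀ a, p'.2 a ≠ 0 → a ∈ range I.f' ∨ Disjoint (range (M'.bn a).j) (I.ψ '' V)
  mem : ∀ a, ¬M'.pin a → p'.2 a ≠ 0 → a ∈ m'.1

namespace Mat
variable (h : Mat I V m' c' p')
include h

theorem par : ext I.symm p'.2 ∈ M.sys.Par := Met55.ext_par h.br.1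

/-- the parameter of the model -/
def p0 (_ : Mat I V m' c' p') : Prm A := (0, ext I.symm p'.2)

/-- its cell -/
def c0 : M.Cl := ⟨Sys.inf h.p0.2, h.par.2.mono (Sys.inf_subset _)⟩

/-- its layer -/
def m0 : M.Cl := ⟨support h.p0.2, h.par.2⟩

theorem eq (b : A₀) : h.p0.2 (I.f b) = p'.2 (I.f' b) := ext_f I.symm _ b

theorem rg {a : A} (k : h.p0.2 a ≠ 0) : a ∈ range I.f := by_contra fun e => k (ext_out I.symm _ e)

theorem br0 : h.p0 ∈ M.Br h.c0.1 := ⟨h.par, subset_rfl⟩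

theorem o0 : h.p0 ∈ M.O h.c0.1 := fun a ha => (h.par.1 a).2.lt_of_ne ha.1

theorem rel : I.Rel V h.p0.2 p'.2 := ⟨h.par, h.br.1, fun b => (h.eq b).symm,
  fun _ k k' => (k (h.rg k')).elim, fun a k k' => (h.act a k').resolve_left k⟩

theorem mem_c (b : A₀) : I.f b ∈ h.c0.1 ↔ I.f' b ∈ c'.1 := by
  rw [← Mark.inf_eq h.br h.o]; exact (congrArg (· = (1 : ℝ)) (h.eq b)).to_iff

theorem cores (hs : x ∈ I.ψ.source) (hx : x ∈ V) :
    I.ψ x ∈ M'.sys.cores c'.1 ↔ x ∈ M.sys.cores h.c0.1 := by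
  refine ⟨fun k => ?_, fun k => ?_⟩ <;> obtain ⟨a, ha, k⟩ := mem_iUnion₂.1 k
  · rcases h.act a (by rw [show p'.2 a = 1 from h.br.2 ha]; exact one_ne_zero) with ⟨b, rfl⟩ | e
    · exact mem_biUnion ((h.mem_c b).2 ha) ((Met55.mem_core I b hs).1 k)
    · exact (disjoint_left.1 e (Wall.core_subset _ k) ⟨x, hx, rfl⟩).elim
  · obtain ⟨b, rfl⟩ := h.rg (a := a) (by rw [show h.p0.2 a = 1 from ha]; exact one_ne_zero)
    exact mem_biUnion ((h.mem_c b).1 ha) ((Met55.mem_core I b hs).2 k)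

theorem nk {b : A₀} (hp : ¬M.pin (I.f b)) (k : I.f b ∈ h.c0.1 ∨
    I.f b ∈ h.m0.1 ∧ I.f b ∈ M.sys.fr h.c0.1 ∧ 1 / 2 ≤ h.p0.2 (I.f b)) : I.f' b ∈ c'.1 ∨
      I.f' b ∈ m'.1 ∧ I.f' b ∈ M'.sys.fr c'.1 ∧ 1 / 2 ≤ p'.2 (I.f' b) := by
  refine k.imp (h.mem_c b).1 fun k => ?_
  have e : p'.2 (I.f' b) ≠ 0 := h.eq b ▸ k.1
  have e' := mt (h.mem_c b).2 k.2.1.1
  exact ⟨h.mem _ (mt (I.pin b).1 hp) e, ⟨e', fun a ha => h.br.1.2 e (Sys.inf_subset _ (h.br.2 ha))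
    fun j => e' (j ▸ ha)⟩, h.eq b ▸ k.2.2⟩

end Mat

variable (W) in
/-- **GEO**, general form -/
theorem geo : ∃ v a : ℝ, 0 ≤ a ∧ ∀ {X' : Mf 4} {A' A₀ : Type} [Fintype A'] [Fintype A₀]
    {M' : Mark X' A' κ} {W' : World M'} {N' : ML M' lam} (Λ' : Lns W' N') {I : MId M M' A₀}
    {V : Set X.M} {w : X.M → Matrix lam lam ℂ} {m' c' : M'.Cl} {p' : Prm A'} {O : Set (W'.Z c').M},
    WId W W' I V 0 p'.1 → LId N N' I V w → CId Λ Λ' I V w 0 p'.1 → Mat I V m' c' p' → IsOpen O →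
    (∀ x ∉ M'.sys.cores c'.1, W'.φ c' x ∈ O → x ∈ I.ψ '' V) →
    (∀ a ∈ c'.1, M'.pin a → ∀ b, W'.β c' a b 0 ∈ O →
      ∃ a₀, I.f' a₀ = a ∧ range (M.bn (I.f a₀)).j ⊆ V) →
    (∀ z ∈ O, √(∑ s, Wz78.fP (Λ'.B m' c') (Λ'.G m' c' p') z s ^ 2) -
      Wz78.sc (Λ'.G m' c' p') z / 4 ≤ a) ∧
    (W'.F m' c' p').μ (O ∩ Tk W' m' c' p') ≤ ENNReal.ofReal v := by
  obtain ⟨K, h0, hK⟩ := Ps86.unif_sc W (isCompact_singleton (x := 0))
  obtain ⟨K', -, hK'⟩ := Ps86.unif_fL W Λ (isCompact_singleton (x := 0))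
  obtain ⟨v, hv⟩ := Pat85.volU W (isCompact_singleton (x := 0)) zero_lt_one
  refine ⟨v, √K' + K / 4, by positivity, fun {X' A' A₀ _ _ M' W' N'} Λ' {I V w m' c' p' O} hW hL hC h hO
    h1 h2 => ⟨fun z hz => ?_, ?_⟩⟩
  · have key : |scF (W'.F m' c' p') z| ≤ K ∧
        ∑ s, Wz78.fL (Λ'.B m' c') (Λ'.G m' c' p') z s ^ 2 ≤ K' := by
      have c2 : Continuous fun z => ∑ s, Wz78.fL (Λ'.B m' c') (Λ'.G m' c' p') z s ^ 2 := by
        simp only [Ps86.fL_eq W' Λ' h.o]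
        exact continuous_finsetSum _ fun i _ => continuous_finsetSum _ fun j _ =>
          (continuous_iff_continuousAt.2 fun z =>
            (Ps86.jAt_fl W' Λ' (Mark.mem_Ω _ h.o z) i j).right.continuousAt).pow 2
      refine closure_minimal ?_ ((isClosed_le (Ps86.cont_scF _).abs continuous_const).inter
        (isClosed_le c2 continuous_const)) ((W'.dense c').open_subset_closure_inter hO hz)
      rintro _ ⟨hz, _, hx, rfl⟩
      obtain ⟨x, hV, rfl⟩ := h1 _ hx hz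
      have k := mt (h.cores (hL.sub hV) hV).2 hx
      exact ⟨(congrArg abs (pt1 (p := h.p0) hW hL h.rel h.br0 h.o0 h.br h.o hV k hx)).trans_le
        (hK h.m0 h.c0 h.p0 rfl h.par h.o0 _), (pt2 Λ Λ' (p := h.p0) hW hL hC h.rel h.br0 h.o0 h.br h.o
          hV k hx).trans_le (hK' h.m0 h.c0 h.p0 rfl h.par h.o0 _)⟩
    have := Real.sqrt_le_sqrt ((Ps86.fP_le (Λ'.B_ok m' c') _ z).trans key.2)
    have := neg_le_of_abs_le key.1
    show _ - scF (W'.F m' c' p') z / 4 ≤ _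
    linarith
  · obtain ⟨Ψ, u, k1, k2, k3, -, g⟩ := geq h.m0 Λ m' Λ' (p := h.p0) hW hL hC h.rel h.br0 h.o0 h.br h.o
      (hL.op.sdiff (M.sys.isClosed_cores _)) sdiff_subset (fun _ k => k.2)
      (fun x hx => mt (h.cores (hL.sub hx.1) hx.1).1 hx.2)
      (J := {q | I.f' q.1 ∈ c'.1 ∧ M.pin (I.f q.1) ∧ range (M.bn (I.f q.1)).j ⊆ V}) fun q hq =>
        ⟨⟨(h.mem_c _).2 hq.1, hq.2.1, 1, one_pos, fun y r hr _ => ⟨hq.2.2 ⟨_, rfl⟩,
          Cyl58.half_not_mem ((h.mem_c _).2 hq.1) _ y hr⟩⟩, hq.1⟩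
    have hm : ∀ a, ¬M'.pin a → (a ∈ c'.1 ∨ a ∈ m'.1 ∧ a ∈ M'.sys.fr c'.1 ∧ 1 / 2 ≤ p'.2 a) →
        a ∈ c'.1 ∧ ¬M'.pin a ∨ a ∈ M'.sys.fr c'.1 := fun a k k' => k'.imp (⟨·, k⟩) (·.2.1)
    have mT : MeasurableSet (O ∩ Tk W' m' c' p') := by
      refine hO.measurableSet.inter (IsClosed.measurableSet ?_)
      simp only [Tk, ofPred_forall]
      exact isClosed_iInter fun a => isClosed_iInter fun k => isClosed_iInter fun k' =>
        isClosed_le continuous_const (Cht98.sm_hZ _ (hm a k k')).continuous.abs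
    have s1 : O ⊆ Ψ.target := fun z hz => by
      rw [k2]
      rcases Cyl58.caps_surj W'.toCaps z with ⟨x, hx, rfl⟩ | ⟨a, ha, hp, b, rfl⟩
      · obtain ⟨x, hV, rfl⟩ := h1 _ hx hz
        exact .inl ⟨_, ⟨x, ⟨hV, mt (h.cores (hL.sub hV) hV).2 hx⟩, rfl⟩, rfl⟩
      · obtain ⟨a, rfl, e⟩ := h2 a ha hp b hz
        exact .inr ⟨_, ⟨(a, b), ⟨ha, (I.pin a).1 hp, e⟩, rfl⟩, rfl⟩
    rw [← Measure.restrict_eq_self _ (inter_subset_left.trans s1)]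
    refine (congrArg (fun μ : Measure _ => μ (O ∩ Tk W' m' c' p')) g.μ.symm).trans_le ?_
    rw [Measure.map_apply_of_aemeasurable (g.sm.continuousOn.aemeasurable
      Ψ.open_source.measurableSet) mT,
      Measure.restrict_apply' Ψ.toOpenPartialHomeomorph.open_source.measurableSet]
    refine (measure_mono ?_).trans (hv h.m0 h.c0 h.p0 rfl h.par h.o0 fun a _ k =>
      .inl (not_not.1 k).le)
    rintro z ⟨hz, hs⟩ a hp ha
    obtain ⟨b, rfl⟩ := h.rg (a := a) (ha.elim (fun k => Sys.inf_subset _ k) And.left)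
    have ha' : I.f b ∈ h.c0.1 ∧ ¬M.pin (I.f b) ∨ I.f b ∈ M.sys.fr h.c0.1 := ha.imp (⟨·, hp⟩) (·.2.1)
    rcases k1.le hs with ⟨x, hx, rfl⟩ | ⟨_, ⟨q, hq, rfl⟩, rfl⟩
    · have := hz.2 _ (mt (I.pin b).1 hp) (h.nk hp ha)
      rwa [show Ψ.toOpenPartialHomeomorph _ = _ from k3 x hx, Cht98.hZ_φ _ (hm _ (mt (I.pin b).1 hp)
        (h.nk hp ha)) (mt (h.cores (hL.sub hx.1) hx.1).1 hx.2), s_ψ I b (hL.sub hx.1),
        ← Cht98.hZ_φ W.toCaps ha' hx.2] at this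
    · refine not_lt.1 fun k => ?_
      obtain ⟨y, e1, e2⟩ := Cht98.exists_of_hZ W.toCaps ha' (k.trans (by norm_num))
      exact Cyl58.caps_ne W.toCaps e1 ((h.mem_c _).2 hq.1) hq.2.1 _ e2

end gen

end Crest.Agent.X212.Sb87
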