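import Crest.Agent.X212.Sw87.Base
import Crest.Agent.X212.Sw87.Cob

/-!
# Row 212, layer S (helper87): scenes

* `cobStmt : H1Stmt → CobStmt`;
* `Req ob` : countably many cobordisms between given objects, `Req.scene`; `PX.ex` : the words of an exterior;
* `cyR` : the cylinders; `iso_of` : diffeomorphic objects have isomorphic modules.
-/

set_option autoImplicit false
set_option linter.unusedSectionVars false

open Set Filter Topology Function
open scoped ContDiff Manifold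
open Crest.Agent.X212.Bor5.T Crest.Agent.X212.Orx52
open Crest.Agent.X212.Cyl58 (TIso)
open Crest.Agent.X212.Rod53 (Z2 Loc Jr PM Uni IsWd wd)
open Crest.Agent.X212.Rw22 (HIso Pure NVH)
open Crest.Agent.X212.Win22 (Hf)
open Crest.Agent.X212.Bor5 (K)

noncomputable section

namespace Crest.Agent.X212.Sw87

theorem Fo.conn {τ : Tub} {A : O3} {a : Z2} (f : Fo τ A a) : ConnectedSpace τ.N.M := by
  have h : IsPreconnected τ.T.Ex := by
    rw [← (f.F.tg' f.hu).bij.image_eq]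
    exact f.F.tb.isPreconnected_Ex.image _ fun y hy =>
      ((f.F.tg' f.hu).ld y hy).contMDiffAt.continuousAt.continuousWithinAt
  have : PreconnectedSpace τ.N.M := ⟨τ.T.dense_Ex.closure_eq ▸ h.closure⟩
  exact ⟨⟨τ.T.τ (1, 1)⟩⟩

/-- **R-COB** -/
theorem cobStmt (h : H1Stmt) : CobStmt := fun τ A B w hw a b f g y ha hb => by
  have := Fo.conn f
  have hx : Iio (0 : ℝ) ⊆ Jr (wd w) a := by
    simpa using Rod53.Iio_subset_Jr (a := w) (α := a) (j := -1) fun k hk => ha k (by omega) ▸ PM.refl _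
  have hy : Ioi (y : ℝ) ⊆ Jr (wd w) b := by
    simpa using Rod53.Ioi_subset_Jr (a := w) (α := b) (i := y) fun k hk => hb k hk ▸ PM.refl _
  exact ⟨cob hw.loc f g hx hy (h τ A a f _ hw.loc ⟨-1, hx (by norm_num)⟩), ⟨TIso.refl _ isOpen_univ,
    tpos_refl _ (oX_spec hw.loc τ.ori).ori, rfl, rfl, fun _ _ => rfl, fun _ _ => rfl⟩⟩

theorem isWd1 {a b : Z2} (h : Uni a b) : IsWd (w1 a b) := by
  refine ⟨fun i => ?_, fun i => ?_⟩ <;> unfold w1 <;> split_ifs
  exacts [⟨_, h⟩, ⟨_, h.symm⟩, .inl (PM.refl _), .inr h, by omega, .inl (PM.refl _)]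

theorem isWd2 {a b c : Z2} (h : Uni a b) (k : Uni b c) : IsWd (w2 a b c) := by
  refine ⟨fun i => ?_, fun i => ?_⟩ <;> unfold w2 <;> split_ifs <;>
    first | omega | exact ⟨_, h⟩ | exact ⟨_, k⟩ | exact ⟨_, k.symm⟩ | exact .inl (PM.refl _) | exact .inr h | exact .inr k

/-- countably many cobordisms -/
structure Req {ι : Type} (ob : ι → Q3) : Type 1 where
  J : Type
  [cJ : Countable J]
  s : J → ι
  t : J → ι
  cb : ∀ j, Cob (ob (s j)) (ob (t j))

attribute [instance] Req.cJ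

section req

variable {ι : Type} {ob : ι → Q3}

/-- countable unions -/
def Req.sum {T : Type} [Countable T] (r : T → Req ob) : Req ob :=
  ⟨Σ x, (r x).J, fun j => (r j.1).s j.2, fun j => (r j.1).t j.2, fun j => (r j.1).cb j.2⟩

/-- the scene without caps -/
def Req.scene [Countable ι] (r : Req ob) (i0 : ι) (s0 : Sph (ob i0).toO3) (inj : Injective s0.π) : Scene where
  ι := ι
  ob := ob
  κ i j := {x : r.J // r.s x = i ∧ r.t x = j}
  cob x := cast (by rw [x.2.1, x.2.2]) (r.cb x.1)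
  γ _ := Empty
  cap x := x.elim
  i0 := i0
  s0 := s0
  inj := inj

/-- the fillings of a tube among the objects -/
structure PX (ob : ι → Q3) (τ : Tub) {I : Type} (V : Set I) (v : I → Z2) where
  ix : I → ι
  f : ∀ i, i ∈ V → Fo τ (ob (ix i)).toO3 (v i)

variable {τ : Tub} {I : Type} {V : Set I} {v : I → Z2} (P : PX ob τ V v) (hC : CobStmt) {a b c : I}

theorem PX.ex1 (hC : CobStmt) (h : Eg V v a b) :
    ∃ C, Nonempty (Rt C (isWd1 h.2.2).loc (P.f a h.1) (P.f b h.2.1) 0 0) := by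
  simpa using hC τ _ _ _ (isWd1 h.2.2) _ _ (P.f a h.1) (P.f b h.2.1) 0 (fun n k => if_pos k)
    fun n k => if_neg (by omega)

theorem PX.ex2 (hC : CobStmt) (h : Eg V v a b) (k : Eg V v b c) :
    ∃ C, Nonempty (Rt C (isWd2 h.2.2 k.2.2).loc (P.f a h.1) (P.f c k.2.1) 0 1) := by
  simpa using hC τ _ _ _ (isWd2 h.2.2 k.2.2) _ _ (P.f a h.1) (P.f c k.2.1) 1 (fun n k => if_pos k)
    fun n k => (if_neg (by omega)).trans (if_neg (by omega))

/-- the words with one vertex -/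
def PX.r1 [Countable I] : Req ob :=
  ⟨{x : I × I // Eg V v x.1 x.2}, fun x => P.ix x.1.1, fun x => P.ix x.1.2, fun x => (P.ex1 hC x.2).choose⟩

/-- the words with two vertices -/
def PX.r2 [Countable I] : Req ob :=
  ⟨{x : I × I × I // Eg V v x.1 x.2.1 ∧ Eg V v x.2.1 x.2.2}, fun x => P.ix x.1.1, fun x => P.ix x.1.2.2,
    fun x => (P.ex2 hC x.2.1 x.2.2).choose⟩

/-- all words -/
def PX.req [Countable I] : Req ob := Req.sum fun x : Bool => if x then P.r1 hC else P.r2 hC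

variable (ob) in
/-- the cylinders -/
def cyR [Countable ι] : Req ob := Req.sum fun x : Fin 3 => match x with
  | 0 => ⟨{x : ι × ι // Nonempty (PD (ob x.1).toO3 (ob x.2).toO3)}, fun x => x.1.1, fun x => x.1.2,
      fun x => cyC x.2.some⟩
  | 1 => ⟨{x : ι × ι // Nonempty (PD (ob x.1).toO3 (ob x.2).toO3)}, fun x => x.1.2, fun x => x.1.1,
      fun x => cyC x.2.some.symm⟩
  | 2 => ⟨ι, id, id, fun _ => cyC (PD.refl _)⟩

end req

/-- the scene contains the cobordisms of `r` -/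
def Has (S : Scene) (r : Req S.ob) : Type := ∀ j, Kc S (r.s j) (r.t j) (r.cb j)

/-- the scene of `r` does -/
def Req.has {ι : Type} [Countable ι] {ob : ι → Q3} (r : Req ob) (i0 : ι) (s0 : Sph (ob i0).toO3)
    (inj : Injective s0.π) : Has (r.scene i0 s0 inj) r := fun j => ⟨⟨j, rfl, rfl⟩, rfl⟩

variable {S : Scene}

/-- parts of a union -/
def Has.part {T : Type} [Countable T] {r : T → Req S.ob} (h : Has S (Req.sum r)) (x : T) : Has S (r x) :=
  fun j => h ⟨x, j⟩

/-- caps do not matter -/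
def Has.caps {r : Req S.ob} (h : Has S r) (γ : S.ι → Type) [∀ i, Countable (γ i)]
    (cap : ∀ {i}, γ i → Cp (S.ob i)) : Has (S.caps γ cap) r := fun j => ⟨(h j).c, (h j).e⟩

/-- the words of an exterior in a scene -/
def PX.ex {τ : Tub} {I : Type} [Countable I] {V : Set I} {v : I → Z2} (P : PX S.ob τ V v) {hC : CobStmt}
    (h : Has S (P.req hC)) : Ex S τ V v where
  ι := P.ix
  f := P.f
  c1 {a b} k := (h.part true ⟨(a, b), k⟩).c
  h1 k := isWd1 k.2.2
  r1 {a b} k := (h.part true ⟨(a, b), k⟩).e.symm ▸ (P.ex1 hC k).choose_spec.some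
  c2 {a b c} k l := (h.part false ⟨(a, b, c), k, l⟩).c
  h2 k l := isWd2 k.2.2 l.2.2
  r2 {a b c} k l := (h.part false ⟨(a, b, c), k, l⟩).e.symm ▸ (P.ex2 hC k l).choose_spec.some

theorem iso_of (θ : Th S) (h : Has S (cyR S.ob)) {i j : S.ι} (k : Nonempty (PD (S.ob i).toO3 (S.ob j).toO3)) :
    Nonempty (HIso (θ.H i) (θ.H j)) :=
  ⟨hiso θ (h.part 0 ⟨(i, j), k⟩) (h.part 1 ⟨(i, j), k⟩) (h.part 2 i) (h.part 2 j)⟩

/-! ### transport along isomorphisms -/

section hiso

variable {L L' : Type} {X : Hf L} {Y : Hf L'} (g : HIso X Y)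

theorem hiso_map (s : L) (x : ℚ) : (X.gr s x).map (g.g : X.H →ₗ[K] Y.H) = Y.gr (g.τ s) x := by
  refine le_antisymm ?_ fun z hz => ?_
  · rintro _ ⟨y, hy, rfl⟩
    exact g.map _ _ y hy
  · exact Win22.map_piece (W := fun j : L × ℚ => X.gr j.1 j.2) (W' := fun j : L' × ℚ => Y.gr j.1 j.2)
      X.top Y.ind (τ := fun j => (g.τ j.1, j.2))
      (fun a b h => Prod.ext (g.τ.injective (congrArg Prod.fst h)) (congrArg (fun p => p.2) h))
      (g := (g.g : X.H →ₗ[K] Y.H)) g.g.surjective (fun j y hy => g.map j.1 j.2 y hy) (s, x) hz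

include g in
theorem hiso_pure {x : ℚ} (h : Pure Y fun _ => x) : Pure X fun _ => x :=
  ⟨fun s k => ⟨by rw [← (h.1 (g.τ s) k).1, ← hiso_map g, LinearEquiv.finrank_map_eq],
    fun y hy e => g.g.map_eq_zero_iff.1 ((h.1 (g.τ s) k).2 _ (g.map _ _ y hy) (by rw [← g.U, e, map_zero]))⟩,
  fun s z k => (Submodule.eq_bot_iff _).2 fun y hy =>
    g.g.map_eq_zero_iff.1 ((Submodule.eq_bot_iff _).1 (h.2 (g.τ s) z k) _ (g.map _ _ y hy))⟩

include g in
theorem hiso_nvh (h : NVH X) : NVH Y :=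
  let ⟨Z, a, b⟩ := h
  ⟨Z, a, fun P hP φ => let ⟨i⟩ := b P hP (φ.trans g.τ.symm)
    have j := X.obIso hP (φ.trans g.τ.symm) hP φ g.g g.τ g.map g.U
    ⟨⟨i.φ.trans j.φ, i.g.trans j.g, fun s x => by
      rw [LinearEquiv.coe_trans, Submodule.map_comp, i.map, j.map]; rfl,
      fun y => (congrArg j.g (i.U y)).trans (j.U _)⟩⟩⟩

end hiso

end Crest.Agent.X212.Sw87
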