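import Crest.Agent.X212.Sw87.In
import Crest.Agent.X212.Nv5.Stm
import Crest.Agent.X212.Lab56.Th
import Crest.Agent.X212.Deg17.Th
import Crest.Agent.X212.Rfl19.Stm
import Crest.Agent.X212.Rw22.Main
import Crest.Agent.X212.Rob53.Df2

/-!
# Row 212, layer S (helper87): the seam with the closed leaves discharged

`sys0 : ThStmt → HOut → NvStmt → NkStmt → FoStmt → BuStmt → ExStmt → Sys0Stmt`.
-/

set_option autoImplicit false

open Set
open scoped Manifold
open Crest.Agent.X212.Bor5.T Crest.Agent.X212.Nv5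
open Crest.Agent.X212.Ext52 (KD)
open Crest.Agent.X212.Int54 (Ori)
open Crest.Agent.X212.Cab39 (cable)

noncomputable section

namespace Crest.Agent.X212.Sw87

/-- what the topological layer hands over (`H7.HStmt`) -/
def HOut : Prop := ∀ k : KD, ¬k.thick.IsUnknot → ∀ o : Bb31.Fm 3 (Yc k), Ori (𝓡 3) o →
  H7.Out Sep15.Q (Yc k) o (Cab39.Phi k)

theorem nvS (hH : HOut) (hN : NvStmt) (hK : NkStmt) (hF : FoStmt) : NvS := fun Q R hQ k hk S X => by
  obtain ⟨_, o, ho, ⟨f⟩⟩ := hF k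
  obtain ⟨N⟩ := hK _ o ho _ (hH k hk)
  have := Fo.conn f
  obtain ⟨_, _, r, ε, w⟩ := Lab56.clsStmt _ _ _ _ X _ _ (xK (cable k)).gd (xK (cable k)).cl fun i h =>
    Lab56.pic_fill _ (X.f i h).hu (xK (cable k)).gd.pic
  exact hN Q R hQ S _ X _ r ε (xK (cable k)).gd rfl w _ f N

theorem rodS (hB : BuStmt) (hE : ExStmt) : RodStmt' :=
  rodStmt Deg17.deg Deg17.deg2 Rfl19.cmpStmt hB Rfl19.rflStmt hE

theorem sys0 (hT : ThStmt) (hH : HOut) (hN : NvStmt) (hK : NkStmt) (hF : FoStmt) (hB : BuStmt) (hE : ExStmt) :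
    Bor5.Sys0Stmt :=
  Rw22.alg (seam hT (nvS hH hN hK hF) Rob53.obStmt Rob53.difStmt Rob53.dif2 Lab56.linkStmt Lab56.clsStmt
    (rodS hB hE))

end Crest.Agent.X212.Sw87
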